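import Vale.Agent.P249.SP.Spec
import Vale.Agent.P249.H982.Chain

/-! # P249 CHAIN: smallness of `u` at high levels propagates to level `0` -/

namespace Vale.Agent.P249.SP

open Finset

theorem specChain : SpecChain := by
  intro p hp hp2 A J hJ
  obtain ⟨b, hb, s0, h⟩ := P249H982.chain hp hp2 A J hJ
  refine ⟨b, hb, s0, fun s hs M u hM h1 h2 => ?_⟩
  have h3 := h s hs M u hM (fun t ht w hw => h1 t ht w hw) h2
  unfold binR
  simpa only [Nat.zero_add] using h3

end Vale.Agent.P249.SP
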