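import Vale.Agent.P249.SP.Spec

/-!
# P249, piece CLK: Clarkson inequalities with gap (scalar)
-/

namespace Vale.Agent.P249.SP

lemma clk_sq_rpow {a p : ℝ} (ha : 0 ≤ a) : (a ^ 2) ^ (p / 2) = a ^ p := by
  rw [← Real.rpow_natCast a 2, ← Real.rpow_mul ha]
  congr 1
  push_cast
  ring

lemma clk_one_ge {p t : ℝ} (hp : 2 ≤ p) (ht0 : 0 ≤ t) (ht1 : t ≤ 1) :
    1 + p / 2 * t ^ p ≤ ((1 + t) ^ p + (1 - t) ^ p) / 2 := by
  have h1 : (1 : ℝ) ≤ p / 2 := by linarith
  have hc0 := (convexOn_rpow h1).2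
    (Set.mem_Ici.2 (sq_nonneg (1 + t))) (Set.mem_Ici.2 (sq_nonneg (1 - t)))
  have hc := hc0 (show (0 : ℝ) ≤ 1 / 2 by norm_num) (show (0 : ℝ) ≤ 1 / 2 by norm_num)
    (by norm_num)
  simp only [smul_eq_mul] at hc
  rw [clk_sq_rpow (by linarith), clk_sq_rpow (by linarith)] at hc
  have h2 : 1 / 2 * (1 + t) ^ 2 + 1 / 2 * (1 - t) ^ 2 = 1 + t ^ 2 := by ring
  rw [h2] at hc
  have h3 : 1 + p / 2 * t ^ 2 ≤ (1 + t ^ 2) ^ (p / 2) :=
    one_add_mul_self_le_rpow_one_add (by nlinarith [sq_nonneg t]) h1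
  have h4 : t ^ p ≤ t ^ 2 := by
    rw [← Real.rpow_natCast t 2]
    rcases eq_or_lt_of_le ht0 with h | h
    · subst h
      have hp0 : p ≠ 0 := by
        intro h0
        rw [h0] at hp
        norm_num at hp
      rw [Real.zero_rpow hp0, Real.zero_rpow (by norm_num)]
    · exact Real.rpow_le_rpow_of_exponent_ge h ht1 (by push_cast; linarith)
  nlinarith

lemma clk_one_le {p t : ℝ} (hp : 1 < p) (hp2 : p ≤ 2) (ht0 : 0 ≤ t) (ht1 : t ≤ 1) :
    ((1 + t) ^ p + (1 - t) ^ p) / 2 ≤ 1 + p / 2 * t ^ p := by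
  have h1 : (0 : ℝ) ≤ p / 2 := by linarith
  have h1' : p / 2 ≤ 1 := by linarith
  have hc0 := (Real.concaveOn_rpow h1 h1').2
    (Set.mem_Ici.2 (sq_nonneg (1 + t))) (Set.mem_Ici.2 (sq_nonneg (1 - t)))
  have hc := hc0 (show (0 : ℝ) ≤ 1 / 2 by norm_num) (show (0 : ℝ) ≤ 1 / 2 by norm_num)
    (by norm_num)
  simp only [smul_eq_mul] at hc
  rw [clk_sq_rpow (by linarith), clk_sq_rpow (by linarith)] at hc
  have h2 : 1 / 2 * (1 + t) ^ 2 + 1 / 2 * (1 - t) ^ 2 = 1 + t ^ 2 := by ring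
  rw [h2] at hc
  have h3 : (1 + t ^ 2) ^ (p / 2) ≤ 1 + p / 2 * t ^ 2 :=
    rpow_one_add_le_one_add_mul_self (by nlinarith [sq_nonneg t]) h1 h1'
  have h4 : t ^ 2 ≤ t ^ p := by
    rw [← Real.rpow_natCast t 2]
    rcases eq_or_lt_of_le ht0 with h | h
    · subst h
      have hp0 : p ≠ 0 := by
        intro h0
        rw [h0] at hp
        norm_num at hp
      rw [Real.zero_rpow hp0, Real.zero_rpow (by norm_num)]
    · exact Real.rpow_le_rpow_of_exponent_ge h ht1 (by push_cast; linarith)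
  nlinarith

/-- ordered version -/
lemma clk_ord {p a b : ℝ} (hp : 1 < p) (hb : 0 ≤ b) (hba : b ≤ a) :
    (2 ≤ p → a ^ p + b ^ p + (p / 2 - 1) * b ^ p ≤ ((a + b) ^ p + (a - b) ^ p) / 2) ∧
    (p ≤ 2 → ((a + b) ^ p + (a - b) ^ p) / 2 ≤ a ^ p + b ^ p - (1 - p / 2) * b ^ p) := by
  rcases eq_or_lt_of_le (hb.trans hba) with h | h
  · have hb0 : b = 0 := le_antisymm (by linarith) hb
    subst hb0
    rw [← h]
    have h0 : (0 : ℝ) ^ p = 0 := Real.zero_rpow (by
      intro h0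
      rw [h0] at hp
      norm_num at hp)
    simp [h0]
  · have hap : 0 < a ^ p := Real.rpow_pos_of_pos h p
    have ht0 : 0 ≤ b / a := div_nonneg hb h.le
    have ht1 : b / a ≤ 1 := (div_le_one h).2 hba
    have e1 : (a + b) ^ p = a ^ p * (1 + b / a) ^ p := by
      rw [← Real.mul_rpow h.le (by linarith)]
      congr 1
      field_simp
    have e2 : (a - b) ^ p = a ^ p * (1 - b / a) ^ p := by
      rw [← Real.mul_rpow h.le (by linarith)]
      congr 1
      field_simp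
    have e3 : b ^ p = a ^ p * (b / a) ^ p := by
      rw [← Real.mul_rpow h.le ht0]
      congr 1
      field_simp
    rw [e1, e2, e3]
    constructor
    · intro h2
      have := mul_le_mul_of_nonneg_left (clk_one_ge h2 ht0 ht1) hap.le
      linarith
    · intro h2
      have := mul_le_mul_of_nonneg_left (clk_one_le hp h2 ht0 ht1) hap.le
      linarith

lemma clk_abs (x y p : ℝ) :
    |x + y| ^ p + |x - y| ^ p = (|x| + |y|) ^ p + |(|x| - |y|)| ^ p := by
  rcases le_total 0 x with hx | hx <;> rcases le_total 0 y with hy | hy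
  · rw [abs_of_nonneg hx, abs_of_nonneg hy, abs_of_nonneg (add_nonneg hx hy)]
  · rw [abs_of_nonneg hx, abs_of_nonpos hy, abs_of_nonneg (a := x - y) (by linarith), add_comm]
    rw [sub_neg_eq_add, sub_eq_add_neg]
  · rw [abs_of_nonpos hx, abs_of_nonneg hy, abs_of_nonpos (a := x - y) (by linarith), add_comm]
    rw [show -(x - y) = -x + y by ring, show -x - y = -(x + y) by ring, abs_neg]
  · rw [abs_of_nonpos hx, abs_of_nonpos hy, abs_of_nonpos (add_nonpos hx hy)]
    rw [show -(x + y) = -x + -y by ring, show -x - -y = -(x - y) by ring, abs_neg]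

/-- **CLK** -/
theorem specClk : SpecClk := by
  intro p hp x y
  have key : ∀ a b : ℝ, 0 ≤ a → 0 ≤ b →
      (2 ≤ p → a ^ p + b ^ p + (p / 2 - 1) * (min a b) ^ p ≤
        ((a + b) ^ p + |a - b| ^ p) / 2) ∧
      (p ≤ 2 → ((a + b) ^ p + |a - b| ^ p) / 2 ≤
        a ^ p + b ^ p - (1 - p / 2) * (min a b) ^ p) := by
    intro a b ha hb
    rcases le_total b a with h | h
    · rw [min_eq_right h, abs_of_nonneg (by linarith)]
      exact clk_ord hp hb h
    · rw [min_eq_left h, abs_of_nonpos (by linarith), show -(a - b) = b - a by ring,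
        add_comm a b, add_comm (a ^ p) (b ^ p)]
      exact clk_ord hp ha h
  rw [clk_abs x y p]
  exact key _ _ (abs_nonneg x) (abs_nonneg y)

end Vale.Agent.P249.SP
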