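import Vale.Agent.P249.SP.Spec

/-!
# Assembly: SpecCore from the pieces
-/

open Finset Filter Topology
open scoped BigOperators symmDiff

namespace Vale.Agent.P249.SP

lemma wt_nonneg {θ : ℝ} (h0 : 0 ≤ θ) (h1 : θ ≤ 1) {d : ℕ} (S : Finset (Fin d)) : 0 ≤ wt θ S := by
  unfold wt; have : 0 ≤ 1 - θ := by linarith
  positivity

lemma tail_nonneg {θ : ℝ} (h0 : 0 ≤ θ) (h1 : θ ≤ 1) (d s : ℕ) : 0 ≤ tail θ d s :=
  Finset.sum_nonneg fun S _ => wt_nonneg h0 h1 S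

/-- group the sets by their cardinality -/
lemma sum_by_card {d : ℕ} (g : ℕ → ℝ) (q : ℕ → Prop) [DecidablePred q] :
    ∑ S ∈ univ.filter (fun S : Finset (Fin d) => q S.card), g S.card =
      ∑ r ∈ (range (d + 1)).filter q, (d.choose r : ℝ) * g r := by
  classical
  have h := Finset.sum_powerset_apply_card (x := (univ : Finset (Fin d)))
    (fun r => if q r then g r else 0)
  rw [Finset.powerset_univ, Finset.card_univ, Fintype.card_fin] at h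
  rw [Finset.sum_filter, h, Finset.sum_filter]
  refine Finset.sum_congr rfl fun r _ => ?_
  split_ifs <;> simp

lemma tail_eq (θ : ℝ) (d s : ℕ) :
    tail θ d s = ∑ r ∈ (range (d + 1)).filter (fun r => s < r),
      (d.choose r : ℝ) * (θ ^ r * (1 - θ) ^ (d - r)) := by
  unfold tail wt
  exact sum_by_card (fun r => θ ^ r * (1 - θ) ^ (d - r)) (fun r => s < r)

lemma binR_split {θ : ℝ} (h0 : 0 ≤ θ) (h1 : θ ≤ 1) {d s : ℕ} (hs : s ≤ d) (u : ℕ → ℝ) (M : ℝ)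
    (hM : ∀ n, n ≤ d → |u n| ≤ M) :
    |(∑ r ∈ range (s + 1), (d.choose r : ℝ) * θ ^ r * (1 - θ) ^ (d - r) * u r) -
      binR d θ u 0| ≤ M * tail θ d s := by
  classical
  have hpos : 0 ≤ 1 - θ := by linarith
  have e1 : binR d θ u 0 = (∑ r ∈ range (s + 1), (d.choose r : ℝ) * θ ^ r * (1 - θ) ^ (d - r) * u r) +
      ∑ r ∈ (range (d + 1)).filter (fun r => s < r),
        (d.choose r : ℝ) * θ ^ r * (1 - θ) ^ (d - r) * u r := by
    unfold binR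
    simp only [zero_add]
    rw [← Finset.sum_filter_add_sum_filter_not (range (d + 1)) (fun r => r ≤ s)]
    congr 1
    · refine Finset.sum_congr ?_ fun _ _ => rfl
      ext r; simp only [mem_filter, mem_range]; omega
    · refine Finset.sum_congr ?_ fun _ _ => rfl
      ext r; simp only [mem_filter, mem_range]; omega
  rw [e1, tail_eq, sub_add_cancel_left, abs_neg, Finset.mul_sum]
  refine (Finset.abs_sum_le_sum_abs _ _).trans (Finset.sum_le_sum fun r hr => ?_)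
  rw [mem_filter, mem_range] at hr
  have h2 := hM r (by omega)
  rw [abs_mul, abs_of_nonneg (by positivity : (0:ℝ) ≤ (d.choose r : ℝ) * θ ^ r * (1 - θ) ^ (d - r))]
  calc (d.choose r : ℝ) * θ ^ r * (1 - θ) ^ (d - r) * |u r|
      ≤ (d.choose r : ℝ) * θ ^ r * (1 - θ) ^ (d - r) * M := by
        exact mul_le_mul_of_nonneg_left h2 (by positivity)
    _ = M * ((d.choose r : ℝ) * (θ ^ r * (1 - θ) ^ (d - r))) := by ring

/-- all conditions on `s` used below hold eventually -/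
lemma ev_conditions (p D H₀ ν₁ ν₂ C b : ℝ) (J A : ℕ) (hH : 0 < H₀) (hν₁ : 0 < ν₁) (hν₂ : 0 < ν₂)
    (hC : 0 < C) (hb : 0 < b) (hJ : 16 ≤ J) :
    ∀ᶠ s : ℕ in atTop, 1 ≤ s ∧ A + 2 + 12 * J ≤ s ∧ (5 / 6 : ℝ) ^ s ≤ ν₁ ∧ (5 / 6 : ℝ) ^ s ≤ ν₂ ∧
      (1 / 2 : ℝ) ^ (s ^ 2) ≤ ν₂ ∧
      (4 * D + 4) * (5 / 6 : ℝ) ^ s + (2 * D + 1) * Real.exp (-b * s) + (1 / 2) ^ s <
        1 / 4 * H₀ ^ (1 / p) ∧
      C * ((J : ℝ) * s + 1) ^ 2 * (1 + (s : ℝ) ^ 2) ≤ ((J : ℝ) ^ 4) ^ s := by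
  have t56 : Tendsto (fun s : ℕ => (5 / 6 : ℝ) ^ s) atTop (𝓝 0) :=
    tendsto_pow_atTop_nhds_zero_of_lt_one (by norm_num) (by norm_num)
  have t12 : Tendsto (fun s : ℕ => (1 / 2 : ℝ) ^ s) atTop (𝓝 0) :=
    tendsto_pow_atTop_nhds_zero_of_lt_one (by norm_num) (by norm_num)
  have tsq : Tendsto (fun s : ℕ => (1 / 2 : ℝ) ^ (s ^ 2)) atTop (𝓝 0) :=
    t12.comp (tendsto_pow_atTop (by norm_num))
  have texp : Tendsto (fun s : ℕ => Real.exp (-b * s)) atTop (𝓝 0) := by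
    refine Real.tendsto_exp_atBot.comp ?_
    exact (tendsto_natCast_atTop_atTop).const_mul_atTop_of_neg (by linarith)
  have tsum : Tendsto (fun s : ℕ => (4 * D + 4) * (5 / 6 : ℝ) ^ s +
      (2 * D + 1) * Real.exp (-b * s) + (1 / 2) ^ s) atTop (𝓝 0) := by
    have := ((t56.const_mul (4 * D + 4)).add (texp.const_mul (2 * D + 1))).add t12
    simpa using this
  have hpos : 0 < 1 / 4 * H₀ ^ (1 / p) := by positivity
  have tpoly : ∀ᶠ s : ℕ in atTop,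
      C * ((J : ℝ) * s + 1) ^ 2 * (1 + (s : ℝ) ^ 2) ≤ ((J : ℝ) ^ 4) ^ s := by
    -- `C (J s + 1)^2 (1 + s^2) ≤ C (J+1)^2 2 s^4 ≤ 2^s ≤ (J^4)^s`
    have h1 : ∀ᶠ s : ℕ in atTop, C * ((J : ℝ) + 1) ^ 2 * 2 * (s : ℝ) ^ 4 ≤ 2 ^ s := by
      have h := (tendsto_pow_const_div_const_pow_of_one_lt 4 (by norm_num : (1:ℝ) < 2))
      have h2 := h.const_mul (C * ((J : ℝ) + 1) ^ 2 * 2)
      rw [mul_zero] at h2
      filter_upwards [h2.eventually (gt_mem_nhds one_pos)] with s hs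
      have h2s : (0:ℝ) < 2 ^ s := by positivity
      rw [mul_div_assoc'] at hs
      rw [div_lt_one h2s] at hs
      exact hs.le
    filter_upwards [h1, eventually_ge_atTop 1] with s hs hs1
    have hs1' : (1:ℝ) ≤ s := by exact_mod_cast hs1
    have hJ0 : (16:ℝ) ≤ J := by exact_mod_cast hJ
    have a1 : (J : ℝ) * s + 1 ≤ ((J : ℝ) + 1) * s := by nlinarith
    have a2 : 1 + (s : ℝ) ^ 2 ≤ 2 * (s : ℝ) ^ 2 := by nlinarith
    calc C * ((J : ℝ) * s + 1) ^ 2 * (1 + (s : ℝ) ^ 2)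
        ≤ C * (((J : ℝ) + 1) * s) ^ 2 * (2 * (s : ℝ) ^ 2) := by
          gcongr
      _ = C * ((J : ℝ) + 1) ^ 2 * 2 * (s : ℝ) ^ 4 := by ring
      _ ≤ 2 ^ s := hs
      _ ≤ ((J : ℝ) ^ 4) ^ s := by
          apply pow_le_pow_left₀ (by norm_num)
          have h16 : (16:ℝ) ^ 4 ≤ (J : ℝ) ^ 4 := pow_le_pow_left₀ (by norm_num) hJ0 4
          norm_num at h16
          linarith
  filter_upwards [eventually_ge_atTop 1, eventually_ge_atTop (A + 2 + 12 * J),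
    t56.eventually (ge_mem_nhds hν₁), t56.eventually (ge_mem_nhds hν₂),
    tsq.eventually (ge_mem_nhds hν₂), tsum.eventually (gt_mem_nhds hpos), tpoly]
    with s h1 h2 h3 h4 h5 h6 h7
  exact ⟨h1, h2, h3, h4, h5, h6, h7⟩

/-- the error term is tiny -/
lemma err_small {s A J : ℕ} (hs : A + 2 + 12 * J ≤ s) (ι : Type) [Fintype ι]
    (hι : Fintype.card ι ≤ 2 ^ (A * s)) :
    err ((1 / 2) ^ (s ^ 2)) (J * s) ι ≤ (1 / 2) ^ (J * s) * (1 / 2) ^ s := by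
  unfold err
  have h1 : ((Fintype.card ι : ℝ) + 1) ≤ 2 ^ (A * s + 1) := by
    have : (Fintype.card ι : ℝ) ≤ 2 ^ (A * s) := by exact_mod_cast hι
    have h2 : (1:ℝ) ≤ 2 ^ (A * s) := one_le_pow₀ (by norm_num)
    rw [pow_succ]; linarith
  have h2 : (1000 : ℝ) ^ (J * s) ≤ 2 ^ (10 * (J * s)) := by
    rw [pow_mul (2:ℝ) 10 (J * s)]
    exact pow_le_pow_left₀ (by norm_num) (by norm_num) _
  have hnat : J * s + s + (A * s + 1) + 10 * (J * s) ≤ s ^ 2 := by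
    have : (A + 2 + 12 * J) * s ≤ s * s := Nat.mul_le_mul_right _ hs
    have hs1 : 1 ≤ s := by omega
    nlinarith
  have h3 : (1 / 2 : ℝ) ^ (s ^ 2) ≤
      (1 / 2) ^ (J * s + s + (A * s + 1) + 10 * (J * s)) :=
    pow_le_pow_of_le_one (by norm_num) (by norm_num) hnat
  calc (1 / 2 : ℝ) ^ (s ^ 2) * ((Fintype.card ι : ℝ) + 1) * 1000 ^ (J * s)
      ≤ (1 / 2) ^ (J * s + s + (A * s + 1) + 10 * (J * s)) * 2 ^ (A * s + 1) *
        2 ^ (10 * (J * s)) := by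
        gcongr
    _ = (1 / 2) ^ (J * s) * (1 / 2) ^ s * ((1 / 2) ^ (A * s + 1) * 2 ^ (A * s + 1)) *
        ((1 / 2) ^ (10 * (J * s)) * 2 ^ (10 * (J * s))) := by
        rw [pow_add, pow_add, pow_add]; ring
    _ = (1 / 2) ^ (J * s) * (1 / 2) ^ s := by
        rw [← mul_pow, ← mul_pow]; norm_num

/-- the decay of `u` in the form needed by the chain -/
lemma decay {p D : ℝ} (hp : 1 < p) (hD : 1 ≤ D) {A s d n c : ℕ} (hc : c ≤ 2 ^ (A * s)) (hn : n ≤ d)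
    {e x : ℝ} (he : e ≤ (1 / 2) ^ d)
    (hx : x ≤ (c : ℝ) ^ (1 / p) * (D * (2 : ℝ) ^ (-(n : ℝ) / p)) + e) :
    x ≤ (2 * D + 1) * (2 : ℝ) ^ (-((n : ℝ) - A * s) / p) := by
  refine hx.trans ?_
  have hp0 : 0 < p := by linarith
  have hcard : (c : ℝ) ^ (1 / p) ≤ (2 : ℝ) ^ ((A * s : ℝ) / p) := by
    have h1 : (c : ℝ) ≤ (2 : ℝ) ^ (A * s : ℝ) := by
      have : (c : ℝ) ≤ 2 ^ (A * s) := by exact_mod_cast hc
      rw [← Real.rpow_natCast] at this
      push_cast at this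
      exact this
    calc (c : ℝ) ^ (1 / p) ≤ ((2 : ℝ) ^ (A * s : ℝ)) ^ (1 / p) :=
          Real.rpow_le_rpow (Nat.cast_nonneg _) h1 (by positivity)
      _ = (2 : ℝ) ^ ((A * s : ℝ) / p) := by
          rw [← Real.rpow_mul (by norm_num)]; congr 1; ring
  have h2 : (c : ℝ) ^ (1 / p) * (D * (2 : ℝ) ^ (-(n : ℝ) / p)) ≤
      D * (2 : ℝ) ^ (-((n : ℝ) - A * s) / p) := by
    calc (c : ℝ) ^ (1 / p) * (D * (2 : ℝ) ^ (-(n : ℝ) / p))
        ≤ (2 : ℝ) ^ ((A * s : ℝ) / p) * (D * (2 : ℝ) ^ (-(n : ℝ) / p)) :=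
          mul_le_mul_of_nonneg_right hcard (by positivity)
      _ = D * (2 : ℝ) ^ (-((n : ℝ) - A * s) / p) := by
          rw [mul_left_comm, ← Real.rpow_add (by norm_num)]
          congr 2; ring
  have h3 : e ≤ (2 : ℝ) ^ (-((n : ℝ) - A * s) / p) := by
    refine he.trans ?_
    have : ((1 : ℝ) / 2) ^ d = (2 : ℝ) ^ (-(d : ℝ)) := by
      rw [Real.rpow_neg (by norm_num), Real.rpow_natCast, one_div, inv_pow]
    rw [this]
    apply Real.rpow_le_rpow_of_exponent_le (by norm_num)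
    have hn2' : (n : ℝ) ≤ d := by exact_mod_cast hn
    have hAs : (0:ℝ) ≤ A * s := by positivity
    have h5 : ((n : ℝ) - A * s) / p ≤ d := by
      rw [div_le_iff₀ hp0]
      have : (0:ℝ) ≤ d := Nat.cast_nonneg d
      nlinarith
    rw [neg_div]; linarith
  have h4 : (0:ℝ) < (2 : ℝ) ^ (-((n : ℝ) - A * s) / p) := by positivity
  nlinarith

lemma final_arith {D q tz B1 B2 B3 B4 e E H ps : ℝ} (hD : 1 ≤ D) (htz : tz ≤ q)
    (hstart : 1 / 4 * H ≤ B2)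
    (hbr : |B1 - B2| ≤ (D + 1) * tz) (hp5 : |B1 - B3| ≤ e) (he : e ≤ ps)
    (hsplit : |B3 - B4| ≤ (2 * D + 1) * tz) (hchain : |B4| ≤ (2 * D + 1) * E)
    (hfin : (4 * D + 4) * q + (2 * D + 1) * E + ps < 1 / 4 * H) (hq : 0 < q) : False := by
  rw [abs_le] at hbr hp5 hsplit hchain
  have e1 : (D + 1) * tz ≤ (D + 1) * q := mul_le_mul_of_nonneg_left htz (by linarith)
  have e2 : (2 * D + 1) * tz ≤ (2 * D + 1) * q := mul_le_mul_of_nonneg_left htz (by linarith)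
  have e4 : 0 ≤ D * q := by positivity
  nlinarith [hbr.1, hbr.2, hp5.1, hp5.2, hsplit.1, hsplit.2, hchain.1, hchain.2]

theorem core (hLin : SpecLin) (hUni : SpecUni) (hStart : SpecStart) (hPair : SpecPair)
    (hChain : SpecChain) (hTail : SpecTail) (hBridge : SpecBridge) (hCount : SpecCount) :
    SpecCore := by
  intro p D hp hp2 hD
  obtain ⟨δ, ν₁, hδ, hν₁, hSt⟩ := hStart p hp
  obtain ⟨m', Λ, H₀, ν₂, hΛ, hH₀, hν₂, hU⟩ := hUni p D δ hp hp2 hD hδ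
  obtain ⟨C, hC, hL⟩ := hLin p D Λ hp hD hΛ
  refine ⟨4 * m' + 8, fun A hA => ?_⟩
  set J : ℕ := 8 * A + 8 with hJdef
  have hJ16 : 16 ≤ J := by omega
  obtain ⟨b, hb, s₁, hCh⟩ := hChain p hp hp2 A J le_rfl
  obtain ⟨s₀, hs₀⟩ := eventually_atTop.1
    ((ev_conditions p D H₀ ν₁ ν₂ C b J A hH₀ hν₁ hν₂ hC hb hJ16).and
      (eventually_ge_atTop s₁))
  refine ⟨s₀, fun s hs => ?_⟩
  obtain ⟨⟨hs1, hsA, hq1, hq2, hε2, hfin, hpoly⟩, hss₁⟩ := hs₀ s hs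
  have hJ0 : (0:ℝ) < J := by positivity
  have hJ16' : (16:ℝ) ≤ J := by exact_mod_cast hJ16
  set θ : ℝ := 1 / (4 * (J : ℝ)) with hθ
  set z : ℝ := 1 / (2 * (J : ℝ)) with hz
  have hθ0 : 0 < θ := by positivity
  have hz0 : 0 < z := by positivity
  have hθ1 : θ < 1 := by rw [hθ, div_lt_one (by positivity)]; linarith
  have hz1 : z ≤ 1 := by rw [hz, div_le_one (by positivity)]; linarith
  have hzθ : z / 2 = θ := by rw [hz, hθ]; field_simp; ring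
  set d : ℕ := J * s with hd
  have hsd : s ≤ d := by rw [hd]; exact Nat.le_mul_of_pos_left s (by omega)
  have hdc : (d : ℝ) = J * s := by rw [hd]; push_cast; ring
  have hθd : θ * d ≤ (s : ℝ) / 2 := by
    rw [hdc, hθ]
    have : 1 / (4 * (J : ℝ)) * (J * s) = s / 4 := by field_simp
    rw [this]
    have : (0:ℝ) ≤ s := Nat.cast_nonneg s
    linarith
  have hzd : z * d ≤ (s : ℝ) / 2 := by
    rw [hdc, hz]
    have : 1 / (2 * (J : ℝ)) * (J * s) = s / 2 := by field_simp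
    rw [this]
  have htθ : tail θ d s ≤ (5 / 6) ^ s := hTail d s θ hθ0.le hθ1.le hθd
  have htz : tail z d s ≤ (5 / 6) ^ s := hTail d s z hz0.le hz1 hzd
  obtain ⟨fam, hfam⟩ := hU d s θ hθ0 hθ1 (htθ.trans hq2)
  set ε : ℝ := (1 / 2) ^ (s ^ 2) with hε
  have hε0 : 0 < ε := by positivity
  have hε1 : ε ≤ 1 := pow_le_one₀ (by norm_num) (by norm_num)
  obtain ⟨X, hX, hXF⟩ := hL d (m' * s) ε hε0 hε1 fam
  refine ⟨d, X, ?_, ?_⟩
  · -- cardinality
    refine hX.trans ?_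
    have hlog : Real.log (1 / ε) ≤ (s : ℝ) ^ 2 := by
      rw [hε, one_div, ← inv_pow, Real.log_pow]
      have h2 : Real.log ((1 / 2 : ℝ)⁻¹) ≤ 1 := by
        have : ((1 / 2 : ℝ)⁻¹) = 2 := by norm_num
        rw [this]; linarith [Real.log_two_lt_d9]
      push_cast
      nlinarith [sq_nonneg (s : ℝ)]
    have hlog0 : 0 ≤ 1 + Real.log (1 / ε) := by
      have : 0 ≤ Real.log (1 / ε) := Real.log_nonneg (by rw [le_div_iff₀ hε0]; linarith)
      linarith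
    have hN : (NN d (m' * s) : ℝ) ≤ (Real.exp 1 * (J : ℝ) ^ m') ^ s := hCount J m' s (by omega)
    have he : Real.exp 1 ≤ J := by linarith [Real.exp_one_lt_d9]
    have hN2 : (NN d (m' * s) : ℝ) ≤ ((J : ℝ) * (J : ℝ) ^ m') ^ s :=
      hN.trans (pow_le_pow_left₀ (by positivity)
        (mul_le_mul_of_nonneg_right he (by positivity)) s)
    have hN4 : (NN d (m' * s) : ℝ) ^ 4 ≤ (((J : ℝ) * (J : ℝ) ^ m') ^ s) ^ 4 :=
      pow_le_pow_left₀ (Nat.cast_nonneg _) hN2 4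
    calc C * (NN d (m' * s) : ℝ) ^ 4 * ((d : ℝ) + 1) ^ 2 * (1 + Real.log (1 / ε))
        ≤ C * (((J : ℝ) * (J : ℝ) ^ m') ^ s) ^ 4 * ((J : ℝ) * s + 1) ^ 2 * (1 + (s : ℝ) ^ 2) := by
          rw [hdc]
          gcongr
      _ = (((J : ℝ) * (J : ℝ) ^ m') ^ s) ^ 4 *
          (C * ((J : ℝ) * s + 1) ^ 2 * (1 + (s : ℝ) ^ 2)) := by ring
      _ ≤ (((J : ℝ) * (J : ℝ) ^ m') ^ s) ^ 4 * ((J : ℝ) ^ 4) ^ s :=
          mul_le_mul_of_nonneg_left hpoly (by positivity)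
      _ = ((J : ℝ) ^ (4 * m' + 8)) ^ s := by
          rw [← pow_succ', ← pow_mul, ← pow_mul, ← pow_mul, ← pow_mul, ← pow_add]
          congr 1; ring
      _ = ((8 * (A : ℝ) + 8) ^ (4 * m' + 8)) ^ s := by
          rw [hJdef]; push_cast; ring
  · intro ι _ F hF
    by_contra hcon
    push Not at hcon
    obtain ⟨τ, hSys, hL3⟩ := hXF ι F hF
    obtain ⟨τ', hSys', hPk⟩ := hfam ε hε0.le hε2 ι τ hSys hL3
    obtain ⟨ψ, P, hψ, hstart⟩ := hSt d s θ hθ0 hθ1 (htθ.trans hq1) ι (τ' []) H₀ hH₀ hPk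
    have herr := err_small (J := J) hsA ι hcon
    rw [← hε, ← hd] at herr
    have hJs1 : (1 / 2 : ℝ) ^ d ≤ 1 := pow_le_one₀ (by norm_num) (by norm_num)
    have hs12 : (1 / 2 : ℝ) ^ s ≤ 1 := pow_le_one₀ (by norm_num) (by norm_num)
    have herr0 : 0 ≤ err ε d ι := by unfold err; positivity
    have herr1 : err ε d ι ≤ (1 / 2) ^ d := herr.trans
      (mul_le_of_le_one_right (by positivity) hs12)
    have herr2 : err ε d ι ≤ (1 / 2) ^ s := herr.trans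
      (mul_le_of_le_one_left (by positivity) hJs1)
    obtain ⟨u, hu1, hu2, hu3, hu4, hu5⟩ := hPair p D hp hD d s (3 * s) ε hs1 (by omega) hsd hε0.le
      ι τ' hSys' ψ P hψ (herr1.trans hJs1)
    have hM0 : (0:ℝ) ≤ 2 * D + 1 := by linarith
    -- the chain
    have hchain : |binR d z u 0| ≤ (2 * D + 1) * Real.exp (-b * s) := by
      refine hCh s hss₁ (2 * D + 1) u hM0 hu1 fun n hn1 hn2 => ?_
      exact decay hp hD hcon hn2 herr1 (hu3 n hn2)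
    have hsplit := binR_split (s := s) hz0.le hz1 hsd u (2 * D + 1) hu2
    have hbr := hBridge d s z (D + 1) hz0.le hz1 (by linarith)
      (fun S => ∑ i, ψ i * walsh S (P i) * τ' [] S i) hu4
    have hp5 := hu5 z hz0.le hz1
    rw [hzθ] at hbr
    have htz0 := tail_nonneg hz0.le hz1 d s
    exact final_arith hD htz hstart hbr hp5 herr2 hsplit hchain hfin (by positivity)

end Vale.Agent.P249.SP
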