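import Vale.Agent.P249.SP.Spec

/-! # P249 FINAL: from the combinatorial core to `L_p(μ)` and the asymptotics -/

open Finset MeasureTheory
open scoped BigOperators

namespace Vale.Agent.P249.SP

/-- the uniform probability on the cube -/
noncomputable def unif (d : ℕ) : Measure (Cube d) := (PMF.uniformOfFintype (Cube d)).toMeasure

instance (d : ℕ) : IsProbabilityMeasure (unif d) := by
  unfold unif
  infer_instance

lemma unif_real_singleton (d : ℕ) (x : Cube d) : (unif d).real {x} = 1 / 2 ^ d := by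
  unfold unif Measure.real
  rw [PMF.toMeasure_apply_singleton _ _ (measurableSet_singleton x), PMF.uniformOfFintype_apply]
  simp

lemma memLp_cube {d : ℕ} (p : ENNReal) (g : Cube d → ℝ) : MemLp g p (unif d) := by
  apply MemLp.of_bound (C := ∑ y, |g y|)
  · exact (Measurable.of_discrete).aestronglyMeasurable
  · refine Filter.Eventually.of_forall (fun x => ?_)
    rw [Real.norm_eq_abs]
    exact Finset.single_le_sum (f := fun y => |g y|) (fun y _ => abs_nonneg _) (Finset.mem_univ x)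

/-- the class of a function on the cube in `L_p` -/
noncomputable def toL {d : ℕ} (p : ENNReal) (g : Cube d → ℝ) : Lp ℝ p (unif d) :=
  (memLp_cube p g).toLp g

lemma norm_toL_sub {d : ℕ} {p : ENNReal} (hp0 : p ≠ 0) (hp : p ≠ ⊤)
    (g h : Cube d → ℝ) : ‖toL p g - toL p h‖ = nY p.toReal (g - h) := by
  unfold toL
  rw [← MemLp.toLp_sub, Lp.norm_toLp, MemLp.eLpNorm_eq_integral_rpow_norm hp0 hp
    (memLp_cube p (g - h)), integral_fintype Integrable.of_finite]
  unfold nY
  have hpos : 0 < p.toReal := ENNReal.toReal_pos hp0 hp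
  simp only [unif_real_singleton, smul_eq_mul, Real.norm_eq_abs]
  rw [ENNReal.toReal_ofReal (by positivity), ← Finset.mul_sum, one_div p.toReal]
  congr 1
  rw [one_div, inv_mul_eq_div]

lemma nY_const {p : ℝ} (hp : 0 < p) {d : ℕ} (c : ℝ) : nY p (fun _ : Cube d => c) = |c| := by
  unfold nY
  have h : ∑ _y : Cube d, |c| ^ p = 2 ^ d * |c| ^ p := by
    simp
  rw [h, mul_div_assoc, mul_comm, div_mul_cancel₀ _ (by positivity), ← Real.rpow_mul (abs_nonneg c),
    mul_one_div_cancel hp.ne', Real.rpow_one]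

lemma infinite_L {d : ℕ} {p : ENNReal} [Fact (1 ≤ p)] (hp0 : p ≠ 0) (hp : p ≠ ⊤) :
    Infinite (Lp ℝ p (unif d)) := by
  apply Infinite.of_injective (fun c : ℝ => toL (d := d) p (fun _ => c))
  intro c c' h
  have hpos : 0 < p.toReal := ENNReal.toReal_pos hp0 hp
  have h1 := norm_toL_sub (d := d) hp0 hp (fun _ => c) (fun _ => c')
  have h2 : ((fun _ : Cube d => c) - fun _ => c') = fun _ => c - c' := rfl
  rw [h2, nY_const hpos] at h1
  simp only at h
  rw [h, sub_self, norm_zero] at h1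
  have := abs_eq_zero.mp h1.symm
  linarith

lemma norm_piLp {p : ENNReal} (hp0 : 0 < p.toReal) {k : ℕ} (v : PiLp p (fun _ : Fin k => ℝ)) :
    ‖v‖ = nT p.toReal (fun i => v i) := by
  rw [PiLp.norm_eq_sum hp0]
  unfold nT
  simp only [Real.norm_eq_abs]

lemma nT_smul {p : ℝ} (hp : 0 < p) {ι : Type} [Fintype ι] (c : ℝ) (hc : 0 ≤ c) (v : ι → ℝ) :
    nT p (fun i => c * v i) = c * nT p v := by
  unfold nT
  have h : ∀ i, |c * v i| ^ p = c ^ p * |v i| ^ p := by
    intro i
    rw [abs_mul, abs_of_nonneg hc, Real.mul_rpow hc (abs_nonneg _)]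
  simp only [h]
  rw [← Finset.mul_sum, Real.mul_rpow (by positivity) (by positivity), ← Real.rpow_mul hc,
    mul_one_div_cancel hp.ne', Real.rpow_one]

/-- transfer from a set of functions on the cube to exactly `n` points of `L_p`. -/
lemma transfer {p : ENNReal} [Fact (1 ≤ p)] (hp : p ≠ ⊤) {D : ℝ} {d N : ℕ}
    (X : Finset (Cube d → ℝ)) (n : ℕ) (hn : X.card ≤ n)
    (hX : ∀ (ι : Type) [Fintype ι] (F : (Cube d → ℝ) → ι → ℝ), BiLip p.toReal D X F →
      N < Fintype.card ι) :
    ∃ Y : Finset (Lp ℝ p (unif d)), Y.card = n ∧ ∀ k : ℕ,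
      (∃ f : Lp ℝ p (unif d) → PiLp p (fun _ : Fin k => ℝ), ∃ s : ℝ, 0 < s ∧
        ∀ x ∈ Y, ∀ y ∈ Y, s * ‖x - y‖ ≤ ‖f x - f y‖ ∧ ‖f x - f y‖ ≤ D * s * ‖x - y‖) →
      N < k := by
  classical
  have hp1 : 1 ≤ p := Fact.out
  have hp0 : p ≠ 0 := by
    intro h
    rw [h] at hp1
    simp at hp1
  have hpos : 0 < p.toReal := ENNReal.toReal_pos hp0 hp
  have := infinite_L (d := d) hp0 hp
  obtain ⟨Y, hY1, hY2⟩ := Infinite.exists_superset_card_eq (X.image (toL p)) n
    (Finset.card_image_le.trans hn)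
  refine ⟨Y, hY2, ?_⟩
  rintro k ⟨f, s, hs, hf⟩
  have := hX (Fin k) (fun g i => s⁻¹ * f (toL p g) i) ?_
  · simpa using this
  · intro g hg h hh
    have h1 := hf (toL p g) (hY1 (Finset.mem_image_of_mem _ hg)) (toL p h)
      (hY1 (Finset.mem_image_of_mem _ hh))
    rw [norm_toL_sub hp0 hp, norm_piLp hpos] at h1
    have h2 : ((fun i => s⁻¹ * f (toL p g) i) - fun i => s⁻¹ * f (toL p h) i)
        = fun i => s⁻¹ * (f (toL p g) - f (toL p h)) i := by
      funext i
      simp only [Pi.sub_apply, PiLp.sub_apply]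
      ring
    rw [h2, nT_smul hpos _ (inv_nonneg.mpr hs.le)]
    constructor
    · rw [inv_mul_eq_div, le_div_iff₀ hs]
      linarith [h1.1]
    · rw [inv_mul_eq_div, div_le_iff₀ hs]
      linarith [h1.2]

/-- choice of `A`. -/
lemma exists_A (m : ℕ) (a : ℝ) (ha : 0 ≤ a) : ∃ A : ℕ, 1 ≤ A ∧
    a * Real.log ((8 * (A : ℝ) + 8) ^ m) ≤ A * Real.log 2 := by
  obtain ⟨k, hk⟩ := exists_nat_ge (12 * (a * m) + 1)
  have hk1 : (1 : ℝ) ≤ k := by
    have : 0 ≤ 12 * (a * m) := by positivity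
    linarith
  refine ⟨k ^ 2, ?_, ?_⟩
  · have : 1 ≤ k := by exact_mod_cast hk1
    exact Nat.one_le_pow _ _ this
  · rw [Real.log_pow]
    push_cast
    have h1 : Real.log (8 * (k : ℝ) ^ 2 + 8) ≤ 8 * k := by
      have h2 : 8 * (k : ℝ) ^ 2 + 8 ≤ (4 * k) ^ 2 := by nlinarith
      calc Real.log (8 * (k : ℝ) ^ 2 + 8) ≤ Real.log ((4 * k) ^ 2) :=
            Real.log_le_log (by positivity) h2
        _ = 2 * Real.log (4 * k) := by
            rw [Real.log_pow]
            norm_num
        _ ≤ 2 * (4 * k) := by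
            have := Real.log_le_self (show (0 : ℝ) ≤ 4 * k by positivity)
            linarith
        _ = 8 * k := by ring
    have hl2 : (2 : ℝ) / 3 < Real.log 2 := by
      have := Real.log_two_gt_d9
      linarith
    calc a * (m * Real.log (8 * (k : ℝ) ^ 2 + 8)) ≤ a * (m * (8 * k)) := by gcongr
      _ = (2 / 3) * (12 * (a * m)) * k := by ring
      _ ≤ (2 / 3) * k * k := by
          have : 12 * (a * m) ≤ k := by linarith
          gcongr
      _ ≤ Real.log 2 * k * k := by gcongr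
      _ = (k : ℝ) ^ 2 * Real.log 2 := by ring

theorem specFinal_of_core (hcore : SpecCore) : SpecFinal := by
  intro p _ hp1 hpt hp2 D hD Aw
  have hpr1 : 1 < p.toReal := by
    have := (ENNReal.toReal_lt_toReal (by simp) hpt).mpr hp1
    simpa using this
  have hpr2 : p.toReal ≠ 2 := by
    intro h
    apply hp2
    have h2 : p.toReal = (2 : ENNReal).toReal := by rw [h]; simp
    exact (ENNReal.toReal_eq_toReal_iff' hpt (by simp)).mp h2
  obtain ⟨m₀, hm₀⟩ := hcore p.toReal D hpr1 hpr2 hD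
  set a : ℝ := max Aw 0 + 1 with ha
  have ha1 : 1 ≤ a := by
    have := le_max_right Aw 0
    linarith
  obtain ⟨A, hA1, hA2⟩ := exists_A (m₀ + 1) a (by linarith)
  obtain ⟨s₀, hs₀⟩ := hm₀ A hA1
  set Θ : ℝ := (8 * (A : ℝ) + 8) ^ (m₀ + 1) with hΘ
  have hbase : (1 : ℝ) < 8 * (A : ℝ) + 8 := by
    have : (0 : ℝ) ≤ A := Nat.cast_nonneg A
    linarith
  have hΘ1 : 1 < Θ := one_lt_pow₀ hbase (by omega)
  have hlogΘ : 0 < Real.log Θ := Real.log_pos hΘ1
  set L₀ : ℝ := max ((2 : ℝ) ^ A) (Real.exp (s₀ * Real.log Θ)) with hL₀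
  refine ⟨⌈Real.exp L₀⌉₊, fun n hn => ?_⟩
  have hnpos : (0 : ℝ) < n := by
    have : Real.exp L₀ ≤ n := (Nat.le_ceil _).trans (by exact_mod_cast hn)
    exact lt_of_lt_of_le (Real.exp_pos _) this
  set L : ℝ := Real.log n with hL
  have hLL : L₀ ≤ L := by
    have : Real.exp L₀ ≤ n := (Nat.le_ceil _).trans (by exact_mod_cast hn)
    rw [hL]
    exact (Real.le_log_iff_exp_le hnpos).mpr this
  have hL2 : (2 : ℝ) ^ A ≤ L := (le_max_left _ _).trans hLL
  have hL1 : 1 ≤ L := (one_le_pow₀ (by norm_num)).trans hL2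
  have hLs : (s₀ : ℝ) * Real.log Θ ≤ Real.log L := by
    rw [Real.le_log_iff_exp_le (by linarith)]
    exact (le_max_right _ _).trans hLL
  have hlogL : 0 ≤ Real.log L := Real.log_nonneg hL1
  set s : ℕ := ⌊Real.log L / Real.log Θ⌋₊ with hs
  have hss : s₀ ≤ s := by
    apply Nat.le_floor
    rwa [le_div_iff₀ hlogΘ]
  obtain ⟨d, X, hX1, hX2⟩ := hs₀ s hss
  have hcard : X.card ≤ n := by
    by_cases hX0 : X.card = 0
    · omega
    · have hXpos : (0 : ℝ) < X.card := by
        have : 0 < X.card := Nat.pos_of_ne_zero hX0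
        exact_mod_cast this
      have h1 : ((8 * (A : ℝ) + 8) ^ m₀) ^ s ≤ Θ ^ s := by
        apply pow_le_pow_left₀ (by positivity)
        exact pow_le_pow_right₀ hbase.le (by omega)
      have h2 : Θ ^ s ≤ L := by
        rw [← Real.rpow_natCast, ← Real.exp_log (show 0 < L by linarith),
          ← Real.log_le_log_iff (Real.rpow_pos_of_pos (by linarith) _) (Real.exp_pos _),
          Real.log_rpow (by linarith), Real.log_exp]
        have := Nat.floor_le (div_nonneg hlogL hlogΘ.le)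
        rwa [← hs, le_div_iff₀ hlogΘ] at this
      have h3 : Real.log X.card ≤ Real.log n := (hX1.trans h1).trans h2
      have := (Real.log_le_log_iff hXpos hnpos).mp h3
      exact_mod_cast this
  obtain ⟨Y, hY1, hY2⟩ := transfer hpt X n hcard hX2
  refine ⟨Cube d, inferInstance, unif d, inferInstance, Y, hY1, ?_⟩
  intro k hk
  have hlt := hY2 k hk
  have hlt' : (2 : ℝ) ^ (A * s) ≤ k := by
    have : ((2 ^ (A * s) : ℕ) : ℝ) ≤ k := by exact_mod_cast hlt.le
    simpa using this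
  refine le_trans ?_ hlt'
  have hLpos : 0 < L := by linarith
  -- (log n)^Aw ≤ 2^(A s)
  have h1 : Real.log L / Real.log Θ < (s : ℝ) + 1 := Nat.lt_floor_add_one _
  have h2 : a * Real.log L ≤ A * Real.log 2 * (s + 1) := by
    rw [div_lt_iff₀ hlogΘ] at h1
    calc a * Real.log L ≤ a * ((s + 1) * Real.log Θ) := by gcongr
      _ = (a * Real.log Θ) * (s + 1) := by ring
      _ ≤ (A * Real.log 2) * (s + 1) := by gcongr
  have h3 : L ^ a ≤ 2 ^ (A * s) * 2 ^ A := by
    rw [← Real.log_le_log_iff (by positivity) (by positivity), Real.log_rpow hLpos,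
      Real.log_mul (by positivity) (by positivity), Real.log_pow, Real.log_pow]
    push_cast
    calc a * Real.log L ≤ A * Real.log 2 * (s + 1) := h2
      _ = A * s * Real.log 2 + A * Real.log 2 := by ring
  have h4 : L ^ a = L ^ (max Aw 0) * L := by
    rw [ha, Real.rpow_add hLpos, Real.rpow_one]
  have h5 : L ^ (max Aw 0) * L ≤ 2 ^ (A * s) * L := by
    rw [← h4]
    refine h3.trans ?_
    gcongr
  have h6 : L ^ (max Aw 0) ≤ 2 ^ (A * s) := le_of_mul_le_mul_right h5 hLpos
  exact (Real.rpow_le_rpow_of_exponent_le hL1 (le_max_left _ _)).trans h6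

end Vale.Agent.P249.SP
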