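import Vale.Agent.P249.SP.Spec
import Vale.Agent.P249.H560.Main

/-! # P249 FINAL: corollary in terms of `Admissible` and `dimLp` (the least dimension) -/

open MeasureTheory Filter Asymptotics
open scoped ENNReal

namespace Vale.Agent.P249.SP

lemma admissible_mono {p : ℝ≥0∞} [Fact (1 ≤ p)] {n d : ℕ} {D D' : ℝ} (h : Admissible p n D d)
    (hD : D ≤ D') : Admissible p n D' d := by
  intro Ω _ μ X hX
  obtain ⟨f, s, hs, hf⟩ := h Ω μ X hX
  exact ⟨f, s, hs, fun x hx y hy => ⟨(hf x hx y hy).1, (hf x hx y hy).2.trans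
    (mul_le_mul_of_nonneg_right (mul_le_mul_of_nonneg_right hD hs.le) (norm_nonneg _))⟩⟩

/-- for `D > 1` the least dimension is attained. -/
lemma admissible_dimLp {p : ℝ≥0∞} [Fact (1 ≤ p)] (hp1 : 1 < p) (hp : p ≠ ∞) {D : ℝ} (hD : 1 < D)
    {n : ℕ} (hn : 2 ≤ n) : Admissible p n D (dimLp p n D) := by
  have hP1 := H560.one_lt_toReal hp1 hp
  obtain ⟨θ, h1, _⟩ := exists_between
    (show max (1 / p.toReal) (1 / 2) < 1 by
      refine max_lt ?_ (by norm_num)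
      rw [div_lt_one (by linarith)]
      exact hP1)
  obtain ⟨C, _, H⟩ := H560.uniform p hp1 hp θ h1
  have hε0 : 0 < min 1 (D - 1) := lt_min one_pos (by linarith)
  have h2 := (H n hn (min 1 (D - 1)) hε0 (min_le_left _ _)).1
  have h3 : Admissible p n D (dimLp p n (1 + min 1 (D - 1))) :=
    admissible_mono h2 (by have := min_le_right 1 (D - 1); linarith)
  exact Nat.sInf_mem (s := {d : ℕ | Admissible p n D d}) ⟨_, h3⟩

/-- lower bound for every admissible dimension. -/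
theorem lower_of_final (h : SpecFinal) {p : ℝ≥0∞} [Fact (1 ≤ p)] (hp1 : 1 < p) (hp : p ≠ ∞)
    (hp2 : p ≠ 2) {D : ℝ} (hD : 1 ≤ D) (A : ℝ) :
    ∃ n₀ : ℕ, ∀ n : ℕ, n₀ ≤ n → ∀ d : ℕ, Admissible p n D d → (Real.log n) ^ A ≤ d := by
  obtain ⟨n₀, hn₀⟩ := h p hp1 hp hp2 D hD A
  refine ⟨n₀, fun n hn d hd => ?_⟩
  obtain ⟨Ω, i, μ, _, X, hX, hlow⟩ := hn₀ n hn
  exact hlow d (hd Ω μ X hX)

/-- `(log n)^A = o(d_p(n, D))` for all `A`. -/
theorem isLittleO_of_final (h : SpecFinal) {p : ℝ≥0∞} [Fact (1 ≤ p)] (hp1 : 1 < p) (hp : p ≠ ∞)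
    (hp2 : p ≠ 2) {D : ℝ} (hD : 1 < D) (A : ℝ) :
    (fun n : ℕ => (Real.log n) ^ A) =o[atTop] (fun n : ℕ => (dimLp p n D : ℝ)) := by
  obtain ⟨n₀, hn₀⟩ := lower_of_final h hp1 hp hp2 hD.le (A + 1)
  have hlog : Tendsto (fun n : ℕ => Real.log (n : ℝ)) atTop atTop :=
    Real.tendsto_log_atTop.comp tendsto_natCast_atTop_atTop
  rw [isLittleO_iff]
  intro c hc
  filter_upwards [eventually_ge_atTop n₀, eventually_ge_atTop 2,
    hlog.eventually_ge_atTop (max 1 (1 / c))] with n h1 h2 h3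
  have hL1 : 1 ≤ Real.log n := (le_max_left _ _).trans h3
  have hL0 : 0 < Real.log (n : ℝ) := by linarith
  have hLc : 1 ≤ c * Real.log n := by
    have := (le_max_right _ _).trans h3
    rw [div_le_iff₀ hc] at this
    linarith
  have h4 := hn₀ n h1 _ (admissible_dimLp hp1 hp hD h2)
  rw [Real.rpow_add hL0, Real.rpow_one] at h4
  rw [Real.norm_of_nonneg (Real.rpow_nonneg hL0.le _), Real.norm_of_nonneg (Nat.cast_nonneg _)]
  have h5 : 0 ≤ (Real.log (n : ℝ)) ^ A := Real.rpow_nonneg hL0.le _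
  calc (Real.log (n : ℝ)) ^ A = 1 * (Real.log (n : ℝ)) ^ A := (one_mul _).symm
    _ ≤ (c * Real.log n) * (Real.log (n : ℝ)) ^ A := by gcongr
    _ = c * ((Real.log (n : ℝ)) ^ A * Real.log n) := by ring
    _ ≤ c * (dimLp p n D : ℝ) := by gcongr

end Vale.Agent.P249.SP
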