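import Vale.Agent.P249.SP.LinSpec
import Vale.Agent.P249.H65.Abs

/-!
# P249, block LIN: `SpecLin` from `SpecLinL3` and `SpecLinLog` (helper65)
-/

open Finset
open scoped ENNReal symmDiff

namespace Vale.Agent.P249.SP.LinAux

open Vale.Agent.P249.SP Vale.Agent.P249.H65

/-! ### Norms -/

/-- The space `ℓ_p^ι` as a normed space. -/
abbrev Lq (p : ℝ) (ι : Type) : Type := PiLp (ENNReal.ofReal p) fun _ : ι => ℝ

/-- A function as an element of the normed space. -/
noncomputable abbrev tl (p : ℝ) {ι : Type} (v : ι → ℝ) : Lq p ι := WithLp.toLp (ENNReal.ofReal p) v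

variable {p : ℝ} [Fact (1 ≤ ENNReal.ofReal p)]

theorem nT_eq (hp : 0 < p) {ι : Type} [Fintype ι] (v : ι → ℝ) : nT p v = ‖tl p v‖ := by
  have h : (ENNReal.ofReal p).toReal = p := ENNReal.toReal_ofReal hp.le
  rw [PiLp.norm_eq_sum (by rw [h]; exact hp), h]
  rfl

theorem nT_eq' (hp : 0 < p) {ι : Type} [Fintype ι] (v : Lq p ι) : nT p v.ofLp = ‖v‖ :=
  nT_eq hp v.ofLp

/-- The normalising constant of the cube. -/
noncomputable def cc (p : ℝ) (d : ℕ) : ℝ := ((2 : ℝ) ^ d) ^ (1 / p)

omit [Fact (1 ≤ ENNReal.ofReal p)] in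
theorem cc_pos (d : ℕ) : 0 < cc p d := by unfold cc; positivity

theorem nY_eq (hp : 0 < p) {d : ℕ} (f : Cube d → ℝ) : nY p f = ‖(cc p d)⁻¹ • tl p f‖ := by
  rw [norm_smul, ← nT_eq hp, norm_inv, Real.norm_eq_abs, abs_of_pos (cc_pos d)]
  unfold nY nT cc
  rw [Real.div_rpow (Finset.sum_nonneg fun _ _ => Real.rpow_nonneg (abs_nonneg _) _)
    (by positivity), div_eq_inv_mul]

omit [Fact (1 ≤ ENNReal.ofReal p)] in
theorem nY_le_one (hp : 0 < p) {d : ℕ} {f : Cube d → ℝ} (hf : ∀ y, |f y| ≤ 1) : nY p f ≤ 1 := by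
  unfold nY
  have h1 : (∑ y, |f y| ^ p) / 2 ^ d ≤ 1 := by
    rw [div_le_one (by positivity)]
    refine (Finset.sum_le_card_nsmul _ _ (1 : ℝ) fun y _ =>
      Real.rpow_le_one (abs_nonneg _) (hf y) hp.le).trans (le_of_eq ?_)
    simp
  have h0 : 0 ≤ (∑ y, |f y| ^ p) / 2 ^ d :=
    div_nonneg (Finset.sum_nonneg fun _ _ => Real.rpow_nonneg (abs_nonneg _) _) (by positivity)
  exact Real.rpow_le_one h0 h1 (by positivity)

/-! ### Walsh functions -/

theorem abs_sg (b : Bool) : |sg b| = 1 := by cases b <;> simp [sg]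

theorem sg_mul_self (b : Bool) : sg b * sg b = 1 := by cases b <;> simp [sg]

theorem abs_walsh {d : ℕ} (S : Finset (Fin d)) (y : Cube d) : |walsh S y| = 1 := by
  unfold walsh
  rw [Finset.abs_prod]
  exact Finset.prod_eq_one fun i _ => abs_sg _

theorem walsh_flip {d : ℕ} (S : Finset (Fin d)) (i : Fin d) (y : Cube d) :
    walsh (S ∆ {i}) y = sg (y i) * walsh S y := by
  classical
  by_cases hi : i ∈ S
  · have h1 : S ∆ {i} = S.erase i := by
      ext j
      simp only [Finset.mem_symmDiff, Finset.mem_singleton, Finset.mem_erase]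
      by_cases hj : j = i
      · subst hj; simp [hi]
      · simp [hj]
    rw [h1]
    unfold walsh
    rw [← Finset.mul_prod_erase S _ hi, ← mul_assoc, sg_mul_self, one_mul]
  · have h1 : S ∆ {i} = insert i S := by
      ext j
      simp only [Finset.mem_symmDiff, Finset.mem_singleton, Finset.mem_insert]
      by_cases hj : j = i
      · subst hj; simp [hi]
      · simp [hj]
    rw [h1]
    unfold walsh
    rw [Finset.prod_insert hi]

theorem card_flip_le {d : ℕ} (S : Finset (Fin d)) (i : Fin d) : (S ∆ {i}).card ≤ S.card + 1 := by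
  classical
  have h1 : S ∆ {i} ⊆ insert i S := by
    intro j hj
    simp only [Finset.mem_symmDiff, Finset.mem_singleton, Finset.mem_insert] at *
    tauto
  exact (Finset.card_le_card h1).trans (Finset.card_insert_le _ _)

theorem ind_append {d : ℕ} (P : List (Fin d × Bool)) (i : Fin d) (β : Bool) (y : Cube d) :
    2 * ind (P ++ [(i, β)]) y = ind P y * (1 + sg β * sg (y i)) := by
  have h1 : ind (P ++ [(i, β)]) y = if (∀ c ∈ P, y c.1 = c.2) ∧ y i = β then 1 else 0 := by
    unfold ind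
    congr 1
    simp only [List.mem_append, List.mem_singleton, eq_iff_iff]
    constructor
    · intro h
      exact ⟨fun c hc => h c (Or.inl hc), h (i, β) (Or.inr rfl)⟩
    · rintro ⟨h, h'⟩ c (hc | hc)
      · exact h c hc
      · subst hc; exact h'
  rw [h1]
  unfold ind
  by_cases hP : ∀ c ∈ P, y c.1 = c.2
  · by_cases hy : y i = β
    · rw [if_pos ⟨hP, hy⟩, if_pos hP, hy, sg_mul_self]; norm_num
    · rw [if_neg (fun h => hy h.2), if_pos hP]
      have : sg β * sg (y i) = -1 := by
        cases β <;> cases h : y i <;> simp_all [sg]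
      rw [this]; norm_num
  · rw [if_neg (fun h => hP h.1), if_neg hP]; simp

theorem abs_ind_le {d : ℕ} (P : List (Fin d × Bool)) (y : Cube d) : |ind P y| ≤ 1 := by
  unfold ind
  split_ifs <;> simp

/-! ### The tree of linear maps -/

/-- Small sets. -/
abbrev Ks (d m : ℕ) : Type := {S : Finset (Fin d) // S.card ≤ m}

theorem card_Ks (d m : ℕ) : Fintype.card (Ks d m) = NN d m := by
  classical
  rw [Fintype.card_subtype]
  rfl

/-- Extension by zero. -/
noncomputable def ex {d m : ℕ} (b : Ks d m → ℝ) (S : Finset (Fin d)) : ℝ :=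
  if h : S.card ≤ m then b ⟨S, h⟩ else 0

theorem sum_ex {d m : ℕ} {V : Type*} [AddCommMonoid V] [Module ℝ V] (b : Ks d m → ℝ)
    (f : Finset (Fin d) → V) : ∑ S, ex b S • f S = ∑ S : Ks d m, b S • f S.1 := by
  classical
  have h1 : ∑ S, ex b S • f S = ∑ S ∈ univ.filter (fun S : Finset (Fin d) => S.card ≤ m),
      ex b S • f S := by
    rw [Finset.sum_filter]
    refine Finset.sum_congr rfl fun S _ => ?_
    by_cases h : S.card ≤ m
    · rw [if_pos h]
    · rw [if_neg h, ex, dif_neg h, zero_smul]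
  rw [h1, ← Finset.sum_subtype_eq_sum_filter]
  refine Finset.sum_congr ?_ fun S _ => ?_
  · ext S; simp
  · rw [ex, dif_pos S.2]

theorem poly_ex {d m : ℕ} (b : Ks d m → ℝ) (y : Cube d) :
    poly (ex b) y = ∑ S : Ks d m, b S * walsh S.1 y :=
  sum_ex (V := ℝ) b (fun S => walsh S y)

/-- The linear map of the node with reversed word `Q`. -/
noncomputable def ph (p : ℝ) (d m : ℕ) (Q : List (Fin d × Bool)) :
    (Ks d m → ℝ) →ₗ[ℝ] Lq p (Cube d) where
  toFun b := (cc p d)⁻¹ • tl p (fun y => ind Q.reverse y * poly (ex b) y)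
  map_add' b b' := by
    rw [← smul_add, ← WithLp.toLp_add]
    congr 2
    funext y
    simp only [poly_ex, Pi.add_apply, ← mul_add, ← Finset.sum_add_distrib, add_mul]
  map_smul' c b := by
    have h1 : (fun y => ind Q.reverse y * poly (ex (c • b)) y)
        = c • (fun y => ind Q.reverse y * poly (ex b) y) := by
      funext y
      simp only [poly_ex, Pi.smul_apply, smul_eq_mul]
      have h : ∑ S : Ks d m, c * b S * walsh S.1 y = c * ∑ S : Ks d m, b S * walsh S.1 y := by
        rw [Finset.mul_sum]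
        exact Finset.sum_congr rfl fun S _ => mul_assoc _ _ _
      rw [h]
      ring
    rw [h1, RingHom.id_apply]
    exact smul_comm (cc p d)⁻¹ c (tl p _)

theorem norm_ph (hp : 0 < p) (d m : ℕ) (Q : List (Fin d × Bool)) (b : Ks d m → ℝ) :
    ‖ph p d m Q b‖ = nY p (fun y => ind Q.reverse y * poly (ex b) y) := by
  rw [nY_eq hp]; rfl

theorem norm_ph_single (hp : 0 < p) (d m : ℕ) (Q : List (Fin d × Bool)) (S : Ks d m) :
    ‖ph p d m Q (Pi.single S 1)‖ ≤ 1 := by
  classical
  rw [norm_ph hp]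
  refine nY_le_one hp fun y => ?_
  rw [abs_mul, poly_ex]
  have h1 : ∑ S' : Ks d m, (Pi.single S (1 : ℝ) : Ks d m → ℝ) S' * walsh S'.1 y = walsh S.1 y := by
    rw [Finset.sum_eq_single S]
    · simp
    · intro S' _ hS'
      simp [hS']
    · intro h; exact absurd (Finset.mem_univ _) h
  rw [h1, abs_walsh, mul_one]
  exact abs_ind_le _ _

/-- Back to functions on the cube. -/
noncomputable def un (p : ℝ) (d : ℕ) (x : Lq p (Cube d)) : Cube d → ℝ := cc p d • x.ofLp

theorem nY_un (hp : 0 < p) {d : ℕ} (x y : Lq p (Cube d)) :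
    nY p (un p d x - un p d y) = ‖x - y‖ := by
  rw [nY_eq hp]
  congr 1
  unfold un
  rw [← smul_sub]
  have h : tl p (cc p d • (x.ofLp - y.ofLp)) = cc p d • (x - y) := rfl
  rw [h, smul_smul, inv_mul_cancel₀ (cc_pos d).ne', one_smul]

end Vale.Agent.P249.SP.LinAux
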