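import Vale.Agent.P249.SP.LinL3e

/-!
# P249, block LIN-L3 (helper586): `specLinL3 : SpecLinL3`
-/

open Finset

namespace Vale.Agent.P249.SP

open Vale.Agent.P249.H65

namespace LThree

/-- constants -/
theorem exists_consts {p D Λ C : ℝ} (hp : 1 ≤ p) (hD : 1 ≤ D) (hΛ : 1 ≤ Λ) (hC : 0 ≤ C) :
    ∃ (N : ℕ) (C₀ : ℝ), 0 < N ∧ 2 ≤ C₀ ∧ Λ ≤ C₀ ∧
      (18 : ℝ) ^ (p - 1) * ((C * (2 * D ^ p / N + (2 + 2 * p) * D ^ p / C₀) +
        4 * (1 / (32 * (18 : ℝ) ^ (p - 1) * D ^ p)) * D ^ p) +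
          Λ * (8 * D * Λ ^ 2 / C₀) ^ p) ≤ 1 / 4 := by
  have h18 : (0 : ℝ) < 18 ^ (p - 1) := by positivity
  have hD0 : 0 < D := by linarith
  have hDp : (0 : ℝ) < D ^ p := by positivity
  obtain ⟨N, hN⟩ := exists_nat_ge (64 * (18 : ℝ) ^ (p - 1) * C * D ^ p + 1)
  have hN1 : (1 : ℝ) ≤ N := by
    have : 0 ≤ 64 * (18 : ℝ) ^ (p - 1) * C * D ^ p := by positivity
    linarith
  set C₀ : ℝ := 2 + Λ + 32 * (18 : ℝ) ^ (p - 1) * C * (2 + 2 * p) * D ^ p +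
    8 * D * Λ ^ 2 + 32 * (18 : ℝ) ^ (p - 1) * Λ * (8 * D * Λ ^ 2) with hC₀
  have hp0 : 0 ≤ p := by linarith
  have a1 : 0 ≤ 32 * (18 : ℝ) ^ (p - 1) * C * (2 + 2 * p) * D ^ p := by positivity
  have a2 : 0 ≤ 8 * D * Λ ^ 2 := by positivity
  have a3 : 0 ≤ 32 * (18 : ℝ) ^ (p - 1) * Λ * (8 * D * Λ ^ 2) := by positivity
  have hC₀0 : 0 < C₀ := by linarith
  refine ⟨N, C₀, ?_, by linarith, by linarith, ?_⟩
  · have : (0 : ℝ) < N := by linarith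
    exact_mod_cast this
  have hNr : (0 : ℝ) < N := by linarith
  have b1 : (18 : ℝ) ^ (p - 1) * (C * (2 * D ^ p / N)) ≤ 1 / 32 := by
    have : (18 : ℝ) ^ (p - 1) * (C * (2 * D ^ p / N))
        = (64 * (18 : ℝ) ^ (p - 1) * C * D ^ p) / N * (1 / 32) := by ring
    rw [this]
    have h2 : (64 * (18 : ℝ) ^ (p - 1) * C * D ^ p) / N ≤ 1 := by
      rw [div_le_one hNr]; linarith
    linarith
  have b2 : (18 : ℝ) ^ (p - 1) * (C * ((2 + 2 * p) * D ^ p / C₀)) ≤ 1 / 32 := by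
    have : (18 : ℝ) ^ (p - 1) * (C * ((2 + 2 * p) * D ^ p / C₀))
        = (32 * (18 : ℝ) ^ (p - 1) * C * (2 + 2 * p) * D ^ p) / C₀ * (1 / 32) := by ring
    rw [this]
    have h2 : (32 * (18 : ℝ) ^ (p - 1) * C * (2 + 2 * p) * D ^ p) / C₀ ≤ 1 := by
      rw [div_le_one hC₀0]; linarith
    linarith
  have b3 : (18 : ℝ) ^ (p - 1) * (4 * (1 / (32 * (18 : ℝ) ^ (p - 1) * D ^ p)) * D ^ p)
      = 1 / 8 := by
    field_simp
    norm_num
  have b4 : (18 : ℝ) ^ (p - 1) * (Λ * (8 * D * Λ ^ 2 / C₀) ^ p) ≤ 1 / 32 := by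
    have c1 : 8 * D * Λ ^ 2 / C₀ ≤ 1 := by rw [div_le_one hC₀0]; linarith
    have c0 : 0 ≤ 8 * D * Λ ^ 2 / C₀ := by positivity
    have c2 : (8 * D * Λ ^ 2 / C₀) ^ p ≤ 8 * D * Λ ^ 2 / C₀ := by
      calc (8 * D * Λ ^ 2 / C₀) ^ p ≤ (8 * D * Λ ^ 2 / C₀) ^ (1 : ℝ) :=
            Real.rpow_le_rpow_of_exponent_ge' c0 c1 (by norm_num) hp
        _ = _ := Real.rpow_one _
    have c3 : (18 : ℝ) ^ (p - 1) * (Λ * (8 * D * Λ ^ 2 / C₀))
        = (32 * (18 : ℝ) ^ (p - 1) * Λ * (8 * D * Λ ^ 2)) / C₀ * (1 / 32) := by ring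
    have c4 : (32 * (18 : ℝ) ^ (p - 1) * Λ * (8 * D * Λ ^ 2)) / C₀ ≤ 1 := by
      rw [div_le_one hC₀0]; linarith
    have c5 := mul_le_mul_of_nonneg_left c2 (show 0 ≤ (18 : ℝ) ^ (p - 1) * Λ by positivity)
    linarith
  have e : (18 : ℝ) ^ (p - 1) * ((C * (2 * D ^ p / N + (2 + 2 * p) * D ^ p / C₀) +
        4 * (1 / (32 * (18 : ℝ) ^ (p - 1) * D ^ p)) * D ^ p) +
          Λ * (8 * D * Λ ^ 2 / C₀) ^ p)
      = (18 : ℝ) ^ (p - 1) * (C * (2 * D ^ p / N)) +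
        (18 : ℝ) ^ (p - 1) * (C * ((2 + 2 * p) * D ^ p / C₀)) +
        (18 : ℝ) ^ (p - 1) * (4 * (1 / (32 * (18 : ℝ) ^ (p - 1) * D ^ p)) * D ^ p) +
        (18 : ℝ) ^ (p - 1) * (Λ * (8 * D * Λ ^ 2 / C₀) ^ p) := by ring
  rw [e, b3]
  linarith

section PiLp

variable {ι : Type} [Fintype ι] {p : ℝ}

theorem nT_eq (hp : 1 < p) (v : ι → ℝ) :
    nT p v = ‖(WithLp.toLp (ENNReal.ofReal p) v : PiLp (ENNReal.ofReal p) fun _ : ι => ℝ)‖ := by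
  have hp0 : 0 < p := by linarith
  have h : (ENNReal.ofReal p).toReal = p := ENNReal.toReal_ofReal hp0.le
  rw [PiLp.norm_eq_sum (by rw [h]; exact hp0), h]
  simp [nT, Real.norm_eq_abs]

theorem nT_rpow (hp : 1 < p) (v : ι → ℝ) : nT p v ^ p = ∑ i, |v i| ^ p := by
  have hp0 : 0 < p := by linarith
  rw [nT, ← Real.rpow_mul (Finset.sum_nonneg fun i _ => Real.rpow_nonneg (abs_nonneg _) p),
    one_div, inv_mul_cancel₀ hp0.ne', Real.rpow_one]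

theorem uc_pi (hp : 1 < p) [Fact (1 ≤ ENNReal.ofReal p)] {C η : ℝ}
    (h : ∀ u v : ℝ, |u - v| ^ p ≤ C * ((|u| ^ p + |v| ^ p) / 2 - |(u + v) / 2| ^ p) +
      η * (|u| ^ p + |v| ^ p)) :
    UC p C η (PiLp (ENNReal.ofReal p) fun _ : ι => ℝ) := by
  intro u v
  have key : ∀ w : PiLp (ENNReal.ofReal p) fun _ : ι => ℝ, ‖w‖ ^ p = ∑ i, |w i| ^ p := by
    intro w
    rw [← nT_rpow hp (fun i => w i), nT_eq hp]
  rw [key, key, key, key]
  calc ∑ i, |(u - v) i| ^ p ≤ ∑ i, (C * ((|u i| ^ p + |v i| ^ p) / 2 -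
        |((1 / 2 : ℝ) • (u + v)) i| ^ p) + η * (|u i| ^ p + |v i| ^ p)) := by
        refine Finset.sum_le_sum fun i _ => ?_
        have h1 := h (u i) (v i)
        have h2 : ((1 / 2 : ℝ) • (u + v)) i = (u i + v i) / 2 := by
          simp only [PiLp.smul_apply, PiLp.add_apply, smul_eq_mul]; ring
        rw [h2]
        simpa using h1
    _ = _ := by
        rw [Finset.sum_add_distrib, ← Finset.mul_sum, ← Finset.mul_sum, Finset.sum_sub_distrib,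
          ← Finset.sum_div, Finset.sum_add_distrib]

end PiLp

end LThree

open LThree in
theorem specLinL3 : SpecLinL3 := by
  intro p D Λ hp hD hΛ
  have hp1 : 1 ≤ p := hp.le
  have hD0 : 0 < D := by linarith
  set η : ℝ := 1 / (32 * (18 : ℝ) ^ (p - 1) * D ^ p) with hη
  have hη0 : 0 < η := by positivity
  obtain ⟨C, hC, huc⟩ := uconv hp hη0
  obtain ⟨N, C₀, hN, hC₀, hC₀Λ, hconst⟩ := exists_consts hp1 hD hΛ hC.le
  refine ⟨N, C₀, by linarith, ?_⟩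
  intro κ _ _ E _ _ φ hφ W _ π b hπ hb hmass B hB ι _ g hg
  have : Fact (1 ≤ ENNReal.ofReal p) := ⟨by
    rw [← ENNReal.ofReal_one]; exact ENNReal.ofReal_le_ofReal hp1⟩
  set G : (κ → ℤ) → PiLp (ENNReal.ofReal p) (fun _ : ι => ℝ) :=
    fun a => WithLp.toLp (ENNReal.ofReal p) (g a) with hG
  have hBL : BL D (B ^ (N + 2)) φ G := by
    intro a a' ha ha'
    have h1 := hg a a' (fun i => by have := ha i; push_cast at this; exact this)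
      (fun i => by have := ha' i; push_cast at this; exact this)
    rw [nT_eq hp, WithLp.toLp_sub] at h1
    exact h1
  obtain ⟨j, x, hj, hx, hmain⟩ := l3_core hp1 hD hΛ hC.le hη0.le hN hC₀ hC₀Λ
    (uc_pi (ι := ι) hp huc) hφ π b hπ hb hmass hB hBL
  refine ⟨j + 1, x, by omega, fun i => by
    have := box_abs hx i; push_cast at this; exact this, ?_⟩
  set S : ℝ := ∑ t, π t * ‖φ (ic (b t))‖ ^ p with hS
  have hS0 : 0 ≤ S := Finset.sum_nonneg fun t _ =>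
    mul_nonneg (hπ t) (Real.rpow_nonneg (norm_nonneg _) p)
  have hA : ∀ t, ‖uj G (B ^ (j + 2)) (b t) x‖ =
      nT p (bavg (B ^ (j + 1 + 1)) fun a => g (x + a + b t) - g (x + a)) := by
    intro t
    rw [nT_eq hp]
    congr 1
    unfold uj bavg
    simp only [hG]
    rw [WithLp.toLp_smul, WithLp.toLp_sum]
    rfl
  simp only [hA] at hmain
  set T : ℝ := ∑ t, π t * nT p (bavg (B ^ (j + 1 + 1)) fun a => g (x + a + b t) - g (x + a)) ^ p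
    with hT
  have h1 : S ≤ (9 / 8 : ℝ) ^ (p - 1) * T + 1 / 4 * S := by
    refine hmain.trans (add_le_add le_rfl ?_)
    exact mul_le_mul_of_nonneg_right hconst hS0
  have h98 : (0 : ℝ) < (9 / 8) ^ (p - 1) := by positivity
  have h2 : (2 / 3 : ℝ) ^ p * (9 / 8) ^ (p - 1) ≤ 3 / 4 := by
    have e1 : (2 / 3 : ℝ) ^ p = (2 / 3) ^ (p - 1) * (2 / 3) := by
      rw [← Real.rpow_add_one (by norm_num)]; congr 1; ring
    have e2 : (2 / 3 : ℝ) ^ (p - 1) * (9 / 8) ^ (p - 1) = (3 / 4) ^ (p - 1) := by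
      rw [← Real.mul_rpow (by norm_num) (by norm_num)]; norm_num
    have e3 : (3 / 4 : ℝ) ^ (p - 1) ≤ 1 :=
      Real.rpow_le_one (by norm_num) (by norm_num) (by linarith)
    calc (2 / 3 : ℝ) ^ p * (9 / 8) ^ (p - 1)
        = ((2 / 3 : ℝ) ^ (p - 1) * (9 / 8) ^ (p - 1)) * (2 / 3) := by rw [e1]; ring
      _ ≤ 3 / 4 := by rw [e2]; linarith
  have h3 : (9 / 8 : ℝ) ^ (p - 1) * ((2 / 3 : ℝ) ^ p * S) ≤ (9 / 8 : ℝ) ^ (p - 1) * T := by
    have := mul_le_mul_of_nonneg_right h2 hS0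
    linarith
  exact le_of_mul_le_mul_left h3 h98

end Vale.Agent.P249.SP
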