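import Vale.Agent.P249.SP.Lin
import Vale.Agent.P249.SP.LinL3
import Vale.Agent.P249.SP.LinLog

/-!
# P249: block LIN, final statement

`specLin : SpecLin`, assembled from `specLin_of`, `specLinL3` and `specLinLog`.
-/

namespace Vale.Agent.P249.SP

theorem specLin : SpecLin := specLin_of specLinL3 specLinLog

end Vale.Agent.P249.SP
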