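import Mathlib

/-!
# P249, scalar uniform convexity of `|·|^p`, `p > 1`
-/

namespace Vale.Agent.P249.SP

lemma abs_mid_le {p : ℝ} (hp : 1 < p) (u v : ℝ) :
    |(u + v) / 2| ^ p ≤ (|u| ^ p + |v| ^ p) / 2 := by
  have hc0 := (convexOn_rpow hp.le).2
    (Set.mem_Ici.2 (abs_nonneg u)) (Set.mem_Ici.2 (abs_nonneg v))
  have hc := hc0 (show (0 : ℝ) ≤ 1 / 2 by norm_num) (show (0 : ℝ) ≤ 1 / 2 by norm_num)
    (by norm_num)
  simp only [smul_eq_mul] at hc
  have h1 : |(u + v) / 2| ^ p ≤ (1 / 2 * |u| + 1 / 2 * |v|) ^ p := by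
    apply Real.rpow_le_rpow (abs_nonneg _) _ (by linarith)
    rw [abs_div, abs_of_pos (show (0 : ℝ) < 2 by norm_num)]
    have := abs_add_le u v
    linarith
  linarith

lemma abs_mid_lt {p : ℝ} (hp : 1 < p) {u v : ℝ} (huv : u ≠ v) :
    |(u + v) / 2| ^ p < (|u| ^ p + |v| ^ p) / 2 := by
  by_cases h : |u| = |v|
  · -- `u = -v ≠ 0`
    have huv' : u = -v := (abs_eq_abs.1 h).resolve_left huv
    have hv : v ≠ 0 := by
      rintro rfl
      apply huv
      rw [huv', neg_zero]
    rw [huv', neg_add_cancel, zero_div, abs_zero, Real.zero_rpow (by linarith), abs_neg]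
    have := Real.rpow_pos_of_pos (abs_pos.2 hv) p
    linarith
  · have hc := (strictConvexOn_rpow hp).2
      (Set.mem_Ici.2 (abs_nonneg u)) (Set.mem_Ici.2 (abs_nonneg v)) h
      (show (0 : ℝ) < 1 / 2 by norm_num) (show (0 : ℝ) < 1 / 2 by norm_num) (by norm_num)
    simp only [smul_eq_mul] at hc
    have h1 : |(u + v) / 2| ^ p ≤ (1 / 2 * |u| + 1 / 2 * |v|) ^ p := by
      apply Real.rpow_le_rpow (abs_nonneg _) _ (by linarith)
      rw [abs_div, abs_of_pos (show (0 : ℝ) < 2 by norm_num)]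
      have := abs_add_le u v
      linarith
    linarith

/-- scalar uniform convexity -/
theorem uconv {p : ℝ} (hp : 1 < p) {η : ℝ} (hη : 0 < η) :
    ∃ C : ℝ, 0 < C ∧ ∀ u v : ℝ,
      |u - v| ^ p ≤ C * ((|u| ^ p + |v| ^ p) / 2 - |(u + v) / 2| ^ p) +
        η * (|u| ^ p + |v| ^ p) := by
  have hp0 : 0 ≤ p := by linarith
  have hcont : ∀ f : ℝ × ℝ → ℝ, Continuous f → Continuous fun w => |f w| ^ p := fun f hf =>
    (continuous_abs.comp hf).rpow_const fun _ => Or.inr hp0
  have c1 := hcont Prod.fst continuous_fst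
  have c2 := hcont Prod.snd continuous_snd
  have c3 := hcont (fun w => w.1 - w.2) (continuous_fst.sub continuous_snd)
  have c4 := hcont (fun w => (w.1 + w.2) / 2) ((continuous_fst.add continuous_snd).div_const 2)
  let K : Set (ℝ × ℝ) := {w | |w.1| ^ p + |w.2| ^ p = 1 ∧ η ≤ |w.1 - w.2| ^ p}
  have hKc : IsClosed K :=
    (isClosed_eq (c1.add c2) continuous_const).inter (isClosed_le continuous_const c3)
  have hle1 : ∀ a : ℝ, |a| ^ p ≤ 1 → |a| ≤ 1 := by
    intro a ha
    by_contra hcon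
    push Not at hcon
    have := Real.one_lt_rpow hcon (by linarith : 0 < p)
    linarith
  have hKb : K ⊆ Set.Icc (-1) 1 ×ˢ Set.Icc (-1) 1 := by
    rintro ⟨a, b⟩ ⟨h1, -⟩
    simp only at h1
    have ha := Real.rpow_nonneg (abs_nonneg a) p
    have hb := Real.rpow_nonneg (abs_nonneg b) p
    exact ⟨abs_le.1 (hle1 a (by linarith)), abs_le.1 (hle1 b (by linarith))⟩
  have hK : IsCompact K :=
    (isCompact_Icc.prod isCompact_Icc).of_isClosed_subset hKc hKb
  -- lower bound of the gap on `K`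
  have hmin : ∃ m : ℝ, 0 < m ∧ ∀ w ∈ K,
      m ≤ (|w.1| ^ p + |w.2| ^ p) / 2 - |(w.1 + w.2) / 2| ^ p := by
    rcases K.eq_empty_or_nonempty with h | h
    · exact ⟨1, one_pos, fun w hw => by rw [h] at hw; exact hw.elim⟩
    · obtain ⟨w₀, hw₀, hmin⟩ := hK.exists_isMinOn h
        (((c1.add c2).div_const 2).sub c4).continuousOn
      refine ⟨(|w₀.1| ^ p + |w₀.2| ^ p) / 2 - |(w₀.1 + w₀.2) / 2| ^ p, ?_, fun w hw => hmin hw⟩
      have hne : w₀.1 ≠ w₀.2 := by
        intro he
        have h2 := hw₀.2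
        rw [he, sub_self, abs_zero, Real.zero_rpow (by linarith)] at h2
        linarith
      have := abs_mid_lt hp hne
      linarith
  obtain ⟨m, hm, hmin⟩ := hmin
  have h2p : (0 : ℝ) < 2 ^ p := Real.rpow_pos_of_pos (by norm_num) p
  refine ⟨2 ^ p / m, div_pos h2p hm, fun u v => ?_⟩
  set N : ℝ := |u| ^ p + |v| ^ p with hN
  have hu := Real.rpow_nonneg (abs_nonneg u) p
  have hv := Real.rpow_nonneg (abs_nonneg v) p
  have hgap : 0 ≤ N / 2 - |(u + v) / 2| ^ p := by
    have := abs_mid_le hp u v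
    linarith
  have hC0 : 0 ≤ 2 ^ p / m := (div_pos h2p hm).le
  rcases le_or_gt (|u - v| ^ p) (η * N) with hc | hc
  · have := mul_nonneg hC0 hgap
    linarith
  · have hN0 : 0 < N := by
      rcases (add_nonneg hu hv).lt_or_eq with h | h
      · exact h
      · exfalso
        have hu0 : |u| ^ p = 0 := by linarith
        have hv0 : |v| ^ p = 0 := by linarith
        have hu1 : u = 0 := abs_eq_zero.1 ((Real.rpow_eq_zero (abs_nonneg u) (by linarith)).1 hu0)
        have hv1 : v = 0 := abs_eq_zero.1 ((Real.rpow_eq_zero (abs_nonneg v) (by linarith)).1 hv0)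
        rw [hN, hu0, hv0, hu1, hv1, sub_self, abs_zero, Real.zero_rpow (by linarith)] at hc
        linarith
    -- normalise
    set l : ℝ := N ^ (-(1 / p)) with hl
    have hl0 : 0 < l := Real.rpow_pos_of_pos hN0 _
    have hlp : l ^ p = N⁻¹ := by
      rw [hl, ← Real.rpow_mul hN0.le, show -(1 / p) * p = -1 by field_simp, Real.rpow_neg_one]
    have hsc : ∀ a : ℝ, |l * a| ^ p = N⁻¹ * |a| ^ p := by
      intro a
      rw [abs_mul, abs_of_pos hl0, Real.mul_rpow hl0.le (abs_nonneg a), hlp]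
    have hmem : (l * u, l * v) ∈ K := by
      refine ⟨?_, ?_⟩
      · show |l * u| ^ p + |l * v| ^ p = 1
        rw [hsc, hsc, ← mul_add, inv_mul_cancel₀ hN0.ne']
      · show η ≤ |l * u - l * v| ^ p
        rw [← mul_sub, hsc, ← div_eq_inv_mul, le_div_iff₀ hN0]
        exact hc.le
    have h := hmin _ hmem
    simp only at h
    rw [show (l * u + l * v) / 2 = l * ((u + v) / 2) by ring, hsc, hsc, hsc] at h
    have h3 : N * m ≤ N / 2 - |(u + v) / 2| ^ p := by
      have h4 := mul_le_mul_of_nonneg_left h hN0.le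
      have e1 : N * ((N⁻¹ * |u| ^ p + N⁻¹ * |v| ^ p) / 2 - N⁻¹ * |(u + v) / 2| ^ p) =
          N / 2 - |(u + v) / 2| ^ p := by
        have e2 : N * N⁻¹ = 1 := mul_inv_cancel₀ hN0.ne'
        calc N * ((N⁻¹ * |u| ^ p + N⁻¹ * |v| ^ p) / 2 - N⁻¹ * |(u + v) / 2| ^ p)
            = (N * N⁻¹) * ((|u| ^ p + |v| ^ p) / 2 - |(u + v) / 2| ^ p) := by ring
          _ = N / 2 - |(u + v) / 2| ^ p := by rw [e2, one_mul]
      rw [e1] at h4
      exact h4
    -- `|u - v|^p ≤ 2^p N`
    have h5 : |u - v| ^ p ≤ 2 ^ p * N := by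
      have h6 : |u - v| ^ p ≤ (2 * max |u| |v|) ^ p := by
        apply Real.rpow_le_rpow (abs_nonneg _) _ hp0
        have h7 : |u - v| ≤ |u| + |v| := abs_sub u v
        have h8 := le_max_left |u| |v|
        have h9 := le_max_right |u| |v|
        linarith
      have h10 : (max |u| |v|) ^ p ≤ N := by
        rcases le_total |u| |v| with h11 | h11
        · rw [max_eq_right h11]
          linarith
        · rw [max_eq_left h11]
          linarith
      calc |u - v| ^ p ≤ (2 * max |u| |v|) ^ p := h6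
        _ = 2 ^ p * (max |u| |v|) ^ p :=
            Real.mul_rpow (by norm_num) (le_max_of_le_left (abs_nonneg u))
        _ ≤ 2 ^ p * N := mul_le_mul_of_nonneg_left h10 h2p.le
    have h12 : 2 ^ p * N ≤ 2 ^ p / m * (N / 2 - |(u + v) / 2| ^ p) := by
      calc 2 ^ p * N = 2 ^ p / m * (N * m) := by field_simp
        _ ≤ _ := mul_le_mul_of_nonneg_left h3 hC0
    have h13 : 0 ≤ η * N := by positivity
    linarith

end Vale.Agent.P249.SP
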