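import Vale.Agent.P249.SP.LinSpec
import Vale.Agent.P249.SP.UConv

/-!
# P249, block LIN-L3 (helper586): Jensen, deviations and tangent lines for box averages
-/

open Finset

namespace Vale.Agent.P249.SP.LThree

open Vale.Agent.P249.H65

variable {κ : Type} [Fintype κ] [DecidableEq κ]
variable {V : Type} [NormedAddCommGroup V] [NormedSpace ℝ V]

theorem bavg_rpow_le {R : ℕ} (hR : 0 < R) {p : ℝ} (hp : 1 ≤ p) {h : (κ → ℤ) → ℝ}
    (h0 : ∀ a, 0 ≤ h a) : (bavg R h) ^ p ≤ bavg R (fun a => h a ^ p) := by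
  have hk : (0 : ℝ) < (R : ℝ) ^ Fintype.card κ := by positivity
  have h1 := Real.rpow_arith_mean_le_arith_mean_rpow (box κ R)
    (fun _ => ((R : ℝ) ^ Fintype.card κ)⁻¹) h (fun _ _ => by positivity)
    (by rw [Finset.sum_const, card_box, nsmul_eq_mul, Nat.cast_pow, mul_inv_cancel₀ hk.ne'])
    (fun a _ => h0 a) hp
  simpa [bavg, Finset.mul_sum] using h1

theorem norm_bavg_rpow_le {R : ℕ} (hR : 0 < R) {p : ℝ} (hp : 1 ≤ p) (h : (κ → ℤ) → V) :
    ‖bavg R h‖ ^ p ≤ bavg R (fun a => ‖h a‖ ^ p) :=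
  (Real.rpow_le_rpow (norm_nonneg _) (norm_bavg_le_avg R h) (by linarith)).trans
    (bavg_rpow_le hR hp fun _ => norm_nonneg _)

theorem bavg_comm (R R' : ℕ) (h : (κ → ℤ) → (κ → ℤ) → V) :
    bavg R (fun a => bavg R' (fun a' => h a a')) = bavg R' (fun a' => bavg R (fun a => h a a')) := by
  simp only [bavg]
  rw [← Finset.smul_sum, ← Finset.smul_sum, Finset.sum_comm, smul_comm]

theorem bavg_mul (R : ℕ) (c : ℝ) (h : (κ → ℤ) → ℝ) :
    bavg R (fun a => c * h a) = c * bavg R h := by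
  simpa using bavg_smul R c h

/-- uniform convexity in the form used here -/
def UC (p C η : ℝ) (V : Type) [NormedAddCommGroup V] [NormedSpace ℝ V] : Prop :=
  ∀ u v : V, ‖u - v‖ ^ p ≤
    C * ((‖u‖ ^ p + ‖v‖ ^ p) / 2 - ‖(1 / 2 : ℝ) • (u + v)‖ ^ p) + η * (‖u‖ ^ p + ‖v‖ ^ p)

theorem dev_le {p C η : ℝ} (hp : 1 ≤ p) (hC : 0 ≤ C) (hUC : UC p C η V) {R : ℕ} (hR : 0 < R)
    (U : (κ → ℤ) → V) :
    bavg R (fun a => ‖U a - bavg R U‖ ^ p) ≤
      C * (bavg R (fun a => ‖U a‖ ^ p) - ‖bavg R U‖ ^ p) +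
        2 * η * bavg R (fun a => ‖U a‖ ^ p) := by
  set X := bavg R (fun a => ‖U a‖ ^ p) with hX
  have h1 : ∀ a, ‖U a - bavg R U‖ ^ p ≤ bavg R (fun a' => ‖U a - U a'‖ ^ p) := by
    intro a
    have h2 : U a - bavg R U = bavg R (fun a' => U a - U a') := by
      rw [bavg_sub, bavg_const hR]
    rw [h2]
    exact norm_bavg_rpow_le hR hp _
  have h3 : ∀ a, bavg R (fun a' => ‖U a - U a'‖ ^ p) ≤
      bavg R (fun a' => C * ((‖U a‖ ^ p + ‖U a'‖ ^ p) / 2 - ‖(1 / 2 : ℝ) • (U a + U a')‖ ^ p)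
        + η * (‖U a‖ ^ p + ‖U a'‖ ^ p)) := fun a => bavg_mono R fun a' _ => hUC _ _
  have h4 : bavg R (fun a => bavg R (fun a' => (‖U a‖ ^ p + ‖U a'‖ ^ p))) = 2 * X := by
    have h5 : ∀ a, bavg R (fun a' => (‖U a‖ ^ p + ‖U a'‖ ^ p)) = ‖U a‖ ^ p + X := by
      intro a
      rw [bavg_add, bavg_const hR]
    simp only [h5]
    rw [bavg_add, bavg_const hR]
    ring
  set Y := bavg R (fun a => bavg R (fun a' => ‖(1 / 2 : ℝ) • (U a + U a')‖ ^ p)) with hY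
  have h6 : ‖bavg R U‖ ^ p ≤ Y := by
    have h7 : bavg R U = bavg R (fun a => bavg R (fun a' => (1 / 2 : ℝ) • (U a + U a'))) := by
      have h8 : ∀ a, bavg R (fun a' => (1 / 2 : ℝ) • (U a + U a'))
          = (1 / 2 : ℝ) • (U a + bavg R U) := by
        intro a
        rw [bavg_smul, bavg_add, bavg_const hR]
      simp only [h8]
      rw [bavg_smul, bavg_add, bavg_const hR, ← two_smul ℝ, smul_smul]
      norm_num
    calc ‖bavg R U‖ ^ p
        = ‖bavg R (fun a => bavg R (fun a' => (1 / 2 : ℝ) • (U a + U a')))‖ ^ p := by rw [← h7]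
      _ ≤ bavg R (fun a => ‖bavg R (fun a' => (1 / 2 : ℝ) • (U a + U a'))‖ ^ p) :=
          norm_bavg_rpow_le hR hp _
      _ ≤ Y := bavg_mono R fun a _ => norm_bavg_rpow_le hR hp _
  have h9 : bavg R (fun a => bavg R (fun a' =>
      C * ((‖U a‖ ^ p + ‖U a'‖ ^ p) / 2 - ‖(1 / 2 : ℝ) • (U a + U a')‖ ^ p)
        + η * (‖U a‖ ^ p + ‖U a'‖ ^ p))) = C * (X - Y) + 2 * η * X := by
    have e1 : ∀ a a', C * ((‖U a‖ ^ p + ‖U a'‖ ^ p) / 2 - ‖(1 / 2 : ℝ) • (U a + U a')‖ ^ p)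
        + η * (‖U a‖ ^ p + ‖U a'‖ ^ p)
        = (C / 2 + η) * (‖U a‖ ^ p + ‖U a'‖ ^ p) - C * ‖(1 / 2 : ℝ) • (U a + U a')‖ ^ p := by
      intro a a'; ring
    simp only [e1, bavg_sub, bavg_mul]
    rw [h4, ← hY]
    ring
  calc bavg R (fun a => ‖U a - bavg R U‖ ^ p)
      ≤ bavg R (fun a => bavg R (fun a' =>
      C * ((‖U a‖ ^ p + ‖U a'‖ ^ p) / 2 - ‖(1 / 2 : ℝ) • (U a + U a')‖ ^ p)
        + η * (‖U a‖ ^ p + ‖U a'‖ ^ p))) := bavg_mono R fun a _ => (h1 a).trans (h3 a)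
    _ = C * (X - Y) + 2 * η * X := h9
    _ ≤ C * (X - ‖bavg R U‖ ^ p) + 2 * η * X := by
        have := mul_le_mul_of_nonneg_left h6 hC
        nlinarith

/-- tangent line inequality -/
theorem rpow_tangent {p x y Y : ℝ} (hp : 1 ≤ p) (hx : 0 ≤ x) (hy : 0 ≤ y) (hyY : y ≤ Y) :
    y ^ p ≤ x ^ p + p * Y ^ (p - 1) * |y - x| := by
  rcases hy.eq_or_lt with rfl | hy'
  · rw [Real.zero_rpow (by linarith)]
    have h1 := Real.rpow_nonneg hx p
    have h2 := Real.rpow_nonneg hyY (p - 1)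
    have h3 := abs_nonneg (0 - x)
    positivity
  · have h1 := one_add_mul_self_le_rpow_one_add (s := x / y - 1) (by
      have : 0 ≤ x / y := by positivity
      linarith) hp
    have h2 : (1 + (x / y - 1)) = x / y := by ring
    rw [h2, Real.div_rpow hx hy, le_div_iff₀ (by positivity)] at h1
    have h3 : y ^ p = y ^ (p - 1) * y := by
      rw [← Real.rpow_add_one hy'.ne']; congr 1; ring
    have h4 : (1 + p * (x / y - 1)) * y ^ p = y ^ p + p * y ^ (p - 1) * (x - y) := by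
      rw [h3]; field_simp
    rw [h4] at h1
    have h5 : y ^ (p - 1) ≤ Y ^ (p - 1) := Real.rpow_le_rpow hy hyY (by linarith)
    have h6 : p * y ^ (p - 1) * (y - x) ≤ p * Y ^ (p - 1) * |y - x| := by
      have h7 : 0 ≤ y ^ (p - 1) := Real.rpow_nonneg hy _
      calc p * y ^ (p - 1) * (y - x) ≤ p * y ^ (p - 1) * |y - x| :=
            mul_le_mul_of_nonneg_left (le_abs_self _) (by positivity)
        _ ≤ p * Y ^ (p - 1) * |y - x| := by
            refine mul_le_mul_of_nonneg_right ?_ (abs_nonneg _)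
            exact mul_le_mul_of_nonneg_left h5 (by linarith)
    nlinarith

/-- `(x + y)^p ≤ (9/8)^(p-1) x^p + 9^(p-1) y^p` -/
theorem add_rpow_le {p x y : ℝ} (hp : 1 ≤ p) (hx : 0 ≤ x) (hy : 0 ≤ y) :
    (x + y) ^ p ≤ (9 / 8 : ℝ) ^ (p - 1) * x ^ p + (9 : ℝ) ^ (p - 1) * y ^ p := by
  have h := (convexOn_rpow hp).2 (x := (9 / 8) * x) (y := 9 * y)
    (Set.mem_Ici.2 (by positivity)) (Set.mem_Ici.2 (by positivity))
    (show (0 : ℝ) ≤ 8 / 9 by norm_num) (show (0 : ℝ) ≤ 1 / 9 by norm_num) (by norm_num)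
  simp only [smul_eq_mul] at h
  have h1 : (8 / 9 : ℝ) * (9 / 8 * x) + 1 / 9 * (9 * y) = x + y := by ring
  rw [h1, Real.mul_rpow (by norm_num) hx, Real.mul_rpow (by norm_num) hy] at h
  have h2 : (9 / 8 : ℝ) ^ p = (9 / 8 : ℝ) ^ (p - 1) * (9 / 8) := by
    rw [← Real.rpow_add_one (by norm_num)]; congr 1; ring
  have h3 : (9 : ℝ) ^ p = (9 : ℝ) ^ (p - 1) * 9 := by
    rw [← Real.rpow_add_one (by norm_num)]; congr 1; ring
  rw [h2, h3] at h
  calc (x + y) ^ p ≤ _ := h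
    _ = _ := by ring

theorem add_rpow_le_two {p x y : ℝ} (hp : 1 ≤ p) (hx : 0 ≤ x) (hy : 0 ≤ y) :
    (x + y) ^ p ≤ (2 : ℝ) ^ (p - 1) * (x ^ p + y ^ p) := by
  have h := (convexOn_rpow hp).2 (x := 2 * x) (y := 2 * y)
    (Set.mem_Ici.2 (by positivity)) (Set.mem_Ici.2 (by positivity))
    (show (0 : ℝ) ≤ 1 / 2 by norm_num) (show (0 : ℝ) ≤ 1 / 2 by norm_num) (by norm_num)
  simp only [smul_eq_mul] at h
  have h1 : (1 / 2 : ℝ) * (2 * x) + 1 / 2 * (2 * y) = x + y := by ring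
  rw [h1, Real.mul_rpow (by norm_num) hx, Real.mul_rpow (by norm_num) hy] at h
  have h3 : (2 : ℝ) ^ p = (2 : ℝ) ^ (p - 1) * 2 := by
    rw [← Real.rpow_add_one (by norm_num)]; congr 1; ring
  rw [h3] at h
  calc (x + y) ^ p ≤ _ := h
    _ = _ := by ring

theorem exists_le_bavg {R : ℕ} (hR : 0 < R) (h : (κ → ℤ) → ℝ) :
    ∃ a ∈ box κ R, h a ≤ bavg R h := by
  have hne : (box κ R).Nonempty := by
    rw [← Finset.card_pos, card_box]; positivity
  have h1 : ∑ a ∈ box κ R, h a ≤ ∑ a ∈ box κ R, bavg R h := by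
    have hk : (0 : ℝ) < (R : ℝ) ^ Fintype.card κ := by positivity
    rw [Finset.sum_const, card_box, nsmul_eq_mul]
    simp only [bavg, smul_eq_mul, Nat.cast_pow]
    rw [← mul_assoc, mul_inv_cancel₀ hk.ne', one_mul]
  obtain ⟨a, ha, h2⟩ := Finset.exists_le_of_sum_le hne h1
  exact ⟨a, ha, h2⟩

end Vale.Agent.P249.SP.LThree
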