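import Vale.Agent.P249.SP.LinL3a

/-!
# P249, block LIN-L3 (helper586): the lattice estimates
-/

open Finset

namespace Vale.Agent.P249.SP.LThree

open Vale.Agent.P249.H65

variable {κ : Type} [Fintype κ] [DecidableEq κ]
variable {V : Type} [NormedAddCommGroup V] [NormedSpace ℝ V]
variable {E : Type} [NormedAddCommGroup E] [NormedSpace ℝ E]

/-- bi-Lipschitz on the box of size `4 M` -/
def BL (D : ℝ) (M : ℕ) (φ : (κ → ℝ) →ₗ[ℝ] E) (g : (κ → ℤ) → V) : Prop :=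
  ∀ a a' : κ → ℤ, (∀ i, |a i| ≤ 4 * (M : ℤ)) → (∀ i, |a' i| ≤ 4 * (M : ℤ)) →
    ‖φ (ic (a - a'))‖ ≤ ‖g a - g a'‖ ∧ ‖g a - g a'‖ ≤ D * ‖φ (ic (a - a'))‖

/-- averaged function -/
noncomputable def gj (g : (κ → ℤ) → V) (R : ℕ) (x : κ → ℤ) : V := bavg R fun a => g (x + a)

/-- averaged difference -/
noncomputable def uj (g : (κ → ℤ) → V) (R : ℕ) (b x : κ → ℤ) : V :=
  bavg R fun a => g (x + a + b) - g (x + a)

theorem uj_eq (g : (κ → ℤ) → V) (R : ℕ) (b x : κ → ℤ) :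
    uj g R b x = gj g R (x + b) - gj g R x := by
  unfold uj gj
  rw [← bavg_sub]
  congr 1
  funext a
  rw [add_right_comm]

theorem sum_uj (g : (κ → ℤ) → V) (R : ℕ) (b x : κ → ℤ) (n : ℕ) :
    ∑ i ∈ range n, uj g R b (x + (i : ℤ) • b) = gj g R (x + (n : ℤ) • b) - gj g R x := by
  induction n with
  | zero => simp
  | succ n ih =>
    rw [Finset.sum_range_succ, ih, uj_eq]
    have : x + (n : ℤ) • b + b = x + ((n + 1 : ℕ) : ℤ) • b := by
      push_cast
      rw [add_smul, one_smul, add_assoc]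
    rw [this]
    abel

theorem box_l1 {R : ℕ} {a : κ → ℤ} (ha : a ∈ box κ R) : l1 (ic a) ≤ Fintype.card κ * R := by
  unfold l1 ic
  calc ∑ i, |((a i : ℤ) : ℝ)| ≤ ∑ _i : κ, (R : ℝ) := by
        refine Finset.sum_le_sum fun i _ => ?_
        have h := mem_box.1 ha i
        rw [abs_of_nonneg (by exact_mod_cast h.1)]
        exact_mod_cast h.2.le
    _ = _ := by rw [Finset.sum_const, Finset.card_univ, nsmul_eq_mul]

theorem box_abs {R : ℕ} {a : κ → ℤ} (ha : a ∈ box κ R) (i : κ) : |a i| ≤ R := by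
  have h := mem_box.1 ha i
  rw [abs_of_nonneg h.1]
  exact h.2.le

theorem abs_add_three_le {x a b : ℤ} {p q r s : ℤ} (hx : |x| ≤ p) (ha : |a| ≤ q) (hb : |b| ≤ r)
    (h : p + q + r ≤ s) : |x + a + b| ≤ s := by
  have h1 := abs_add_le (x + a) b
  have h2 := abs_add_le x a
  linarith

omit [Fintype κ] [DecidableEq κ] [NormedSpace ℝ V] in
theorem norm_diff_le {D : ℝ} {M : ℕ} {φ : (κ → ℝ) →ₗ[ℝ] E} {g : (κ → ℤ) → V}
    (hg : BL D M φ g) {b y : κ → ℤ} (hy : ∀ i, |y i| ≤ 3 * (M : ℤ)) (hb : ∀ i, |b i| ≤ (M : ℤ)) :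
    ‖g (y + b) - g y‖ ≤ D * ‖φ (ic b)‖ := by
  have h := (hg (y + b) y (fun i => by
    have := abs_add_le (y i) (b i)
    have h1 := hy i
    have h2 := hb i
    simp only [Pi.add_apply]
    linarith) (fun i => by
    have h1 := hy i
    have : (0 : ℤ) ≤ M := by positivity
    linarith)).2
  rwa [add_sub_cancel_left] at h

theorem norm_uj_le {D : ℝ} {M : ℕ} {φ : (κ → ℝ) →ₗ[ℝ] E} {g : (κ → ℤ) → V}
    (hg : BL D M φ g) {R : ℕ} (hR : 0 < R) (hRM : R ≤ M) {b x : κ → ℤ}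
    (hx : ∀ i, |x i| ≤ 2 * (M : ℤ)) (hb : ∀ i, |b i| ≤ (M : ℤ)) :
    ‖uj g R b x‖ ≤ D * ‖φ (ic b)‖ := by
  refine norm_bavg_le hR fun a ha => norm_diff_le hg (fun i => ?_) hb
  have h1 := box_abs ha i
  have h2 := hx i
  have h3 := abs_add_le (x i) (a i)
  have h4 : (R : ℤ) ≤ M := by exact_mod_cast hRM
  simp only [Pi.add_apply]
  linarith

/-- consistency of two scales -/
theorem uj_cons {D : ℝ} {M : ℕ} {φ : (κ → ℝ) →ₗ[ℝ] E} {g : (κ → ℤ) → V} (hD : 0 ≤ D)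
    (hg : BL D M φ g) {R R' : ℕ} (hR : 0 < R) (hRR : R ≤ R') (hRM : 2 * R' ≤ M) {b x : κ → ℤ}
    (hx : ∀ i, |x i| ≤ (M : ℤ)) (hb : ∀ i, |b i| ≤ (M : ℤ)) :
    ‖bavg R' (fun a => uj g R b (x + a)) - uj g R' b x‖ ≤
      2 * (D * ‖φ (ic b)‖) * (Fintype.card κ * R) / R' := by
  have hR' : 0 < R' := lt_of_lt_of_le hR hRR
  have hR'r : (0 : ℝ) < R' := by exact_mod_cast hR'
  set h : (κ → ℤ) → V := fun a => g (x + a + b) - g (x + a) with hh
  have e1 : bavg R' (fun a => uj g R b (x + a)) = bavg R (fun a' => bavg R' (fun a => h (a + a'))) := by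
    unfold uj
    rw [bavg_comm]
    congr 1
    funext a'
    congr 1
    funext a
    simp only [hh]
    rw [add_assoc x a a']
  have e2 : uj g R' b x = bavg R (fun _ : κ → ℤ => bavg R' h) := by
    rw [bavg_const hR]; rfl
  rw [e1, e2, ← bavg_sub]
  refine norm_bavg_le hR fun a' ha' => ?_
  have h1 := bavg_shift_of_range (n := R) hR' (h := h) (C := D * ‖φ (ic b)‖)
    (mul_nonneg hD (norm_nonneg _)) (fun a ha => norm_diff_le hg (fun i => by
      have h1 := ha i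
      have h2 := hx i
      have h3 := abs_add_le (x i) (a i)
      have h4 : 2 * (R' : ℤ) ≤ M := by exact_mod_cast hRM
      have h5 : (R : ℤ) ≤ R' := by exact_mod_cast hRR
      simp only [Pi.add_apply]
      linarith) hb) a' (fun i => box_abs ha' i)
  refine h1.trans ?_
  have h2 := box_l1 ha'
  unfold l1 ic at h2
  exact div_le_div_of_nonneg_right (mul_le_mul_of_nonneg_left h2
    (mul_nonneg (by norm_num) (mul_nonneg hD (norm_nonneg _)))) hR'r.le

theorem norm_gj_sub_le {D : ℝ} {M : ℕ} {φ : (κ → ℝ) →ₗ[ℝ] E} {g : (κ → ℤ) → V} (hD : 0 ≤ D)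
    (hφ : ∀ i, ‖φ (Pi.single i 1)‖ ≤ 1)
    (hg : BL D M φ g) {R : ℕ} (hR : 0 < R) (hRM : R ≤ M) {y : κ → ℤ}
    (hy : ∀ i, |y i| ≤ 3 * (M : ℤ)) :
    ‖gj g R y - g y‖ ≤ D * (Fintype.card κ * R) := by
  have e1 : gj g R y - g y = bavg R (fun a => g (y + a) - g y) := by
    rw [bavg_sub, bavg_const hR]; rfl
  rw [e1]
  refine norm_bavg_le hR fun a ha => (norm_diff_le hg hy (fun i => ?_)).trans ?_
  · exact (box_abs ha i).trans (by exact_mod_cast hRM)
  · refine mul_le_mul_of_nonneg_left ?_ hD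
    have := norm_apply_le_l1 hφ (ic a)
    rw [one_mul] at this
    exact this.trans (box_l1 ha)

/-- the displacement estimate -/
theorem disp {D Λ : ℝ} {M : ℕ} {φ : (κ → ℝ) →ₗ[ℝ] E} {g : (κ → ℤ) → V} (hD : 0 ≤ D)
    (hφ : ∀ i, ‖φ (Pi.single i 1)‖ ≤ 1)
    (hg : BL D M φ g) {R R' n : ℕ} (hR : 0 < R) (hRR : R ≤ R') (hn : 0 < n) (hRM : 2 * R' ≤ M)
    {b x : κ → ℤ} (hx : ∀ i, |x i| ≤ (M : ℤ)) (hbΛ : l1 (ic b) ≤ Λ) (hnΛ : n * Λ ≤ R')
    (m : V) (hm : ‖m‖ ≤ D * ‖φ (ic b)‖) :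
    ‖φ (ic b)‖ ≤ ‖m‖ + bavg R' (fun a => ‖uj g R b (x + a) - m‖) +
      2 * D * (Fintype.card κ * R) / n + 4 * D * ‖φ (ic b)‖ * (n * Λ) / R' := by
  have hR' : 0 < R' := lt_of_lt_of_le hR hRR
  have hR'r : (0 : ℝ) < R' := by exact_mod_cast hR'
  have hnr : (0 : ℝ) < n := by exact_mod_cast hn
  have hbi : ∀ i, |(b i : ℝ)| ≤ Λ := fun i => by
    refine le_trans ?_ hbΛ
    exact Finset.single_le_sum (f := fun i => |ic b i|) (fun _ _ => abs_nonneg _) (mem_univ i)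
  have hnb : ∀ i, ∀ j : ℕ, j ≤ n → |((j : ℤ) • b) i| ≤ (R' : ℤ) := by
    intro i j hj
    have h1 : |((((j : ℤ) • b) i : ℤ) : ℝ)| ≤ R' := by
      simp only [Pi.smul_apply, smul_eq_mul, Int.cast_mul, Int.cast_natCast, abs_mul, Nat.abs_cast]
      have h2 : (j : ℝ) ≤ n := by exact_mod_cast hj
      calc (j : ℝ) * |(b i : ℝ)| ≤ n * Λ :=
            mul_le_mul h2 (hbi i) (abs_nonneg _) hnr.le
        _ ≤ R' := hnΛ
    exact_mod_cast h1
  have hb : ∀ i, |b i| ≤ (M : ℤ) := fun i => by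
    have h1 := hnb i 1 hn
    simp only [Nat.cast_one, one_smul] at h1
    have h4 : 2 * (R' : ℤ) ≤ M := by exact_mod_cast hRM
    have h5 : (0 : ℤ) ≤ R' := by positivity
    linarith
  have hRMz : 2 * (R' : ℤ) ≤ M := by exact_mod_cast hRM
  have hRRz : (R : ℤ) ≤ R' := by exact_mod_cast hRR
  have hR'z : (0 : ℤ) ≤ R' := by positivity
  set w : (κ → ℤ) → ℝ := fun a => ‖uj g R b (x + a) - m‖ with hw
  have hw0 : ∀ a : κ → ℤ, (∀ i, |a i| ≤ (R' : ℤ) + (R' : ℕ)) → ‖w a‖ ≤ 2 * (D * ‖φ (ic b)‖) := by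
    intro a ha
    rw [hw, Real.norm_eq_abs, abs_of_nonneg (norm_nonneg _)]
    refine (norm_sub_le _ _).trans ?_
    have h1 := norm_uj_le hg hR (by omega : R ≤ M) (b := b) (x := x + a) (fun i => by
      have h1 := ha i
      have h2 := hx i
      have h3 := abs_add_le (x i) (a i)
      simp only [Pi.add_apply]
      linarith) hb
    linarith
  -- pointwise lower bound
  have hpt : ∀ a ∈ box κ R', (n : ℝ) * ‖φ (ic b)‖ ≤ 2 * (D * (Fintype.card κ * R)) + n * ‖m‖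
      + ∑ i ∈ range n, w (a + (i : ℤ) • b) := by
    intro a ha
    have ha' := fun i => box_abs ha i
    have hy1 : ∀ i, |(x + a) i| ≤ 3 * (M : ℤ) := fun i => by
      have h1 := ha' i
      have h2 := hx i
      have h3 := abs_add_le (x i) (a i)
      simp only [Pi.add_apply]
      linarith
    have hy2 : ∀ i, |(x + a + (n : ℤ) • b) i| ≤ 3 * (M : ℤ) := fun i => by
      have h1 := ha' i
      have h2 := hx i
      have h4 := hnb i n le_rfl
      simp only [Pi.add_apply] at h4 ⊢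
      exact abs_add_three_le h2 h1 h4 (by linarith)
    have h1 := norm_gj_sub_le hD hφ hg hR (by omega : R ≤ M) hy1
    have h2 := norm_gj_sub_le hD hφ hg hR (by omega : R ≤ M) hy2
    have h3 := (hg (x + a + (n : ℤ) • b) (x + a) (fun i => by have := hy2 i; linarith)
      (fun i => by have := hy1 i; linarith)).1
    have h4 : ‖φ (ic (x + a + (n : ℤ) • b - (x + a)))‖ = n * ‖φ (ic b)‖ := by
      rw [add_sub_cancel_left]
      have : ic ((n : ℤ) • b) = (n : ℝ) • ic b := by funext i; simp [ic]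
      rw [this, map_smul, norm_smul, Real.norm_eq_abs, Nat.abs_cast]
    rw [h4] at h3
    have h5 := sum_uj g R b (x + a) n
    have h6 : ∑ i ∈ range n, uj g R b (x + a + (i : ℤ) • b)
        = (n : ℝ) • m + ∑ i ∈ range n, (uj g R b (x + (a + (i : ℤ) • b)) - m) := by
      rw [Finset.sum_sub_distrib, Finset.sum_const, card_range, ← Nat.cast_smul_eq_nsmul ℝ]
      simp only [← add_assoc]
      abel
    have h7 : ‖∑ i ∈ range n, uj g R b (x + a + (i : ℤ) • b)‖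
        ≤ n * ‖m‖ + ∑ i ∈ range n, w (a + (i : ℤ) • b) := by
      rw [h6]
      refine (norm_add_le _ _).trans (add_le_add ?_ (norm_sum_le _ _))
      rw [norm_smul, Real.norm_eq_abs, Nat.abs_cast]
    rw [h5] at h7
    have h8 : g (x + a + (n : ℤ) • b) - g (x + a)
        = (gj g R (x + a + (n : ℤ) • b) - gj g R (x + a))
          - (gj g R (x + a + (n : ℤ) • b) - g (x + a + (n : ℤ) • b))
          + (gj g R (x + a) - g (x + a)) := by abel
    have h9 : ‖g (x + a + (n : ℤ) • b) - g (x + a)‖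
        ≤ ‖gj g R (x + a + (n : ℤ) • b) - gj g R (x + a)‖
          + ‖gj g R (x + a + (n : ℤ) • b) - g (x + a + (n : ℤ) • b)‖
          + ‖gj g R (x + a) - g (x + a)‖ := by
      rw [h8]
      refine (norm_add_le _ _).trans (add_le_add (norm_sub_le _ _) le_rfl)
    linarith
  have hav : (n : ℝ) * ‖φ (ic b)‖ ≤ 2 * (D * (Fintype.card κ * R)) + n * ‖m‖
      + ∑ i ∈ range n, bavg R' (fun a => w (a + (i : ℤ) • b)) := by
    have h1 := bavg_mono R' hpt
    rw [bavg_const hR', bavg_add, bavg_const hR', bavg_sum] at h1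
    exact h1
  have hsh : ∀ i ∈ range n, bavg R' (fun a => w (a + (i : ℤ) • b)) ≤
      bavg R' w + 2 * (2 * (D * ‖φ (ic b)‖)) * (n * Λ) / R' := by
    intro i hi
    have hi' : i ≤ n := (mem_range.1 hi).le
    have h1 := bavg_shift_of_range (n := R') hR' (h := w) (C := 2 * (D * ‖φ (ic b)‖))
      (by positivity) hw0 ((i : ℤ) • b) (fun j => hnb j i hi')
    rw [Real.norm_eq_abs] at h1
    have h2 := (le_abs_self _).trans h1
    have h3 : ∑ j, |((((i : ℤ) • b) j : ℤ) : ℝ)| ≤ n * Λ := by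
      have h4 : ∑ j, |((((i : ℤ) • b) j : ℤ) : ℝ)| = i * l1 (ic b) := by
        unfold l1 ic
        rw [Finset.mul_sum]
        refine Finset.sum_congr rfl fun j _ => ?_
        simp [abs_mul]
      rw [h4]
      exact mul_le_mul (by exact_mod_cast hi') hbΛ (l1_nonneg _) hnr.le
    have h5 : (2 * (2 * (D * ‖φ (ic b)‖)) * ∑ j, |((((i : ℤ) • b) j : ℤ) : ℝ)|) / R'
        ≤ 2 * (2 * (D * ‖φ (ic b)‖)) * (n * Λ) / R' :=
      div_le_div_of_nonneg_right (mul_le_mul_of_nonneg_left h3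
        (show 0 ≤ 2 * (2 * (D * ‖φ (ic b)‖)) by positivity)) hR'r.le
    linarith
  have hsum : ∑ i ∈ range n, bavg R' (fun a => w (a + (i : ℤ) • b)) ≤
      n * (bavg R' w + 2 * (2 * (D * ‖φ (ic b)‖)) * (n * Λ) / R') := by
    refine (Finset.sum_le_sum hsh).trans (le_of_eq ?_)
    rw [Finset.sum_const, card_range, nsmul_eq_mul]
  have h1 : (n : ℝ) * ‖φ (ic b)‖ ≤ n * (‖m‖ + bavg R' w +
      2 * D * (Fintype.card κ * R) / n + 4 * D * ‖φ (ic b)‖ * (n * Λ) / R') := by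
    have e : (n : ℝ) * (‖m‖ + bavg R' w +
      2 * D * (Fintype.card κ * R) / n + 4 * D * ‖φ (ic b)‖ * (n * Λ) / R')
      = 2 * (D * (Fintype.card κ * R)) + n * ‖m‖ +
        n * (bavg R' w + 2 * (2 * (D * ‖φ (ic b)‖)) * (n * Λ) / R') := by
      field_simp
      ring
    rw [e]
    linarith
  exact le_of_mul_le_mul_left h1 hnr

end Vale.Agent.P249.SP.LThree
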