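import Vale.Agent.P249.SP.LinL3b

/-!
# P249, block LIN-L3 (helper586): pigeonhole over the scales
-/

open Finset

namespace Vale.Agent.P249.SP.LThree

open Vale.Agent.P249.H65

variable {κ : Type} [Fintype κ] [DecidableEq κ]
variable {V : Type} [NormedAddCommGroup V] [NormedSpace ℝ V]
variable {E : Type} [NormedAddCommGroup E] [NormedSpace ℝ E]

theorem tele (e : ℕ → ℝ) (N : ℕ) :
    ∑ j ∈ range N, (e j - e (j + 2)) = e 0 + e 1 - e N - e (N + 1) := by
  induction N with
  | zero => simp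
  | succ n ih => rw [Finset.sum_range_succ, ih]; ring

/-- averaged estimate for one pair of scales -/
theorem dev_avg {p D C η : ℝ} (hp : 1 ≤ p) (hD : 0 ≤ D) (hC : 0 ≤ C) (hη : 0 ≤ η)
    (hUC : UC p C η V) {M : ℕ} {φ : (κ → ℝ) →ₗ[ℝ] E} {g : (κ → ℤ) → V}
    (hg : BL D M φ g) {W : Type} [Fintype W] (π : W → ℝ) (b : W → κ → ℤ) (hπ : ∀ t, 0 ≤ π t)
    (hb : ∀ t i, |b t i| ≤ (M : ℤ)) {R R' : ℕ} (hR : 0 < R) (hRR : R ≤ R') (hRM : 2 * R' ≤ M)
    {ρ : ℝ} (hρ1 : Fintype.card κ * (R : ℝ) / R' ≤ ρ) (hρ2 : Fintype.card κ * (R' : ℝ) / M ≤ ρ)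
    {S τ : ℝ} (hS : S = ∑ t, π t * ‖φ (ic (b t))‖ ^ p)
    (hpig : bavg M (fun x => ∑ t, π t * ‖uj g R (b t) x‖ ^ p) -
      bavg M (fun x => ∑ t, π t * ‖uj g R' (b t) x‖ ^ p) ≤ τ) :
    bavg M (fun x => ∑ t, π t * bavg R' (fun a =>
        ‖uj g R (b t) (x + a) - bavg R' (fun a => uj g R (b t) (x + a))‖ ^ p)) ≤
      C * (τ + (2 + 2 * p) * D ^ p * S * ρ) + 2 * η * (D ^ p * S * (1 + 2 * ρ)) := by
  have hR' : 0 < R' := lt_of_lt_of_le hR hRR
  have hM : 0 < M := by omega
  have hR'r : (0 : ℝ) < R' := by exact_mod_cast hR'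
  have hMr : (0 : ℝ) < M := by exact_mod_cast hM
  have hp0 : 0 ≤ p := by linarith
  have hDp : 0 ≤ D ^ p := Real.rpow_nonneg hD p
  have hS0 : 0 ≤ S := by
    rw [hS]
    exact Finset.sum_nonneg fun t _ => mul_nonneg (hπ t) (Real.rpow_nonneg (norm_nonneg _) p)
  have hRMz : 2 * (R' : ℤ) ≤ M := by exact_mod_cast hRM
  have hR'z : (0 : ℤ) ≤ R' := by positivity
  have hMz : (0 : ℤ) ≤ M := by positivity
  set h : (κ → ℤ) → ℝ := fun x => ∑ t, π t * ‖uj g R (b t) x‖ ^ p with hh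
  set h' : (κ → ℤ) → ℝ := fun x => ∑ t, π t * ‖uj g R' (b t) x‖ ^ p with hh'
  have hh0 : ∀ x, 0 ≤ h x := fun x =>
    Finset.sum_nonneg fun t _ => mul_nonneg (hπ t) (Real.rpow_nonneg (norm_nonneg _) p)
  have hub : ∀ x : κ → ℤ, (∀ i, |x i| ≤ 2 * (M : ℤ)) → h x ≤ D ^ p * S := by
    intro x hx
    rw [hh, hS, Finset.mul_sum]
    refine Finset.sum_le_sum fun t _ => ?_
    have h1 := norm_uj_le hg hR (by omega : R ≤ M) (b := b t) hx (hb t)
    have h2 := Real.rpow_le_rpow (norm_nonneg _) h1 hp0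
    rw [Real.mul_rpow hD (norm_nonneg _)] at h2
    calc π t * ‖uj g R (b t) x‖ ^ p ≤ π t * (D ^ p * ‖φ (ic (b t))‖ ^ p) :=
          mul_le_mul_of_nonneg_left h2 (hπ t)
      _ = _ := by ring
  -- shift in `x`
  have hshift : bavg M (fun x => bavg R' (fun a => h (x + a))) ≤
      bavg M h + 2 * (D ^ p * S) * ρ := by
    rw [bavg_comm]
    have h1 : ∀ a ∈ H65.box κ R', bavg M (fun x => h (x + a)) ≤ bavg M h + 2 * (D ^ p * S) * ρ := by
      intro a ha
      have h2 := bavg_shift_of_range (n := R') hM (h := h) (C := D ^ p * S)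
        (mul_nonneg hDp hS0) (fun x hx => by
          rw [Real.norm_eq_abs, abs_of_nonneg (hh0 x)]
          exact hub x fun i => by have := hx i; linarith) a (fun i => box_abs ha i)
      rw [Real.norm_eq_abs] at h2
      have h3 := (le_abs_self _).trans h2
      have h4 := box_l1 ha
      unfold l1 ic at h4
      have h5 : 2 * (D ^ p * S) * (∑ i, |(a i : ℝ)|) / M ≤ 2 * (D ^ p * S) * ρ := by
        have h6 : (∑ i, |(a i : ℝ)|) / M ≤ ρ :=
          (div_le_div_of_nonneg_right h4 hMr.le).trans hρ2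
        rw [mul_div_assoc]
        exact mul_le_mul_of_nonneg_left h6 (by positivity)
      linarith
    refine (bavg_mono R' h1).trans ?_
    rw [bavg_const hR']
  -- pointwise in `x`
  have hpt : ∀ x ∈ H65.box κ M, ∑ t, π t * bavg R' (fun a =>
        ‖uj g R (b t) (x + a) - bavg R' (fun a => uj g R (b t) (x + a))‖ ^ p) ≤
      (C + 2 * η) * bavg R' (fun a => h (x + a)) - C * h' x + C * (2 * p * D ^ p * S * ρ) := by
    intro x hx
    have hxM : ∀ i, |x i| ≤ (M : ℤ) := fun i => box_abs hx i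
    have h1 : ∀ t, bavg R' (fun a =>
        ‖uj g R (b t) (x + a) - bavg R' (fun a => uj g R (b t) (x + a))‖ ^ p) ≤
        (C + 2 * η) * bavg R' (fun a => ‖uj g R (b t) (x + a)‖ ^ p) - C * ‖uj g R' (b t) x‖ ^ p
          + C * (2 * p * D ^ p * ρ) * ‖φ (ic (b t))‖ ^ p := by
      intro t
      set m := bavg R' (fun a => uj g R (b t) (x + a)) with hm
      have h2 := dev_le hp hC hUC hR' (fun a => uj g R (b t) (x + a))
      rw [← hm] at h2
      have h3 := uj_cons hD hg hR hRR hRM (b := b t) hxM (hb t)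
      rw [← hm] at h3
      have h4 := norm_uj_le hg hR' (by omega : R' ≤ M) (b := b t) (x := x) (fun i => by
        have := hxM i; linarith) (hb t)
      have h5 := rpow_tangent hp (norm_nonneg m) (norm_nonneg (uj g R' (b t) x)) h4
      have h6 : |‖uj g R' (b t) x‖ - ‖m‖| ≤ 2 * (D * ‖φ (ic (b t))‖) * ρ := by
        have h7 := abs_norm_sub_norm_le (uj g R' (b t) x) m
        rw [norm_sub_rev] at h7
        refine h7.trans (h3.trans ?_)
        rw [mul_div_assoc]
        exact mul_le_mul_of_nonneg_left hρ1 (by positivity)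
      have h8 : p * (D * ‖φ (ic (b t))‖) ^ (p - 1) * |‖uj g R' (b t) x‖ - ‖m‖|
          ≤ 2 * p * D ^ p * ρ * ‖φ (ic (b t))‖ ^ p := by
        set Y := D * ‖φ (ic (b t))‖ with hY
        have hY0 : 0 ≤ Y := by positivity
        have hYp : Y ^ (p - 1) * Y = D ^ p * ‖φ (ic (b t))‖ ^ p := by
          rw [← Real.mul_rpow hD (norm_nonneg _), ← hY]
          rcases hY0.eq_or_lt with h0 | h0
          · rw [← h0, mul_zero, Real.zero_rpow (by linarith)]
          · rw [← Real.rpow_add_one h0.ne']; congr 1; ring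
        have hYq : 0 ≤ Y ^ (p - 1) := Real.rpow_nonneg hY0 _
        calc p * Y ^ (p - 1) * |‖uj g R' (b t) x‖ - ‖m‖|
            ≤ p * Y ^ (p - 1) * (2 * Y * ρ) := mul_le_mul_of_nonneg_left h6 (by positivity)
          _ = 2 * p * ρ * (Y ^ (p - 1) * Y) := by ring
          _ = _ := by rw [hYp]; ring
      have h9 : ‖uj g R' (b t) x‖ ^ p ≤ ‖m‖ ^ p + 2 * p * D ^ p * ρ * ‖φ (ic (b t))‖ ^ p := by
        linarith
      have h10 := mul_le_mul_of_nonneg_left h9 hC
      nlinarith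
    calc ∑ t, π t * bavg R' (fun a =>
        ‖uj g R (b t) (x + a) - bavg R' (fun a => uj g R (b t) (x + a))‖ ^ p)
        ≤ ∑ t, π t * ((C + 2 * η) * bavg R' (fun a => ‖uj g R (b t) (x + a)‖ ^ p)
          - C * ‖uj g R' (b t) x‖ ^ p + C * (2 * p * D ^ p * ρ) * ‖φ (ic (b t))‖ ^ p) :=
          Finset.sum_le_sum fun t _ => mul_le_mul_of_nonneg_left (h1 t) (hπ t)
      _ = (C + 2 * η) * bavg R' (fun a => h (x + a)) - C * h' x
          + C * (2 * p * D ^ p * S * ρ) := by
          have e1 : bavg R' (fun a => h (x + a))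
              = ∑ t, π t * bavg R' (fun a => ‖uj g R (b t) (x + a)‖ ^ p) := by
            simp only [hh]
            rw [bavg_sum]
            exact Finset.sum_congr rfl fun t _ => bavg_mul _ _ _
          rw [e1, hS, hh']
          simp only [Finset.mul_sum, Finset.sum_mul]
          rw [← Finset.sum_sub_distrib, ← Finset.sum_add_distrib]
          exact Finset.sum_congr rfl fun t _ => by ring
  have hE : bavg M h ≤ D ^ p * S := by
    refine (bavg_mono M fun x hx => hub x fun i => ?_).trans (by rw [bavg_const hM])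
    have := box_abs hx i
    linarith
  refine (bavg_mono M hpt).trans ?_
  rw [bavg_add, bavg_sub, bavg_mul, bavg_mul, bavg_const hM]
  have h1 := mul_le_mul_of_nonneg_left hshift (show 0 ≤ C + 2 * η by positivity)
  have h2 := mul_le_mul_of_nonneg_left hpig hC
  have h3 := mul_le_mul_of_nonneg_left hE (show 0 ≤ 2 * η by positivity)
  nlinarith

end Vale.Agent.P249.SP.LThree
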