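import Vale.Agent.P249.SP.LinL3c

/-!
# P249, block LIN-L3 (helper586): numerics and the pointwise estimate
-/

open Finset

namespace Vale.Agent.P249.SP.LThree

open Vale.Agent.P249.H65

variable {κ : Type} [Fintype κ] [DecidableEq κ]
variable {V : Type} [NormedAddCommGroup V] [NormedSpace ℝ V]
variable {E : Type} [NormedAddCommGroup E] [NormedSpace ℝ E]

theorem num1 {k B D Λ C₀ L : ℝ} (hk0 : 0 ≤ k) (hB : 0 < B) (hD : 1 ≤ D) (hΛ : 1 ≤ Λ)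
    (hL : L ≤ Λ) (hk1B : (k + 1) / B ≤ 1 / C₀) :
    2 * D * (k / B) + 4 * D * L * Λ * (1 / B) + 2 * D * L * (k / B) ≤ 8 * D * Λ ^ 2 / C₀ := by
  have h6 : (k + 1) / B = k / B + 1 / B := by ring
  rw [h6] at hk1B
  have h7 : 0 ≤ k / B := by positivity
  have h8 : 0 ≤ 1 / B := by positivity
  have hD0 : 0 ≤ D := by linarith
  have hΛ2 : 1 ≤ Λ ^ 2 := by nlinarith
  have hΛ3 : L ≤ Λ ^ 2 := by nlinarith
  have hΛ4 : L * Λ ≤ Λ ^ 2 := by nlinarith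
  have h9 : D ≤ D * Λ ^ 2 := by
    have := mul_le_mul_of_nonneg_left hΛ2 hD0
    linarith
  have h10 : D * L ≤ D * Λ ^ 2 := mul_le_mul_of_nonneg_left hΛ3 hD0
  have h17 : D * L * Λ ≤ D * Λ ^ 2 := by
    have := mul_le_mul_of_nonneg_left hΛ4 hD0
    linarith
  have h11 : 8 * D * Λ ^ 2 / C₀ = 8 * (D * Λ ^ 2) * (1 / C₀) := by ring
  rw [h11]
  have h12 : 8 * (D * Λ ^ 2) * (k / B + 1 / B) ≤ 8 * (D * Λ ^ 2) * (1 / C₀) :=
    mul_le_mul_of_nonneg_left hk1B (by positivity)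
  have h13 := mul_le_mul_of_nonneg_right h9 h7
  have h14 := mul_le_mul_of_nonneg_right h10 h7
  have h18 := mul_le_mul_of_nonneg_right h17 h8
  have h15 : 0 ≤ (D * Λ ^ 2) * (k / B) := by positivity
  have h16 : 0 ≤ (D * Λ ^ 2) * (1 / B) := by positivity
  linarith

theorem num2 {p A w w' δ L : ℝ} (hp : 1 ≤ p) (hL : 0 ≤ L) (hA : 0 ≤ A) (hw : 0 ≤ w) (hδ : 0 ≤ δ)
    (h : L ≤ A + (w + δ)) (hw' : w ^ p ≤ w') :
    L ^ p ≤ (9 / 8 : ℝ) ^ (p - 1) * A ^ p + (18 : ℝ) ^ (p - 1) * (w' + δ ^ p) := by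
  have h7 : L ^ p ≤ (A + (w + δ)) ^ p := Real.rpow_le_rpow hL h (by linarith)
  have h8 := add_rpow_le hp hA (add_nonneg hw hδ)
  have h9 := add_rpow_le_two hp hw hδ
  have h11 : (18 : ℝ) ^ (p - 1) = 9 ^ (p - 1) * 2 ^ (p - 1) := by
    rw [← Real.mul_rpow (by norm_num) (by norm_num)]; norm_num
  have h12 : (0 : ℝ) ≤ 9 ^ (p - 1) := by positivity
  have h13 : (0 : ℝ) ≤ 2 ^ (p - 1) := by positivity
  rw [h11]
  have h14 := mul_le_mul_of_nonneg_left h9 h12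
  have h15 := mul_le_mul_of_nonneg_left hw' (mul_nonneg h12 h13)
  have h16 : (9 : ℝ) ^ (p - 1) * 2 ^ (p - 1) * (w' + δ ^ p)
      = 9 ^ (p - 1) * 2 ^ (p - 1) * w' + 9 ^ (p - 1) * (2 ^ (p - 1) * δ ^ p) := by ring
  rw [h16]
  have h17 : (9 : ℝ) ^ (p - 1) * (2 ^ (p - 1) * (w ^ p + δ ^ p))
      = 9 ^ (p - 1) * 2 ^ (p - 1) * w ^ p + 9 ^ (p - 1) * (2 ^ (p - 1) * δ ^ p) := by ring
  rw [h17] at h14
  linarith

theorem pt_est {p D Λ C₀ k Br r : ℝ} (hp : 1 ≤ p) (hD : 1 ≤ D) (hΛ : 1 ≤ Λ) (hk0 : 0 ≤ k)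
    (hB : 1 ≤ Br) (hr : 0 < r) (hk1B : (k + 1) / Br ≤ 1 / C₀) (hC₀ : 0 < C₀)
    {L A m w w' cons : ℝ} (hL0 : 0 ≤ L) (hL : L ≤ Λ) (hA : 0 ≤ A) (hw : 0 ≤ w)
    (h1 : L ≤ m + w + 2 * D * (k * r) / (Br * r) + 4 * D * L * ((Br * r) * Λ) / (Br * (Br * r)))
    (h2 : cons ≤ 2 * (D * L) * (k * r) / (Br * (Br * r))) (h3 : m ≤ A + cons)
    (hw' : w ^ p ≤ w') :
    L ^ p ≤ (9 / 8 : ℝ) ^ (p - 1) * A ^ p + (18 : ℝ) ^ (p - 1) *
      (w' + (8 * D * Λ ^ 2 / C₀) ^ p) := by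
  have hB0 : 0 < Br := by linarith
  have hδ0 : 0 ≤ 8 * D * Λ ^ 2 / C₀ := by positivity
  refine num2 hp hL0 hA hw hδ0 ?_ hw'
  have e1 : 2 * D * (k * r) / (Br * r) = 2 * D * (k / Br) := by field_simp
  have e2 : 4 * D * L * ((Br * r) * Λ) / (Br * (Br * r)) = 4 * D * L * Λ * (1 / Br) := by
    field_simp
  have e3 : 2 * (D * L) * (k * r) / (Br * (Br * r)) = 2 * D * L * (k / Br / Br) := by
    field_simp
  rw [e1, e2] at h1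
  rw [e3] at h2
  have h5 : k / Br / Br ≤ k / Br := div_le_self (by positivity) hB
  have h6 : 2 * D * L * (k / Br / Br) ≤ 2 * D * L * (k / Br) :=
    mul_le_mul_of_nonneg_left h5 (by positivity)
  have h7 := num1 hk0 hB0 hD hΛ hL hk1B
  linarith

end Vale.Agent.P249.SP.LThree
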