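import Vale.Agent.P249.SP.LinL3d

/-!
# P249, block LIN-L3 (helper586): core statement with explicit constants
-/

open Finset

namespace Vale.Agent.P249.SP.LThree

open Vale.Agent.P249.H65

variable {κ : Type} [Fintype κ] [DecidableEq κ]
variable {V : Type} [NormedAddCommGroup V] [NormedSpace ℝ V]
variable {E : Type} [NormedAddCommGroup E] [NormedSpace ℝ E]

/-- choice of the scale -/
theorem exists_scale {p D : ℝ} (hp : 1 ≤ p) (hD : 1 ≤ D) {N : ℕ} (hN : 0 < N)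
    {φ : (κ → ℝ) →ₗ[ℝ] E} {W : Type} [Fintype W] (π : W → ℝ) (b : W → κ → ℤ)
    (hπ : ∀ t, 0 ≤ π t) {B : ℕ} (hB0 : 0 < B) {g : (κ → ℤ) → V}
    (hg : BL D (B ^ (N + 2)) φ g) (hbM : ∀ t i, |b t i| ≤ ((B ^ (N + 2) : ℕ) : ℤ)) :
    ∃ j, j < N ∧ bavg (B ^ (N + 2)) (fun x => ∑ t, π t * ‖uj g (B ^ j) (b t) x‖ ^ p) -
      bavg (B ^ (N + 2)) (fun x => ∑ t, π t * ‖uj g (B ^ (j + 2)) (b t) x‖ ^ p) ≤
        2 * (D ^ p * ∑ t, π t * ‖φ (ic (b t))‖ ^ p) / N := by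
  have hp0 : 0 ≤ p := by linarith
  have hD0 : 0 ≤ D := by linarith
  set M : ℕ := B ^ (N + 2) with hM
  have hM0 : 0 < M := by positivity
  set S : ℝ := ∑ t, π t * ‖φ (ic (b t))‖ ^ p with hS
  set e : ℕ → ℝ := fun j => bavg M (fun x => ∑ t, π t * ‖uj g (B ^ j) (b t) x‖ ^ p) with he
  have he0 : ∀ j, 0 ≤ e j := fun j => bavg_nonneg M fun x _ => Finset.sum_nonneg fun t _ =>
    mul_nonneg (hπ t) (Real.rpow_nonneg (norm_nonneg _) p)
  have heD : ∀ j, j ≤ N + 2 → e j ≤ D ^ p * S := by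
    intro j hj
    have h1 : ∀ x ∈ H65.box κ M, ∑ t, π t * ‖uj g (B ^ j) (b t) x‖ ^ p ≤ D ^ p * S := by
      intro x hx
      rw [hS, Finset.mul_sum]
      refine Finset.sum_le_sum fun t _ => ?_
      have h1 := norm_uj_le hg (R := B ^ j) (by positivity)
        (by rw [hM]; exact Nat.pow_le_pow_right hB0 hj) (b := b t) (x := x)
        (fun i => by
          have := box_abs hx i
          have h2 : (0 : ℤ) ≤ M := by positivity
          linarith) (hbM t)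
      have h2 := Real.rpow_le_rpow (norm_nonneg _) h1 hp0
      rw [Real.mul_rpow hD0 (norm_nonneg _)] at h2
      calc π t * ‖uj g (B ^ j) (b t) x‖ ^ p ≤ π t * (D ^ p * ‖φ (ic (b t))‖ ^ p) :=
            mul_le_mul_of_nonneg_left h2 (hπ t)
        _ = _ := by ring
    refine (bavg_mono M h1).trans ?_
    rw [bavg_const hM0]
  have hNr : (0 : ℝ) < N := by exact_mod_cast hN
  obtain ⟨j, hj, hpig⟩ : ∃ j ∈ range N, e j - e (j + 2) ≤ 2 * (D ^ p * S) / N := by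
    refine Finset.exists_le_of_sum_le (by simp; omega) ?_
    rw [tele, Finset.sum_const, card_range, nsmul_eq_mul]
    have h1 := heD 0 (by omega)
    have h2 := heD 1 (by omega)
    have h3 := he0 N
    have h4 := he0 (N + 1)
    have h5 : (N : ℝ) * (2 * (D ^ p * S) / N) = 2 * (D ^ p * S) := by
      field_simp
    rw [h5]
    linarith
  exact ⟨j, mem_range.1 hj, hpig⟩

/-- the pointwise estimate -/
theorem pt {p D Λ C₀ : ℝ} (hp : 1 ≤ p) (hD : 1 ≤ D) (hΛ : 1 ≤ Λ) (hC₀ : 2 ≤ C₀) (hC₀Λ : Λ ≤ C₀)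
    {φ : (κ → ℝ) →ₗ[ℝ] E} (hφ : ∀ i, ‖φ (Pi.single i 1)‖ ≤ 1)
    {B : ℕ} (hB : C₀ * ((Fintype.card κ : ℝ) + 1) ≤ B) {M : ℕ} {g : (κ → ℤ) → V}
    (hg : BL D M φ g) {j : ℕ} (hRM : 2 * B ^ (j + 2) ≤ M) {b x : κ → ℤ}
    (hxM : ∀ i, |x i| ≤ (M : ℤ)) (hbΛ : l1 (ic b) ≤ Λ) (hbM : ∀ i, |b i| ≤ (M : ℤ)) :
    ‖φ (ic b)‖ ^ p ≤
      (9 / 8 : ℝ) ^ (p - 1) * ‖uj g (B ^ (j + 2)) b x‖ ^ p + (18 : ℝ) ^ (p - 1) *
        (bavg (B ^ (j + 2)) (fun a =>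
        ‖uj g (B ^ j) b (x + a) - bavg (B ^ (j + 2)) (fun a => uj g (B ^ j) b (x + a))‖ ^ p)
        + (8 * D * Λ ^ 2 / C₀) ^ p) := by
  have hk0 : (0 : ℝ) ≤ (Fintype.card κ : ℝ) := Nat.cast_nonneg _
  have hD0 : 0 ≤ D := by linarith
  have hC₀0 : 0 < C₀ := by linarith
  have hBr : (2 : ℝ) ≤ B := by nlinarith
  have hBr0 : (0 : ℝ) < B := by linarith
  have hB2 : 2 ≤ B := by exact_mod_cast hBr
  have hB0 : 0 < B := by omega
  have hk1B : ((Fintype.card κ : ℝ) + 1) / B ≤ 1 / C₀ := by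
    rw [div_le_div_iff₀ hBr0 hC₀0]
    nlinarith
  have hΛB : Λ ≤ B := by nlinarith
  have hR : 0 < B ^ j := by positivity
  have hn : 0 < B ^ (j + 1) := by positivity
  have hR' : 0 < B ^ (j + 2) := by positivity
  have hRR : B ^ j ≤ B ^ (j + 2) := Nat.pow_le_pow_right hB0 (by omega)
  have hRr : (0 : ℝ) < (B ^ j : ℕ) := by exact_mod_cast hR
  have hnr : (0 : ℝ) < (B ^ (j + 1) : ℕ) := by exact_mod_cast hn
  have en : ((B ^ (j + 1) : ℕ) : ℝ) = B * (B ^ j : ℕ) := by push_cast; ring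
  have eR' : ((B ^ (j + 2) : ℕ) : ℝ) = B * (B ^ (j + 1) : ℕ) := by push_cast; ring
  set m := bavg (B ^ (j + 2)) (fun a => uj g (B ^ j) b (x + a)) with hm
  have hmn : ‖m‖ ≤ D * ‖φ (ic b)‖ := by
    refine norm_bavg_le hR' fun a ha => ?_
    refine norm_uj_le hg hR (by omega : B ^ j ≤ M) (fun i => ?_) hbM
    have h1 := box_abs ha i
    have h2 := hxM i
    have h3 := abs_add_le (x i) (a i)
    have h4 : 2 * ((B ^ (j + 2) : ℕ) : ℤ) ≤ M := by exact_mod_cast hRM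
    have h5 : (0 : ℤ) ≤ ((B ^ (j + 2) : ℕ) : ℤ) := by positivity
    simp only [Pi.add_apply]
    linarith
  have hnΛ : ((B ^ (j + 1) : ℕ) : ℝ) * Λ ≤ (B ^ (j + 2) : ℕ) := by
    rw [eR', mul_comm]
    exact mul_le_mul_of_nonneg_right hΛB hnr.le
  have h1 := disp hD0 hφ hg hR hRR hn hRM hxM hbΛ hnΛ m hmn
  have h2 := uj_cons hD0 hg hR hRR hRM (b := b) hxM hbM
  rw [← hm] at h2
  have h3 : ‖m‖ ≤ ‖uj g (B ^ (j + 2)) b x‖ + ‖m - uj g (B ^ (j + 2)) b x‖ := by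
    have := norm_add_le (uj g (B ^ (j + 2)) b x) (m - uj g (B ^ (j + 2)) b x)
    rwa [add_sub_cancel] at this
  have hφb : ‖φ (ic b)‖ ≤ Λ := by
    have := norm_apply_le_l1 hφ (ic b)
    rw [one_mul] at this
    exact this.trans hbΛ
  rw [eR', en] at h1 h2
  exact pt_est hp hD hΛ hk0 (by linarith) hRr hk1B hC₀0 (norm_nonneg _) hφb (norm_nonneg _)
    (bavg_nonneg _ fun a _ => norm_nonneg _) h1 h2 h3
    (bavg_rpow_le hR' hp fun _ => norm_nonneg _)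

/-- the core statement, with explicit constants -/
theorem l3_core {p D Λ C η C₀ : ℝ} (hp : 1 ≤ p) (hD : 1 ≤ D) (hΛ : 1 ≤ Λ) (hC : 0 ≤ C)
    (hη : 0 ≤ η) {N : ℕ} (hN : 0 < N) (hC₀ : 2 ≤ C₀) (hC₀Λ : Λ ≤ C₀) (hUC : UC p C η V)
    {φ : (κ → ℝ) →ₗ[ℝ] E} (hφ : ∀ i, ‖φ (Pi.single i 1)‖ ≤ 1)
    {W : Type} [Fintype W] (π : W → ℝ) (b : W → κ → ℤ) (hπ : ∀ t, 0 ≤ π t)
    (hb : ∀ t, l1 (ic (b t)) ≤ Λ) (hmass : ∑ t, π t ≤ Λ * ∑ t, π t * ‖φ (ic (b t))‖ ^ p)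
    {B : ℕ} (hB : C₀ * ((Fintype.card κ : ℝ) + 1) ≤ B) {g : (κ → ℤ) → V}
    (hg : BL D (B ^ (N + 2)) φ g) :
    ∃ (j : ℕ) (x : κ → ℤ), j < N ∧ x ∈ H65.box κ (B ^ (N + 2)) ∧
      ∑ t, π t * ‖φ (ic (b t))‖ ^ p ≤
        (9 / 8 : ℝ) ^ (p - 1) * ∑ t, π t * ‖uj g (B ^ (j + 2)) (b t) x‖ ^ p +
        (18 : ℝ) ^ (p - 1) * ((C * (2 * D ^ p / N + (2 + 2 * p) * D ^ p / C₀) + 4 * η * D ^ p) +
          Λ * (8 * D * Λ ^ 2 / C₀) ^ p) * ∑ t, π t * ‖φ (ic (b t))‖ ^ p := by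
  have hk0 : (0 : ℝ) ≤ (Fintype.card κ : ℝ) := Nat.cast_nonneg _
  have hp0 : 0 ≤ p := by linarith
  have hD0 : 0 ≤ D := by linarith
  have hC₀0 : 0 < C₀ := by linarith
  have hBr : (2 : ℝ) ≤ B := by nlinarith
  have hBr0 : (0 : ℝ) < B := by linarith
  have hB2 : 2 ≤ B := by exact_mod_cast hBr
  have hB0 : 0 < B := by omega
  have hkB : (Fintype.card κ : ℝ) / B ≤ 1 / C₀ := by
    rw [div_le_div_iff₀ hBr0 hC₀0]
    nlinarith
  have hρ2 : 1 / C₀ ≤ 1 / 2 := one_div_le_one_div_of_le (by norm_num) hC₀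
  set M : ℕ := B ^ (N + 2) with hM
  have hM0 : 0 < M := by positivity
  set S : ℝ := ∑ t, π t * ‖φ (ic (b t))‖ ^ p with hS
  have hS0 : 0 ≤ S := Finset.sum_nonneg fun t _ =>
    mul_nonneg (hπ t) (Real.rpow_nonneg (norm_nonneg _) p)
  have hDp : 0 ≤ D ^ p := Real.rpow_nonneg hD0 p
  have hΛB : Λ ≤ B := by nlinarith
  have hbi : ∀ t i, |b t i| ≤ (B : ℤ) := fun t i => by
    have h1 : |(b t i : ℝ)| ≤ B := by
      refine le_trans ?_ ((hb t).trans hΛB)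
      exact Finset.single_le_sum (f := fun i => |ic (b t) i|) (fun _ _ => abs_nonneg _)
        (mem_univ i)
    exact_mod_cast h1
  have hpowle : ∀ m, m ≤ N + 1 → B * B ^ m ≤ M := fun m hm => by
    rw [← pow_succ', hM]
    exact Nat.pow_le_pow_right hB0 (by omega)
  have hbM : ∀ t i, |b t i| ≤ (M : ℤ) := fun t i => by
    refine (hbi t i).trans ?_
    have h1 := hpowle 0 (by omega)
    simp only [pow_zero, mul_one] at h1
    exact_mod_cast h1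
  obtain ⟨j, hj, hpig⟩ := exists_scale (V := V) hp hD hN π b hπ hB0 hg hbM
  have hR : 0 < B ^ j := by positivity
  have hR' : 0 < B ^ (j + 2) := by positivity
  have hRR : B ^ j ≤ B ^ (j + 2) := Nat.pow_le_pow_right hB0 (by omega)
  have hBR' : B * B ^ (j + 2) ≤ M := hpowle (j + 2) (by omega)
  have hRM : 2 * B ^ (j + 2) ≤ M := (Nat.mul_le_mul_right _ hB2).trans hBR'
  have hBR'r : (B : ℝ) * (B ^ (j + 2) : ℕ) ≤ M := by exact_mod_cast hBR'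
  have hMr : (0 : ℝ) < M := by exact_mod_cast hM0
  have hRr : (0 : ℝ) < (B ^ j : ℕ) := by exact_mod_cast hR
  have eR' : ((B ^ (j + 2) : ℕ) : ℝ) = B * (B * (B ^ j : ℕ)) := by push_cast; ring
  have hρ1 : (Fintype.card κ : ℝ) * ((B ^ j : ℕ) : ℝ) / (B ^ (j + 2) : ℕ) ≤ 1 / C₀ := by
    rw [eR']
    have h1 : (Fintype.card κ : ℝ) * ((B ^ j : ℕ) : ℝ) / (B * (B * (B ^ j : ℕ)))
        = Fintype.card κ / B / B := by
      field_simp
    rw [h1]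
    have h2 : (Fintype.card κ : ℝ) / B / B ≤ Fintype.card κ / B :=
      div_le_self (by positivity) (by linarith)
    exact h2.trans hkB
  have hρ2' : (Fintype.card κ : ℝ) * ((B ^ (j + 2) : ℕ) : ℝ) / M ≤ 1 / C₀ := by
    have h1 : (Fintype.card κ : ℝ) * ((B ^ (j + 2) : ℕ) : ℝ) / M ≤ Fintype.card κ / B := by
      rw [div_le_div_iff₀ hMr hBr0]
      nlinarith
    exact h1.trans hkB
  have hdev := dev_avg hp hD0 hC hη hUC hg π b hπ hbM hR hRR hRM hρ1 hρ2' hS hpig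
  obtain ⟨x, hx, hxle⟩ := exists_le_bavg hM0 (fun x => ∑ t, π t * bavg (B ^ (j + 2)) (fun a =>
        ‖uj g (B ^ j) (b t) (x + a) - bavg (B ^ (j + 2)) (fun a => uj g (B ^ j) (b t) (x + a))‖ ^ p))
  have hxdev := hxle.trans hdev
  refine ⟨j, x, hj, hx, ?_⟩
  have hxM : ∀ i, |x i| ≤ (M : ℤ) := fun i => box_abs hx i
  set δp : ℝ := (8 * D * Λ ^ 2 / C₀) ^ p with hδp
  have hδ0 : 0 ≤ δp := Real.rpow_nonneg (by positivity) p
  set dv : W → ℝ := fun t => bavg (B ^ (j + 2)) (fun a =>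
        ‖uj g (B ^ j) (b t) (x + a) - bavg (B ^ (j + 2)) (fun a => uj g (B ^ j) (b t) (x + a))‖ ^ p)
    with hdv
  set A : W → ℝ := fun t => ‖uj g (B ^ (j + 2)) (b t) x‖ ^ p with hA
  have hpt : ∀ t, ‖φ (ic (b t))‖ ^ p ≤ (9 / 8 : ℝ) ^ (p - 1) * A t + (18 : ℝ) ^ (p - 1) *
      (dv t + δp) := fun t => pt hp hD hΛ hC₀ hC₀Λ hφ hB hg hRM hxM (hb t) (hbM t)
  have hsum : S ≤ (9 / 8 : ℝ) ^ (p - 1) * ∑ t, π t * A t +
      (18 : ℝ) ^ (p - 1) * (∑ t, π t * dv t + δp * ∑ t, π t) := by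
    calc S ≤ ∑ t, π t * ((9 / 8 : ℝ) ^ (p - 1) * A t + (18 : ℝ) ^ (p - 1) * (dv t + δp)) :=
          Finset.sum_le_sum fun t _ => mul_le_mul_of_nonneg_left (hpt t) (hπ t)
      _ = _ := by
          simp only [mul_add, Finset.mul_sum]
          rw [Finset.sum_add_distrib, Finset.sum_add_distrib]
          congr 1
          · exact Finset.sum_congr rfl fun t _ => by ring
          · congr 1
            · exact Finset.sum_congr rfl fun t _ => by ring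
            · exact Finset.sum_congr rfl fun t _ => by ring
  have h18 : (0 : ℝ) ≤ 18 ^ (p - 1) := by positivity
  have hmass' : δp * ∑ t, π t ≤ Λ * δp * S := by
    have := mul_le_mul_of_nonneg_left hmass hδ0
    linarith
  have hx2 : ∑ t, π t * dv t ≤ (C * (2 * D ^ p / N + (2 + 2 * p) * D ^ p / C₀)
      + 4 * η * D ^ p) * S := by
    refine hxdev.trans ?_
    have h1 : 2 * η * (D ^ p * S * (1 + 2 * (1 / C₀))) ≤ 4 * η * D ^ p * S := by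
      have h2 : D ^ p * S * (1 + 2 * (1 / C₀)) ≤ D ^ p * S * 2 :=
        mul_le_mul_of_nonneg_left (by linarith) (by positivity)
      have h3 := mul_le_mul_of_nonneg_left h2 (show 0 ≤ 2 * η by positivity)
      linarith
    have h4 : C * (2 * (D ^ p * S) / N + (2 + 2 * p) * D ^ p * S * (1 / C₀))
        = C * (2 * D ^ p / N + (2 + 2 * p) * D ^ p / C₀) * S := by ring
    rw [h4]
    linarith
  refine hsum.trans ?_
  have h1 := mul_le_mul_of_nonneg_left (add_le_add hx2 hmass') h18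
  linarith

end Vale.Agent.P249.SP.LThree
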