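import Vale.Agent.P249.SP.Spec
import Vale.Agent.P249.H65.Conv

/-!
# P249, block LIN: the two internal statements (helper65)
-/

open Finset

namespace Vale.Agent.P249.SP

open Vale.Agent.P249.H65 (box bavg ic l1)

/-- **LIN-L3** (top level lower bound; helper586).  `φ` linear, `‖φ e_i‖ ≤ 1`; `g` is a map of the
lattice `κ → ℤ` into `ℓ_p^ι` which is bi-Lipschitz for `‖φ ·‖` on the box `|a_i| ≤ 4 B ^ (N + 2)`.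
`N` and `C₀` depend on `p, D, Λ` only. -/
def SpecLinL3 : Prop := ∀ p D Λ : ℝ, 1 < p → 1 ≤ D → 1 ≤ Λ →
  ∃ (N : ℕ) (C₀ : ℝ), 1 ≤ C₀ ∧
    ∀ (κ : Type) [Fintype κ] [DecidableEq κ]
      (E : Type) [NormedAddCommGroup E] [NormedSpace ℝ E] (φ : (κ → ℝ) →ₗ[ℝ] E),
      (∀ i, ‖φ (Pi.single i 1)‖ ≤ 1) →
      ∀ (W : Type) [Fintype W] (π : W → ℝ) (b : W → κ → ℤ), (∀ t, 0 ≤ π t) →
        (∀ t, l1 (ic (b t)) ≤ Λ) → (∑ t, π t ≤ Λ * ∑ t, π t * ‖φ (ic (b t))‖ ^ p) →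
        ∀ B : ℕ, C₀ * ((Fintype.card κ : ℝ) + 1) ≤ B →
          ∀ (ι : Type) [Fintype ι] (g : (κ → ℤ) → ι → ℝ),
            (∀ a a' : κ → ℤ, (∀ i, |a i| ≤ 4 * (B : ℤ) ^ (N + 2)) →
              (∀ i, |a' i| ≤ 4 * (B : ℤ) ^ (N + 2)) →
              ‖φ (ic (a - a'))‖ ≤ nT p (g a - g a') ∧
              nT p (g a - g a') ≤ D * ‖φ (ic (a - a'))‖) →
            ∃ (j : ℕ) (x₀ : κ → ℤ), j ≤ N ∧ (∀ i, |x₀ i| ≤ (B : ℤ) ^ (N + 2)) ∧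
              (2 / 3) ^ p * ∑ t, π t * ‖φ (ic (b t))‖ ^ p ≤
                ∑ t, π t * nT p (bavg (B ^ (j + 1)) fun a =>
                  g (x₀ + a + b t) - g (x₀ + a)) ^ p

/-- **LIN-LOG** (numerics of the cardinality; helper136). -/
def SpecLinLog : Prop := ∀ (D Λ C₀ : ℝ) (N : ℕ), 1 ≤ D → 1 ≤ Λ → 1 ≤ C₀ → ∃ C : ℝ, 0 < C ∧
  ∀ (d k : ℕ) (ε : ℝ), 1 ≤ k → 0 < ε → ε ≤ 1 → ∀ r B M c : ℕ,
    r = ⌈32 * D * Λ ^ 3 * ((k : ℝ) + 1) / ε⌉₊ → B = ⌈C₀⌉₊ * r ^ 2 → M = 4 * B ^ (N + 2) →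
    c ≤ (2 * d + 1) ^ d * ((2 * M + 1) ^ k * ((4 * r ^ 2 + 1) ^ k) ^ d) →
    Real.log c ≤ C * (k : ℝ) ^ 4 * ((d : ℝ) + 1) ^ 2 * (1 + Real.log (1 / ε))

end Vale.Agent.P249.SP
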