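import Vale.Agent.P249.SP.Spec
import Vale.Agent.P249.H606.Step

set_option linter.all false

/-!
PT: the product test for sign functions.
-/

open Finset
open scoped BigOperators symmDiff

namespace Vale.Agent.P249.SP

namespace PTaux

open Vale.Agent.P249.H606

/-- bits and sets -/
def eS (d : ℕ) : (Fin d → Bool) ≃ Finset (Fin d) where
  toFun := fun x => univ.filter fun i => x i = true
  invFun := fun S i => decide (i ∈ S)
  left_inv := fun x => by funext i; simp
  right_inv := fun S => by ext i; simp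

theorem mem_eS {d : ℕ} (x : Fin d → Bool) (i : Fin d) : i ∈ eS d x ↔ x i = true := by
  simp [eS]

theorem wt_prod (θ : ℝ) {d : ℕ} (x : Fin d → Bool) :
    wt θ (eS d x) = ∏ i, (if x i = true then θ else 1 - θ) := by
  unfold wt
  rw [Finset.prod_ite, Finset.prod_const, Finset.prod_const]
  have h1 : (univ.filter fun i => x i = true) = eS d x := rfl
  rw [h1]
  congr 2
  have h2 := Finset.card_filter_add_card_filter_not (s := (univ : Finset (Fin d)))
    (fun i => x i = true)
  rw [h1, Finset.card_univ, Fintype.card_fin] at h2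
  omega

theorem sum_wt (θ : ℝ) (d : ℕ) : ∑ S : Finset (Fin d), wt θ S = 1 := by
  have h := Finset.sum_pow_mul_eq_add_pow θ (1 - θ) (univ : Finset (Fin d))
  rw [Finset.powerset_univ, Finset.card_univ, Fintype.card_fin] at h
  unfold wt
  rw [h]
  simp

theorem wt_pos {θ : ℝ} (h0 : 0 < θ) (h1 : θ < 1) {d : ℕ} (S : Finset (Fin d)) : 0 < wt θ S := by
  unfold wt
  have : 0 < 1 - θ := by linarith
  positivity

/-- the exchanged set -/
def gW {d : ℕ} (g : GG d) : Finset (Fin d) := univ.filter fun i => g.2 i ≠ 0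

theorem eS_mx {d : ℕ} (g : GG d) (z z' : ZZ Unit d) :
    eS d (mx Unit d g z z').2 = mix (gW g) (eS d z.2) (eS d z'.2) := by
  ext i
  rw [mem_eS]
  unfold mix mx gW pick
  simp only [Finset.mem_union, Finset.mem_sdiff, Finset.mem_inter, mem_eS, Finset.mem_filter,
    Finset.mem_univ, true_and]
  by_cases h : g.2 i = 0 <;> simp [h]

theorem wt_mx (θ : ℝ) {d : ℕ} (g : GG d) (z z' : ZZ Unit d) :
    wt θ (eS d (mx Unit d g z z').2) * wt θ (eS d (mx Unit d g z' z).2) =
      wt θ (eS d z.2) * wt θ (eS d z'.2) := by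
  rw [wt_prod, wt_prod, wt_prod, wt_prod]
  have h := pv_mx (A := Unit) (n := d) (fun _ => 1) (fun _ t => if t = true then θ else 1 - θ) g z z'
  unfold pv at h
  simpa using h

section main

variable {d : ℕ} (θ : ℝ) (F : Finset (Fin d) → ℝ)

/-- the unit vector -/
noncomputable def ff (z : ZZ Unit d) : ℝ := F (eS d z.2) * Real.sqrt (wt θ (eS d z.2))

theorem sum_ZZ (H : (Fin d → Bool) → ℝ) : ∑ z : ZZ Unit d, H z.2 = ∑ x, H x := by
  rw [Fintype.sum_prod_type]
  simp

variable (h0 : 0 < θ) (h1 : θ < 1) (hF : ∀ S, F S = 1 ∨ F S = -1)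

include h0 h1 hF

theorem ff_unit : ip (ff θ F) (ff θ F) = 1 := by
  unfold ip ff
  have : ∀ z : ZZ Unit d, F (eS d z.2) * Real.sqrt (wt θ (eS d z.2)) *
      (F (eS d z.2) * Real.sqrt (wt θ (eS d z.2))) = wt θ (eS d z.2) := by
    intro z
    have h2 : Real.sqrt (wt θ (eS d z.2)) * Real.sqrt (wt θ (eS d z.2)) = wt θ (eS d z.2) :=
      Real.mul_self_sqrt (wt_pos h0 h1 _).le
    have h3 : F (eS d z.2) * F (eS d z.2) = 1 := by
      rcases hF (eS d z.2) with h | h <;> rw [h] <;> norm_num
    calc _ = (F (eS d z.2) * F (eS d z.2)) *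
        (Real.sqrt (wt θ (eS d z.2)) * Real.sqrt (wt θ (eS d z.2))) := by ring
      _ = _ := by rw [h2, h3, one_mul]
  rw [Finset.sum_congr rfl fun z _ => this z, sum_ZZ (fun x => wt θ (eS d x)),
    Equiv.sum_comp (eS d) (fun S => wt θ S), sum_wt]

theorem Q_ge (e : ℝ)
    (h : ∀ W : Finset (Fin d), ∑ S, ∑ S', wt θ S * wt θ S' *
      (if F S * F S' = F (mix W S S') * F (mix W S' S) then 0 else 1) ≤ e) :
    1 - 2 * e ≤ Q (mx Unit d) (ff θ F) := by
  unfold Q
  rw [ip_av_eq, le_div_iff₀ card_pos']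
  have key : ∀ g : GG d, 1 - 2 * e ≤ ∑ y, tens (ff θ F) (ff θ F) y *
      tens (ff θ F) (ff θ F) (sw (mx Unit d) g y) := by
    intro g
    have e1 : ∀ z z' : ZZ Unit d, tens (ff θ F) (ff θ F) (z, z') *
        tens (ff θ F) (ff θ F) (sw (mx Unit d) g (z, z')) =
        wt θ (eS d z.2) * wt θ (eS d z'.2) - 2 * (wt θ (eS d z.2) * wt θ (eS d z'.2) *
        (if F (eS d z.2) * F (eS d z'.2) = F (mix (gW g) (eS d z.2) (eS d z'.2)) *
          F (mix (gW g) (eS d z'.2) (eS d z.2)) then 0 else 1)) := by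
      intro z z'
      unfold tens sw ff
      simp only
      set a := Real.sqrt (wt θ (eS d z.2))
      set b := Real.sqrt (wt θ (eS d z'.2))
      set a' := Real.sqrt (wt θ (eS d (mx Unit d g z z').2)) with ha'
      set b' := Real.sqrt (wt θ (eS d (mx Unit d g z' z).2)) with hb'
      have hab : a' * b' = a * b := by
        rw [ha', hb', ← Real.sqrt_mul (wt_pos h0 h1 _).le, wt_mx,
          Real.sqrt_mul (wt_pos h0 h1 _).le]
      have haa : a * a = wt θ (eS d z.2) := Real.mul_self_sqrt (wt_pos h0 h1 _).le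
      have hbb : b * b = wt θ (eS d z'.2) := Real.mul_self_sqrt (wt_pos h0 h1 _).le
      have e2 : (F (eS d z.2) * a * (F (eS d z'.2) * b)) *
          ((F (eS d (mx Unit d g z z').2) * a') * (F (eS d (mx Unit d g z' z).2) * b')) =
          (wt θ (eS d z.2) * wt θ (eS d z'.2)) * ((F (eS d z.2) * F (eS d z'.2)) *
          (F (eS d (mx Unit d g z z').2) * F (eS d (mx Unit d g z' z).2))) := by
        calc _ = ((F (eS d z.2) * F (eS d z'.2)) *
          (F (eS d (mx Unit d g z z').2) * F (eS d (mx Unit d g z' z).2))) * (a * b) * (a' * b') := by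
              ring
          _ = ((F (eS d z.2) * F (eS d z'.2)) *
          (F (eS d (mx Unit d g z z').2) * F (eS d (mx Unit d g z' z).2))) * (a * a) * (b * b) := by
              rw [hab]; ring
          _ = _ := by rw [haa, hbb]; ring
      rw [e2, eS_mx, eS_mx]
      set W := gW g
      rcases hF (eS d z.2) with q1 | q1 <;> rcases hF (eS d z'.2) with q2 | q2 <;>
        rcases hF (mix W (eS d z.2) (eS d z'.2)) with q3 | q3 <;>
        rcases hF (mix W (eS d z'.2) (eS d z.2)) with q4 | q4 <;>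
        rw [q1, q2, q3, q4] <;> norm_num <;> ring
    rw [Fintype.sum_prod_type]
    rw [Finset.sum_congr rfl fun z _ => Finset.sum_congr rfl fun z' _ => e1 z z']
    have e3 : ∑ z : ZZ Unit d, ∑ z' : ZZ Unit d, (wt θ (eS d z.2) * wt θ (eS d z'.2) -
        2 * (wt θ (eS d z.2) * wt θ (eS d z'.2) *
        (if F (eS d z.2) * F (eS d z'.2) = F (mix (gW g) (eS d z.2) (eS d z'.2)) *
          F (mix (gW g) (eS d z'.2) (eS d z.2)) then 0 else 1))) =
        ∑ S, ∑ S', (wt θ S * wt θ S' - 2 * (wt θ S * wt θ S' *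
          (if F S * F S' = F (mix (gW g) S S') * F (mix (gW g) S' S) then 0 else 1))) := by
      rw [sum_ZZ (fun x => ∑ z' : ZZ Unit d, (wt θ (eS d x) * wt θ (eS d z'.2) -
        2 * (wt θ (eS d x) * wt θ (eS d z'.2) *
        (if F (eS d x) * F (eS d z'.2) = F (mix (gW g) (eS d x) (eS d z'.2)) *
          F (mix (gW g) (eS d z'.2) (eS d x)) then 0 else 1)))),
        ← Equiv.sum_comp (eS d) (fun S => ∑ S', (wt θ S * wt θ S' - 2 * (wt θ S * wt θ S' *
          (if F S * F S' = F (mix (gW g) S S') * F (mix (gW g) S' S) then 0 else 1))))]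
      refine Finset.sum_congr rfl fun x _ => ?_
      rw [sum_ZZ (fun x' => (wt θ (eS d x) * wt θ (eS d x') -
        2 * (wt θ (eS d x) * wt θ (eS d x') *
        (if F (eS d x) * F (eS d x') = F (mix (gW g) (eS d x) (eS d x')) *
          F (mix (gW g) (eS d x') (eS d x)) then 0 else 1)))),
        ← Equiv.sum_comp (eS d) (fun S' => (wt θ (eS d x) * wt θ S' - 2 * (wt θ (eS d x) * wt θ S' *
          (if F (eS d x) * F S' = F (mix (gW g) (eS d x) S') * F (mix (gW g) S' (eS d x))
            then 0 else 1))))]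
    rw [e3]
    simp only [Finset.sum_sub_distrib, ← Finset.mul_sum]
    have e4 : ∑ S : Finset (Fin d), wt θ S * ∑ S' : Finset (Fin d), wt θ S' = 1 := by
      rw [sum_wt]; simp [sum_wt]
    have e5 := h (gW g)
    rw [e4]
    have e6 : ∀ S : Finset (Fin d), ∑ S', wt θ S * wt θ S' *
        (if F S * F S' = F (mix (gW g) S S') * F (mix (gW g) S' S) then (0 : ℝ) else 1) =
        ∑ S', wt θ S * wt θ S' *
        (if F S * F S' = F (mix (gW g) S S') * F (mix (gW g) S' S) then 0 else 1) := fun S => rfl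
    linarith
  calc (1 - 2 * e) * (Fintype.card (GG d) : ℝ) = ∑ g : GG d, (1 - 2 * e) := by
        rw [Finset.sum_const, Finset.card_univ, nsmul_eq_mul, mul_comm]
    _ ≤ _ := Finset.sum_le_sum fun g _ => key g

end main

/-- sign with values `1`, `-1` -/
noncomputable def sn (r : ℝ) : ℝ := if 0 ≤ r then 1 else -1

theorem sn_cases (r : ℝ) : sn r = 1 ∨ sn r = -1 := by
  unfold sn; split_ifs <;> simp

theorem sn_mul (r : ℝ) : r * sn r = |r| := by
  unfold sn
  split_ifs with h
  · rw [abs_of_nonneg h, mul_one]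
  · rw [abs_of_neg (not_le.1 h)]; ring

theorem prod_cases {ι : Type} (s : Finset ι) (f : ι → ℝ) (h : ∀ i ∈ s, f i = 1 ∨ f i = -1) :
    ∏ i ∈ s, f i = 1 ∨ ∏ i ∈ s, f i = -1 := by
  classical
  induction s using Finset.induction_on with
  | empty => left; simp
  | insert a s ha ih =>
    rw [Finset.prod_insert ha]
    rcases h a (Finset.mem_insert_self _ _) with h1 | h1 <;>
      rcases ih (fun i hi => h i (Finset.mem_insert_of_mem hi)) with h2 | h2 <;>
      rw [h1, h2] <;> norm_num

end PTaux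

open Vale.Agent.P249.H606 PTaux in
/-- **PT** -/
theorem specPT : SpecPT := by
  intro d θ h0 h1 F hF e he h
  have he0 : 0 ≤ e := by
    refine le_trans ?_ (h ∅)
    refine Finset.sum_nonneg fun S _ => Finset.sum_nonneg fun S' _ => ?_
    have h2 := wt_pos h0 h1 S
    have h3 := wt_pos h0 h1 S'
    split_ifs <;> nlinarith
  obtain ⟨a, b, hU, hs0, hs⟩ := product_test e he0 he d Unit (ff θ F) (ff_unit θ F h0 h1 hF)
    (Q_ge θ F h0 h1 hF e h)
  set s := ip (pv a b) (ff θ F) with hsdef
  set k : ℝ := sn (a ()) * ∏ i, sn (b i false) with hk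
  set y : Cube d := fun i => decide (sn (b i true) = sn (b i false)) with hy
  have hsg : ∀ i, sg (y i) = sn (b i true) * sn (b i false) := by
    intro i
    unfold sg
    rw [hy]
    rcases sn_cases (b i true) with h2 | h2 <;> rcases sn_cases (b i false) with h3 | h3 <;>
      simp only [h2, h3] <;> norm_num
  have hkw : ∀ x : Fin d → Bool, k * walsh (eS d x) y = sn (a ()) * ∏ i, sn (b i (x i)) := by
    intro x
    rw [hk, mul_assoc]
    congr 1
    unfold walsh
    have h2 : ∏ i ∈ eS d x, sg (y i) = ∏ i, (if x i = true then sg (y i) else 1) := by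
      rw [Finset.prod_ite, Finset.prod_const_one, mul_one]
      rfl
    rw [h2, ← Finset.prod_mul_distrib]
    refine Finset.prod_congr rfl fun i _ => ?_
    cases hx : x i
    · simp
    · simp only [if_true]
      rw [hsg]
      rcases sn_cases (b i false) with h3 | h3 <;> rw [h3] <;> ring
  have hk1 : k = 1 ∨ k = -1 := by
    have h2 := prod_cases univ (fun i : Fin d => sn (b i false)) fun i _ => sn_cases _
    rw [hk]
    rcases sn_cases (a ()) with h3 | h3 <;> rcases h2 with h2 | h2 <;> rw [h3, h2] <;> norm_num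
  have hkw1 : ∀ x : Fin d → Bool, k * walsh (eS d x) y = 1 ∨ k * walsh (eS d x) y = -1 := by
    intro x
    rw [hkw]
    have h2 := prod_cases univ (fun i : Fin d => sn (b i (x i))) fun i _ => sn_cases _
    rcases sn_cases (a ()) with h3 | h3 <;> rcases h2 with h2 | h2 <;> rw [h3, h2] <;> norm_num
  have hpos : ∀ z : ZZ Unit d, 0 ≤ pv a b z * (k * walsh (eS d z.2) y) := by
    intro z
    rw [hkw]
    unfold pv
    have : a z.1 * (∏ i, b i (z.2 i)) * (sn (a ()) * ∏ i, sn (b i (z.2 i))) =
        (a z.1 * sn (a z.1)) * ∏ i, (b i (z.2 i) * sn (b i (z.2 i))) := by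
      rw [Finset.prod_mul_distrib]; ring
    rw [this, sn_mul]
    refine mul_nonneg (abs_nonneg _) (Finset.prod_nonneg fun i _ => ?_)
    rw [sn_mul]
    exact abs_nonneg _
  refine ⟨y, k, hk1, ?_⟩
  have hfin : ∑ S, wt θ S * (if F S = k * walsh S y then 0 else 1) ≤ 1 - s ^ 2 := by
    have e1 : 1 - s ^ 2 = ip (fun z => ff θ F z - s * pv a b z) (fun z => ff θ F z - s * pv a b z) := by
      rw [ip_sub_left, ip_sub_right, ip_smul_left, ip_sub_right, ip_smul_right, ip_smul_right,
        ff_unit θ F h0 h1 hF, pv_unit a hU.1 b hU.2, ip_comm (ff θ F), ← hsdef]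
      ring
    rw [e1, ← Equiv.sum_comp (eS d) (fun S => wt θ S * (if F S = k * walsh S y then 0 else 1)),
      ← sum_ZZ (fun x => wt θ (eS d x) * (if F (eS d x) = k * walsh (eS d x) y then 0 else 1))]
    unfold ip
    refine Finset.sum_le_sum fun z _ => ?_
    split_ifs with hc
    · rw [mul_zero]; exact mul_self_nonneg _
    · rw [mul_one]
      unfold ff
      set w := Real.sqrt (wt θ (eS d z.2)) with hw
      have hw0 : 0 ≤ w := Real.sqrt_nonneg _
      have hww : w * w = wt θ (eS d z.2) := Real.mul_self_sqrt (wt_pos h0 h1 _).le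
      have hneg : F (eS d z.2) = - (k * walsh (eS d z.2) y) := by
        rcases hF (eS d z.2) with h2 | h2 <;> rcases hkw1 z.2 with h3 | h3 <;>
          rw [h2, h3] at hc ⊢ <;> first | exact absurd rfl hc | norm_num
      have h4 := hpos z
      have h5 : F (eS d z.2) * F (eS d z.2) = 1 := by
        rcases hF (eS d z.2) with h | h <;> rw [h] <;> norm_num
      have h6 : F (eS d z.2) * pv a b z ≤ 0 := by
        rw [hneg]; linarith
      have h7 : 0 ≤ - (2 * s * w * (F (eS d z.2) * pv a b z)) := by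
        have : 0 ≤ 2 * s * w := by positivity
        nlinarith
      have h8 : (F (eS d z.2) * w - s * pv a b z) * (F (eS d z.2) * w - s * pv a b z) =
          (F (eS d z.2) * F (eS d z.2)) * (w * w) - 2 * s * w * (F (eS d z.2) * pv a b z) +
          (s * pv a b z) * (s * pv a b z) := by ring
      rw [h8, h5, hww]
      have h9 := mul_self_nonneg (s * pv a b z)
      linarith
  linarith

end Vale.Agent.P249.SP
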