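import Vale.Agent.P249.SP.Spec
import Vale.Agent.P249.H982.BCore

/-! # P249, PAIR-A: the nonlinear pairing for one list `C` and one set `B₀` -/

open Finset
open scoped BigOperators symmDiff

namespace Vale.Agent.P249.SP
namespace PairA

open P249H982

/-- complex Walsh coefficient -/
noncomputable def cof {d : ℕ} (f : Cube d → ℂ) (S : Finset (Fin d)) : ℂ :=
  (∑ y, f y * (walsh S y : ℂ)) / 2 ^ d

lemma cof_add {d : ℕ} (f g : Cube d → ℂ) (S : Finset (Fin d)) :
    cof (f + g) S = cof f S + cof g S := by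
  unfold cof
  simp only [Pi.add_apply, add_mul, Finset.sum_add_distrib, add_div]

lemma cof_smul {d : ℕ} (c : ℂ) (f : Cube d → ℂ) (S : Finset (Fin d)) :
    cof (c • f) S = c * cof f S := by
  unfold cof
  simp only [Pi.smul_apply, smul_eq_mul, mul_assoc, ← Finset.mul_sum, mul_div_assoc]

/-- the coefficients of a product function -/
lemma cof_prod {d : ℕ} (h : Fin d → Bool → ℂ) (S : Finset (Fin d)) :
    cof (fun y => ∏ i, h i (y i)) S
      = ∏ i, ((h i true + (if i ∈ S then -1 else 1) * h i false) / 2) := by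
  have h1 := avg_prod (Finset.univ : Finset (Fin d))
    (fun i b => h i b * (if i ∈ S then (sg b : ℂ) else 1))
  rw [Fintype.card_fin] at h1
  unfold cof walsh
  have h2 : ∀ y : Cube d, (∏ i, h i (y i)) * ((∏ i ∈ S, sg (y i) : ℝ) : ℂ)
      = ∏ i, (h i (y i) * (if i ∈ S then (sg (y i) : ℂ) else 1)) := by
    intro y
    rw [Finset.prod_mul_distrib, Finset.prod_ite_mem, Finset.univ_inter]
    push_cast
    rfl
  simp only [h2]
  rw [h1]
  apply Finset.prod_congr rfl
  intro i _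
  by_cases hi : i ∈ S
  · simp only [hi, if_true, sg, Bool.false_eq_true, if_false]
    push_cast
    ring
  · simp only [hi, if_false]
    ring

/-- coefficients of the indicator of a subcube -/
lemma cof_ind {d : ℕ} (B S : Finset (Fin d)) (P : Cube d)
    {_ : ∀ y : Cube d, Decidable (∀ i ∈ B, y i = P i)} :
    cof (fun y => if ∀ i ∈ B, y i = P i then (1 : ℂ) else 0) S
      = if S ⊆ B then (1 / 2) ^ B.card * (walsh S P : ℂ) else 0 := by
  have h1 : (fun y : Cube d => if ∀ i ∈ B, y i = P i then (1 : ℂ) else 0)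
      = fun y => ∏ i, (if i ∈ B then (if y i = P i then 1 else 0) else 1) := by
    funext y
    rw [Finset.prod_ite_mem, Finset.univ_inter]
    by_cases hall : ∀ i ∈ B, y i = P i
    · rw [if_pos hall]
      exact (Finset.prod_eq_one (fun i hi => by simp [hall i hi])).symm
    · rw [if_neg hall]
      have hall' : ∃ i ∈ B, y i ≠ P i := by
        by_contra hcon
        exact hall (fun i hi => by_contra (fun hne => hcon ⟨i, hi, hne⟩))
      obtain ⟨i, hi, hne⟩ := hall'
      exact (Finset.prod_eq_zero hi (by simp [hne])).symm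
  rw [h1, cof_prod (fun i b => if i ∈ B then (if b = P i then 1 else 0) else 1)]
  by_cases hSB : S ⊆ B
  · rw [if_pos hSB]
    have h2 : ∀ i, (((if i ∈ B then (if true = P i then (1 : ℂ) else 0) else 1) +
        (if i ∈ S then -1 else 1) * (if i ∈ B then (if false = P i then 1 else 0) else 1)) / 2)
        = (if i ∈ B then (1 / 2 : ℂ) else 1) * (if i ∈ S then (sg (P i) : ℂ) else 1) := by
      intro i
      by_cases hB : i ∈ B
      · by_cases hS : i ∈ S
        · cases hP : P i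
          · simp [hB, hS, sg]
            ring
          · simp [hB, hS, sg]
        · cases hP : P i <;> simp [hB, hS]
      · have hS : i ∉ S := fun h => hB (hSB h)
        simp [hB, hS]
    rw [Finset.prod_congr rfl (fun i _ => h2 i), Finset.prod_mul_distrib, Finset.prod_ite_mem,
      Finset.prod_ite_mem, Finset.univ_inter, Finset.univ_inter, Finset.prod_const]
    congr 1
    unfold walsh
    push_cast
    rfl
  · rw [if_neg hSB]
    obtain ⟨i, hiS, hiB⟩ := Finset.not_subset.mp hSB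
    apply Finset.prod_eq_zero (Finset.mem_univ i)
    simp [hiS, hiB]

/-- coefficients of the test function vanish outside of `B₀` -/
lemma cof_gtest {d : ℕ} (B S : Finset (Fin d)) (w : ℂ) (σ : Cube d) (hSB : ¬ S ⊆ B) :
    cof (gtest B w σ) S = 0 := by
  have h1 : (gtest B w σ : Cube d → ℂ)
      = fun y => ∏ i, (if i ∈ B then (if y i = σ i then 1 else w) else 1) := by
    funext y
    rw [Finset.prod_ite_mem, Finset.univ_inter]
    rfl
  rw [h1, cof_prod (fun i b => if i ∈ B then (if b = σ i then 1 else w) else 1)]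
  obtain ⟨i, hiS, hiB⟩ := Finset.not_subset.mp hSB
  apply Finset.prod_eq_zero (Finset.mem_univ i)
  simp [hiS, hiB]

lemma sg_abs (b : Bool) : |sg b| = 1 := by
  cases b <;> simp [sg]

lemma walsh_abs {d : ℕ} (S : Finset (Fin d)) (y : Cube d) : |walsh S y| = 1 := by
  unfold walsh
  rw [Finset.abs_prod]
  exact Finset.prod_eq_one (fun i _ => sg_abs _)

lemma gtest_norm_le {d : ℕ} (B : Finset (Fin d)) (w : ℂ) (hw : ‖w‖ ≤ 1) (σ y : Cube d) :
    ‖gtest B w σ y‖ ≤ 1 := by
  unfold gtest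
  rw [norm_prod]
  apply Finset.prod_le_one (fun i _ => norm_nonneg _)
  intro i _
  split_ifs
  · simp
  · exact hw

lemma cof_norm_le {d : ℕ} (f : Cube d → ℂ) (hf : ∀ y, ‖f y‖ ≤ 1) (S : Finset (Fin d)) :
    ‖cof f S‖ ≤ 1 := by
  unfold cof
  rw [norm_div, norm_pow, Complex.norm_ofNat, div_le_one (by positivity)]
  calc ‖∑ y, f y * (walsh S y : ℂ)‖ ≤ ∑ y, ‖f y * (walsh S y : ℂ)‖ := norm_sum_le _ _
    _ ≤ ∑ _y : Cube d, (1 : ℝ) := by
        apply Finset.sum_le_sum
        intro y _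
        rw [norm_mul, Complex.norm_real, Real.norm_eq_abs, walsh_abs, mul_one]
        exact hf y
    _ = 2 ^ d := by simp

/-- completeness of the Walsh system -/
lemma walsh_complete {d : ℕ} (x y : Cube d) :
    ∑ S : Finset (Fin d), walsh S x * walsh S y = if x = y then 2 ^ d else 0 := by
  have h1 : ∀ S : Finset (Fin d), walsh S x * walsh S y = ∏ i ∈ S, (sg (x i) * sg (y i)) := by
    intro S
    unfold walsh
    rw [Finset.prod_mul_distrib]
  simp only [h1]
  have h2 := Finset.prod_one_add (f := fun i => sg (x i) * sg (y i)) (Finset.univ : Finset (Fin d))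
  rw [Finset.powerset_univ] at h2
  rw [← h2]
  by_cases hxy : x = y
  · rw [if_pos hxy, hxy]
    have h3 : ∀ i : Fin d, 1 + sg (y i) * sg (y i) = 2 := by
      intro i
      cases y i <;> simp [sg] <;> norm_num
    simp [h3]
  · rw [if_neg hxy]
    obtain ⟨i, hi⟩ := Function.ne_iff.mp hxy
    apply Finset.prod_eq_zero (Finset.mem_univ i)
    revert hi
    cases x i <;> cases y i <;> simp [sg]

/-- Fourier inversion -/
lemma cof_inv {d : ℕ} (f : Cube d → ℂ) (y : Cube d) :
    ∑ S, cof f S * (walsh S y : ℂ) = f y := by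
  unfold cof
  have h1 : ∀ S : Finset (Fin d), (∑ x, f x * (walsh S x : ℂ)) / 2 ^ d * (walsh S y : ℂ)
      = ∑ x, f x / 2 ^ d * ((walsh S x * walsh S y : ℝ) : ℂ) := by
    intro S
    rw [Finset.sum_div, Finset.sum_mul]
    apply Finset.sum_congr rfl
    intro x _
    push_cast
    ring
  simp only [h1]
  rw [Finset.sum_comm]
  simp only [← Finset.mul_sum, ← Complex.ofReal_sum, walsh_complete]
  rw [Finset.sum_eq_single y]
  · simp
  · intro x _ hx
    simp [hx]
  · intro h
    exact absurd (Finset.mem_univ y) h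

lemma norm_le_re_im (z : ℂ) : ‖z‖ ≤ |z.re| + |z.im| := Complex.norm_le_abs_re_add_abs_im z

/-- the complexified (L1) -/
lemma cL1 {p D ε : ℝ} (hp : 1 < p) (hD : 1 ≤ D) (hε : 0 ≤ ε) {d m : ℕ} {ι : Type} [Fintype ι]
    {τ : List (Fin d × Bool) → Finset (Fin d) → ι → ℝ} (hS : Sys p D ε d m τ)
    (Q : List (Fin d × Bool)) (hQ : Q.length ≤ d) (f : Cube d → ℂ)
    (hf : ∀ S, m < S.card → cof f S = 0) (hf1 : ∀ y, ‖f y‖ ≤ 1) :
    (∑ i, ‖∑ S, cof f S * (τ Q S i : ℂ)‖ ^ p) ^ (1 / p)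
      ≤ 2 * D * ((∑ y, (ind Q y * ‖f y‖) ^ p) / 2 ^ d) ^ (1 / p) + 2 * ε * 2 ^ d := by
  have hp0 : 0 < p := by linarith
  have key : ∀ b : Finset (Fin d) → ℝ, (∀ S, m < S.card → b S = 0) → (∀ S, |b S| ≤ 1) →
      (∀ y, |poly b y| ≤ ‖f y‖) →
      (∑ i, |∑ S, b S * τ Q S i| ^ p) ^ (1 / p)
        ≤ D * ((∑ y, (ind Q y * ‖f y‖) ^ p) / 2 ^ d) ^ (1 / p) + ε * 2 ^ d := by
    intro b hb0 hb1 hb2
    have h1 := hS.L1 Q hQ b hb0
    have h2 : nT p (∑ S, b S • τ Q S) = (∑ i, |∑ S, b S * τ Q S i| ^ p) ^ (1 / p) := by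
      unfold nT
      simp only [Finset.sum_apply, Pi.smul_apply, smul_eq_mul]
    rw [h2] at h1
    refine h1.trans ?_
    have hind : ∀ y, 0 ≤ ind Q y := by
      intro y
      unfold ind
      split_ifs <;> norm_num
    have h3 : nY p (fun y => ind Q y * poly b y)
        ≤ ((∑ y, (ind Q y * ‖f y‖) ^ p) / 2 ^ d) ^ (1 / p) := by
      unfold nY
      apply Real.rpow_le_rpow
      · positivity
      · apply div_le_div_of_nonneg_right _ (by positivity)
        apply Finset.sum_le_sum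
        intro y _
        apply Real.rpow_le_rpow (abs_nonneg _) _ hp0.le
        rw [abs_mul, abs_of_nonneg (hind y)]
        exact mul_le_mul_of_nonneg_left (hb2 y) (hind y)
      · positivity
    have h4 : ∑ S : Finset (Fin d), |b S| ≤ 2 ^ d := by
      calc ∑ S : Finset (Fin d), |b S| ≤ ∑ _S : Finset (Fin d), (1 : ℝ) :=
            Finset.sum_le_sum (fun S _ => hb1 S)
        _ = 2 ^ d := by simp
    exact add_le_add (mul_le_mul_of_nonneg_left h3 (by linarith)) (mul_le_mul_of_nonneg_left h4 hε)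
  have hre : ∀ y, poly (fun S => (cof f S).re) y = (f y).re := by
    intro y
    have h1 := congrArg Complex.re (cof_inv f y)
    rw [← h1, Complex.re_sum]
    unfold poly
    apply Finset.sum_congr rfl
    intro S _
    simp
  have him : ∀ y, poly (fun S => (cof f S).im) y = (f y).im := by
    intro y
    have h1 := congrArg Complex.im (cof_inv f y)
    rw [← h1, Complex.im_sum]
    unfold poly
    apply Finset.sum_congr rfl
    intro S _
    simp
  have k1 := key (fun S => (cof f S).re) (fun S h => by simp [hf S h])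
    (fun S => (Complex.abs_re_le_norm _).trans (cof_norm_le f hf1 S))
    (fun y => by rw [hre]; exact Complex.abs_re_le_norm _)
  have k2 := key (fun S => (cof f S).im) (fun S h => by simp [hf S h])
    (fun S => (Complex.abs_im_le_norm _).trans (cof_norm_le f hf1 S))
    (fun y => by rw [him]; exact Complex.abs_im_le_norm _)
  have h5 : (∑ i, ‖∑ S, cof f S * (τ Q S i : ℂ)‖ ^ p) ^ (1 / p)
      ≤ (∑ i, (|∑ S, (cof f S).re * τ Q S i| + |∑ S, (cof f S).im * τ Q S i|) ^ p) ^ (1 / p) := by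
    apply Real.rpow_le_rpow
    · positivity
    · apply Finset.sum_le_sum
      intro i _
      apply Real.rpow_le_rpow (norm_nonneg _) _ hp0.le
      have h6 := norm_le_re_im (∑ S, cof f S * (τ Q S i : ℂ))
      rw [Complex.re_sum, Complex.im_sum] at h6
      have h7 : ∀ S, (cof f S * (τ Q S i : ℂ)).re = (cof f S).re * τ Q S i := by
        intro S
        simp
      have h8 : ∀ S, (cof f S * (τ Q S i : ℂ)).im = (cof f S).im * τ Q S i := by
        intro S
        simp
      simpa only [h7, h8] using h6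
    · positivity
  have h9 := Real.Lp_add_le_of_nonneg (Finset.univ : Finset ι) hp.le
    (fun i _ => abs_nonneg (∑ S, (cof f S).re * τ Q S i))
    (fun i _ => abs_nonneg (∑ S, (cof f S).im * τ Q S i))
  linarith [h5.trans h9]

/-- the set of prefixes along `C` -/
def prefs {d : ℕ} (C : List (Fin d)) : Finset (List (Fin d × Bool)) :=
  (Finset.univ : Finset (Cube d)).image (pre C)

lemma ind_pre {d : ℕ} (C : List (Fin d)) (y x : Cube d) :
    ind (pre C y) x = if pre C y = pre C x then 1 else 0 := by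
  unfold ind
  have h1 : (∀ c ∈ pre C y, x c.1 = c.2) ↔ pre C y = pre C x := by
    unfold pre
    rw [List.map_inj_left]
    simp only [List.mem_map, Prod.mk.injEq, true_and]
    constructor
    · intro h i hi
      exact (h (i, y i) ⟨i, hi, rfl⟩).symm
    · rintro h c ⟨i, hi, rfl⟩
      exact (h i hi).symm
  by_cases h : pre C y = pre C x
  · rw [if_pos h, if_pos (h1.mpr h)]
  · rw [if_neg h, if_neg (fun h' => h (h1.mp h'))]

lemma sum_prefs {d : ℕ} (C : List (Fin d)) (p : ℝ) (hp : 0 < p) (f : Cube d → ℝ) :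
    ∑ Q ∈ prefs C, ∑ y, (ind Q y * f y) ^ p = ∑ y, (f y) ^ p := by
  rw [Finset.sum_comm]
  apply Finset.sum_congr rfl
  intro y _
  rw [Finset.sum_eq_single (pre C y)]
  · rw [ind_pre, if_pos rfl, one_mul]
  · intro Q hQ hne
    obtain ⟨z, _, rfl⟩ := Finset.mem_image.mp hQ
    rw [ind_pre, if_neg hne, zero_mul, Real.zero_rpow hp.ne']
  · intro h
    exact absurd (Finset.mem_image_of_mem _ (Finset.mem_univ y)) h

lemma card_prefs {d : ℕ} (C : List (Fin d)) : ((prefs C).card : ℝ) ≤ 2 ^ d := by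
  have h1 : (prefs C).card ≤ (Finset.univ : Finset (Cube d)).card := Finset.card_image_le
  have h2 : (Finset.univ : Finset (Cube d)).card = 2 ^ d := by simp
  rw [h2] at h1
  exact_mod_cast h1

/-- the sum over the target coordinates, grouped by the prefixes -/
lemma group {d : ℕ} {ι : Type} [Fintype ι] (C : List (Fin d)) (P : ι → Cube d)
    (F : List (Fin d × Bool) → ι → ℝ) (hF : ∀ Q i, 0 ≤ F Q i) :
    ∑ i, F (pre C (P i)) i ≤ ∑ Q ∈ prefs C, ∑ i, F Q i := by
  rw [Finset.sum_comm]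
  apply Finset.sum_le_sum
  intro i _
  exact Finset.single_le_sum (f := fun Q => F Q i) (fun Q _ => hF Q i)
    (Finset.mem_image_of_mem _ (Finset.mem_univ (P i)))

/-- the functional -/
noncomputable def Lam {d : ℕ} {ι : Type}
    (τ : List (Fin d × Bool) → Finset (Fin d) → ι → ℝ) (P : ι → Cube d) (C : List (Fin d))
    (i : ι) : (Cube d → ℂ) →ₗ[ℂ] ℂ where
  toFun f := ∑ S, cof f S * (τ (pre C (P i)) S i : ℂ)
  map_add' f g := by
    simp only [cof_add, add_mul, Finset.sum_add_distrib]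
  map_smul' c f := by
    simp only [cof_smul, mul_assoc, Finset.mul_sum, RingHom.id_apply, smul_eq_mul]

lemma Lam_ind {d : ℕ} {ι : Type}
    (τ : List (Fin d × Bool) → Finset (Fin d) → ι → ℝ) (P : ι → Cube d) (C : List (Fin d))
    (B : Finset (Fin d)) (i : ι) {_ : ∀ x : Cube d, Decidable (∀ j ∈ B, x j = P i j)} :
    Lam τ P C i (fun x => 1 * (if ∀ j ∈ B, x j = P i j then 1 else 0))
      = (((1 / 2) ^ B.card * ∑ S ∈ B.powerset, walsh S (P i) * τ (pre C (P i)) S i : ℝ) : ℂ) := by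
  unfold Lam
  simp only [one_mul, LinearMap.coe_mk, AddHom.coe_mk]
  simp only [cof_ind]
  simp only [ite_mul, zero_mul]
  rw [← Finset.sum_filter]
  have h1 : (Finset.univ.filter fun S : Finset (Fin d) => S ⊆ B) = B.powerset := by
    ext S
    simp
  rw [h1]
  push_cast
  rw [Finset.mul_sum]
  apply Finset.sum_congr rfl
  intro S _
  ring

lemma sum_gtest_x {d : ℕ} (B : Finset (Fin d)) (w : ℂ) (σ : Cube d) (e : ℝ) :
    (∑ x : Cube d, ‖gtest B w σ x‖ ^ e) / 2 ^ d = ((1 + ‖w‖ ^ e) / 2) ^ B.card := by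
  have h := sum_gtest_rpow B w σ e
  rw [Fintype.card_fin] at h
  rw [← h]
  congr 1
  apply Finset.sum_congr rfl
  intro x _
  unfold gtest
  congr 2
  apply Finset.prod_congr rfl
  intro i _
  by_cases hi : x i = σ i
  · rw [if_pos hi, if_pos hi.symm]
  · rw [if_neg hi, if_neg (fun h => hi h.symm)]

/-- the norm hypothesis of `b_core`, for one sign pattern -/
lemma Lam_bound {p D ε : ℝ} (hp : 1 < p) (hD : 1 ≤ D) (hε : 0 ≤ ε) {d m : ℕ} {ι : Type}
    [Fintype ι] {τ : List (Fin d × Bool) → Finset (Fin d) → ι → ℝ} (hS : Sys p D ε d m τ)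
    (P : ι → Cube d) (C : List (Fin d)) (hC : C.length ≤ d) (B₀ : Finset (Fin d))
    (hB : B₀.card ≤ m) (w : ℂ) (hw : ‖w‖ ≤ 1) (σ : Cube d) :
    ∑ i, ‖Lam τ P C i (fun x => 1 * gtest B₀ w σ x)‖ ^ p
      ≤ (2 * D + ε * 10 ^ (d + 1)) ^ p * ((1 + ‖w‖ ^ p) / 2) ^ B₀.card := by
  have hp0 : 0 < p := by linarith
  set g : Cube d → ℂ := gtest B₀ w σ with hg
  set A : ℝ := (1 + ‖w‖ ^ p) / 2 with hA
  have hApos : 0 < A := by positivity
  have hA1 : 1 / 2 ≤ A := by
    have : 0 ≤ ‖w‖ ^ p := by positivity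
    rw [hA]
    linarith
  have hg0 : ∀ S : Finset (Fin d), m < S.card → cof g S = 0 := by
    intro S hSm
    apply cof_gtest
    intro hsub
    have := Finset.card_le_card hsub
    omega
  have hg1 : ∀ y, ‖g y‖ ≤ 1 := fun y => gtest_norm_le B₀ w hw σ y
  -- grouping
  have h1 : ∑ i, ‖Lam τ P C i (fun x => 1 * g x)‖ ^ p
      ≤ ∑ Q ∈ prefs C, ∑ i, ‖∑ S, cof g S * (τ Q S i : ℂ)‖ ^ p := by
    have h2 : ∀ i, Lam τ P C i (fun x => 1 * g x)
        = ∑ S, cof g S * (τ (pre C (P i)) S i : ℂ) := by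
      intro i
      unfold Lam
      simp only [one_mul, LinearMap.coe_mk, AddHom.coe_mk]
    simp only [h2]
    exact group C P (fun Q i => ‖∑ S, cof g S * (τ Q S i : ℂ)‖ ^ p) (fun Q i => by positivity)
  -- each prefix
  set a : List (Fin d × Bool) → ℝ := fun Q => ((∑ y, (ind Q y * ‖g y‖) ^ p) / 2 ^ d) ^ (1 / p)
    with ha
  have hind : ∀ (Q : List (Fin d × Bool)) y, 0 ≤ ind Q y := by
    intro Q y
    unfold ind
    split_ifs <;> norm_num
  have hin : ∀ Q, 0 ≤ (∑ y, (ind Q y * ‖g y‖) ^ p) / 2 ^ d := by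
    intro Q
    apply div_nonneg _ (by positivity)
    apply Finset.sum_nonneg
    intro y _
    apply Real.rpow_nonneg
    exact mul_nonneg (hind Q y) (norm_nonneg _)
  have ha0 : ∀ Q, 0 ≤ a Q := fun Q => Real.rpow_nonneg (hin Q) _
  set e : ℝ := 2 * ε * 2 ^ d with he
  have he0 : 0 ≤ e := by positivity
  have h3 : ∀ Q ∈ prefs C, ∑ i, ‖∑ S, cof g S * (τ Q S i : ℂ)‖ ^ p ≤ (2 * D * a Q + e) ^ p := by
    intro Q hQ
    obtain ⟨z, _, rfl⟩ := Finset.mem_image.mp hQ
    have h4 := cL1 hp hD hε hS (pre C z) (by unfold pre; simpa using hC) g hg0 hg1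
    have h5 : 0 ≤ ∑ i, ‖∑ S, cof g S * (τ (pre C z) S i : ℂ)‖ ^ p := by positivity
    have h6 := Real.rpow_le_rpow (by positivity) h4 hp0.le
    rwa [← Real.rpow_mul h5, one_div_mul_cancel hp0.ne', Real.rpow_one] at h6
  have h7 : (∑ Q ∈ prefs C, (2 * D * a Q + e) ^ p) ^ (1 / p)
      ≤ (∑ Q ∈ prefs C, (2 * D * a Q) ^ p) ^ (1 / p) + (∑ _Q ∈ prefs C, e ^ p) ^ (1 / p) :=
    Real.Lp_add_le_of_nonneg (prefs C) hp.le
      (fun Q _ => mul_nonneg (by linarith) (ha0 Q)) (fun _ _ => he0)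
  have h8 : ∑ Q ∈ prefs C, (2 * D * a Q) ^ p = (2 * D) ^ p * A ^ B₀.card := by
    have h9 : ∀ Q, (2 * D * a Q) ^ p = (2 * D) ^ p * ((∑ y, (ind Q y * ‖g y‖) ^ p) / 2 ^ d) := by
      intro Q
      rw [Real.mul_rpow (by linarith) (ha0 Q), ha]
      simp only
      rw [← Real.rpow_mul (hin Q), one_div_mul_cancel hp0.ne', Real.rpow_one]
    simp only [h9]
    rw [← Finset.mul_sum, ← Finset.sum_div, sum_prefs C p hp0 (fun y => ‖g y‖), hg, sum_gtest_x]
  have h10 : (∑ Q ∈ prefs C, (2 * D * a Q) ^ p) ^ (1 / p) = 2 * D * (A ^ B₀.card) ^ (1 / p) := by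
    rw [h8, Real.mul_rpow (by positivity) (by positivity), ← Real.rpow_mul (by linarith),
      mul_one_div_cancel hp0.ne', Real.rpow_one]
  have hp1 : 1 / p ≤ 1 := by
    rw [div_le_one hp0]
    exact hp.le
  have h11 : (∑ _Q ∈ prefs C, e ^ p) ^ (1 / p) ≤ 2 ^ d * e := by
    rw [Finset.sum_const, nsmul_eq_mul, Real.mul_rpow (by positivity) (by positivity),
      ← Real.rpow_mul he0, mul_one_div_cancel hp0.ne', Real.rpow_one]
    apply mul_le_mul_of_nonneg_right _ he0
    calc ((prefs C).card : ℝ) ^ (1 / p) ≤ ((2 : ℝ) ^ d) ^ (1 / p) :=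
          Real.rpow_le_rpow (by positivity) (card_prefs C) (by positivity)
      _ ≤ ((2 : ℝ) ^ d) ^ (1 : ℝ) :=
          Real.rpow_le_rpow_of_exponent_le (one_le_pow₀ (by norm_num)) hp1
      _ = 2 ^ d := Real.rpow_one _
  -- lower bound for the main term
  have hBd : B₀.card ≤ d := by
    have := Finset.card_le_univ B₀
    simpa using this
  have h12 : (1 / 2 : ℝ) ^ d ≤ (A ^ B₀.card) ^ (1 / p) := by
    have h13 : (1 / 2 : ℝ) ^ d ≤ A ^ B₀.card := by
      calc (1 / 2 : ℝ) ^ d ≤ (1 / 2 : ℝ) ^ B₀.card :=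
            pow_le_pow_of_le_one (by norm_num) (by norm_num) hBd
        _ ≤ A ^ B₀.card := pow_le_pow_left₀ (by norm_num) hA1 _
    calc (1 / 2 : ℝ) ^ d = ((1 / 2 : ℝ) ^ d) ^ (1 : ℝ) := (Real.rpow_one _).symm
      _ ≤ ((1 / 2 : ℝ) ^ d) ^ (1 / p) := by
          apply Real.rpow_le_rpow_of_exponent_ge (by positivity) _ hp1
          exact pow_le_one₀ (by norm_num) (by norm_num)
      _ ≤ (A ^ B₀.card) ^ (1 / p) := Real.rpow_le_rpow (by positivity) h13 (by positivity)
  have h14 : 2 ^ d * e ≤ ε * 10 ^ (d + 1) * (A ^ B₀.card) ^ (1 / p) := by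
    have h15 : 2 ^ d * e = ε * (2 * 8 ^ d) * (1 / 2 : ℝ) ^ d := by
      rw [he]
      have h16 : (8 : ℝ) ^ d * (1 / 2 : ℝ) ^ d = 2 ^ d * 2 ^ d := by
        rw [← mul_pow, ← mul_pow]
        norm_num
      calc (2 : ℝ) ^ d * (2 * ε * 2 ^ d) = 2 * ε * (2 ^ d * 2 ^ d) := by ring
        _ = 2 * ε * ((8 : ℝ) ^ d * (1 / 2 : ℝ) ^ d) := by rw [h16]
        _ = _ := by ring
    rw [h15]
    have h17 : (2 : ℝ) * 8 ^ d ≤ 10 ^ (d + 1) := by
      have : (8 : ℝ) ^ d ≤ 10 ^ d := pow_le_pow_left₀ (by norm_num) (by norm_num) _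
      have h10 : (0 : ℝ) < 10 ^ d := by positivity
      rw [pow_succ]
      nlinarith
    apply mul_le_mul (mul_le_mul_of_nonneg_left h17 hε) h12 (by positivity) (by positivity)
  have h18 : (∑ i, ‖Lam τ P C i (fun x => 1 * g x)‖ ^ p) ^ (1 / p)
      ≤ (2 * D + ε * 10 ^ (d + 1)) * (A ^ B₀.card) ^ (1 / p) := by
    calc (∑ i, ‖Lam τ P C i (fun x => 1 * g x)‖ ^ p) ^ (1 / p)
        ≤ (∑ Q ∈ prefs C, (2 * D * a Q + e) ^ p) ^ (1 / p) :=
          Real.rpow_le_rpow (by positivity) (h1.trans (Finset.sum_le_sum h3)) (by positivity)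
      _ ≤ 2 * D * (A ^ B₀.card) ^ (1 / p) + 2 ^ d * e := by
          rw [h10] at h7
          linarith
      _ ≤ _ := by
          rw [add_mul]
          linarith
  have h19 : 0 ≤ ∑ i, ‖Lam τ P C i (fun x => 1 * g x)‖ ^ p := by positivity
  have h20 := Real.rpow_le_rpow (by positivity) h18 hp0.le
  rw [← Real.rpow_mul h19, one_div_mul_cancel hp0.ne', Real.rpow_one,
    Real.mul_rpow (by positivity) (by positivity), ← Real.rpow_mul (by positivity),
    one_div_mul_cancel hp0.ne', Real.rpow_one] at h20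
  exact h20

lemma zmap_eq (p : ℝ) (w : ℂ) : zmap p w = zz p w := rfl

lemma uu_eq {d : ℕ} {ι : Type} [Fintype ι]
    (τ : List (Fin d × Bool) → Finset (Fin d) → ι → ℝ) (ψ : ι → ℝ) (P : ι → Cube d)
    (C : List (Fin d)) (B : Finset (Fin d))
    {_ : ∀ i, ∀ x : Cube d, Decidable (∀ j ∈ B, x j = P i j)} :
    ∑ v, (ψ v : ℂ) * Lam τ P C v (fun x => 1 * (if ∀ i ∈ B, x i = P v i then 1 else 0))
      = (uu τ ψ P C B : ℂ) := by
  simp only [Lam_ind]
  unfold uu
  push_cast
  rfl

lemma partA {p D ε : ℝ} (hp : 1 < p) (hD : 1 ≤ D) (hε : 0 ≤ ε) {d m : ℕ} {ι : Type}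
    [Fintype ι] {τ : List (Fin d × Bool) → Finset (Fin d) → ι → ℝ} (hS : Sys p D ε d m τ)
    (ψ : ι → ℝ) (P : ι → Cube d) (hψ : ∑ i, |ψ i| ^ (p / (p - 1)) ≤ 1)
    (C : List (Fin d)) (hlen : C.length ≤ d) (B₀ : Finset (Fin d))
    (hB : B₀.card ≤ m) (w : ℂ) (hw : ‖w‖ ≤ 1) :
    ‖∑ B ∈ B₀.powerset, (zmap p w) ^ B.card *
        (1 - zmap p w) ^ (B₀.card - B.card) * (uu τ ψ P C B : ℂ)‖ ≤ 2 * D + ε * 10 ^ (d + 1) := by
  have hp0 : 0 < p := by linarith
  have hpq : p.HolderConjugate (p / (p - 1)) := Real.HolderConjugate.conjExponent hp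
  have hK : 0 ≤ 2 * D + ε * 10 ^ (d + 1) := by positivity
  have h0 : (∑ σ : Cube d, ∑ v, ‖Lam τ P C v (fun x => 1 * gtest B₀ w σ x)‖ ^ p)
      / 2 ^ (Fintype.card (Fin d))
      ≤ (2 * D + ε * 10 ^ (d + 1)) ^ p * ((1 + ‖w‖ ^ p) / 2) ^ B₀.card := by
    rw [div_le_iff₀ (by positivity)]
    calc ∑ σ : Cube d, ∑ v, ‖Lam τ P C v (fun x => 1 * gtest B₀ w σ x)‖ ^ p
        ≤ ∑ _σ : Cube d, (2 * D + ε * 10 ^ (d + 1)) ^ p * ((1 + ‖w‖ ^ p) / 2) ^ B₀.card :=
          Finset.sum_le_sum (fun σ _ => Lam_bound hp hD hε hS P C hlen B₀ hB w hw σ)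
      _ = _ := by
          rw [Finset.sum_const, nsmul_eq_mul, mul_comm]
          simp
  have h1 := b_core hpq B₀ P (Lam τ P C) (fun _ => 1) (fun i => (ψ i : ℂ)) w hK h0
  have h3 : (∑ v, ‖(ψ v : ℂ)‖ ^ (p / (p - 1))) ^ (1 / (p / (p - 1))) ≤ 1 := by
    apply Real.rpow_le_one
    · positivity
    · simpa [Complex.norm_real] using hψ
    · have : 0 < p / (p - 1) := div_pos hp0 (by linarith)
      positivity
  rw [zmap_eq]
  have h5 : (2 * D + ε * 10 ^ (d + 1)) *
      (∑ v, ‖(ψ v : ℂ)‖ ^ (p / (p - 1))) ^ (1 / (p / (p - 1))) ≤ 2 * D + ε * 10 ^ (d + 1) := by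
    have := mul_le_mul_of_nonneg_left h3 hK
    rwa [mul_one] at this
  refine le_trans (le_of_eq ?_) (h1.trans h5)
  congr 1
  apply Finset.sum_congr rfl
  intro B _
  congr 1
  exact (uu_eq τ ψ P C B).symm

lemma partB {p D ε : ℝ} (hp : 1 < p) (hD : 1 ≤ D) (hε : 0 ≤ ε) {d m : ℕ} {ι : Type}
    [Fintype ι] {τ : List (Fin d × Bool) → Finset (Fin d) → ι → ℝ} (hS : Sys p D ε d m τ)
    (ψ : ι → ℝ) (P : ι → Cube d) (hψ : ∑ i, |ψ i| ^ (p / (p - 1)) ≤ 1)
    (C : List (Fin d)) (hC : C.Nodup) (hlen : C.length ≤ d) :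
    |uu τ ψ P C ∅| ≤ (Fintype.card ι : ℝ) ^ (1 / p) *
      (D * (2 : ℝ) ^ (-(C.length : ℝ) / p) + ε) := by
  have hp0 : 0 < p := by linarith
  have hpq : p.HolderConjugate (p / (p - 1)) := Real.HolderConjugate.conjExponent hp
  have h1 : ∀ i, |τ (pre C (P i)) ∅ i| ≤ D * (2 : ℝ) ^ (-(C.length : ℝ) / p) + ε := by
    intro i
    have h2 := hS.L1 (pre C (P i)) (by unfold pre; simpa using hlen)
      (fun S => if S = ∅ then 1 else 0) (by
        intro S hSm
        rw [if_neg]
        rintro rfl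
        simp at hSm)
    have h3 : (∑ S : Finset (Fin d), (if S = ∅ then (1 : ℝ) else 0) • τ (pre C (P i)) S)
        = τ (pre C (P i)) ∅ := by
      simp
    have h4 : ∑ S : Finset (Fin d), |(if S = ∅ then (1 : ℝ) else 0)| = 1 := by
      rw [Finset.sum_eq_single ∅]
      · simp
      · intro S _ hne
        simp [hne]
      · intro h
        exact absurd (Finset.mem_univ _) h
    rw [h3, h4, mul_one] at h2
    have h5 : |τ (pre C (P i)) ∅ i| ≤ nT p (τ (pre C (P i)) ∅) := by
      unfold nT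
      calc |τ (pre C (P i)) ∅ i| = (|τ (pre C (P i)) ∅ i| ^ p) ^ (1 / p) := by
            rw [← Real.rpow_mul (abs_nonneg _), mul_one_div_cancel hp0.ne', Real.rpow_one]
        _ ≤ _ := by
            apply Real.rpow_le_rpow (by positivity) _ (by positivity)
            exact Finset.single_le_sum (f := fun j => |τ (pre C (P i)) ∅ j| ^ p)
              (fun j _ => by positivity) (Finset.mem_univ i)
    have h6 : nY p (fun y => ind (pre C (P i)) y *
        poly (fun S : Finset (Fin d) => if S = ∅ then (1 : ℝ) else 0) y)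
        = (2 : ℝ) ^ (-(C.length : ℝ) / p) := by
      have h7 : ∀ y : Cube d, poly (fun S : Finset (Fin d) => if S = ∅ then (1 : ℝ) else 0) y
          = 1 := by
        intro y
        unfold poly
        simp [walsh]
      unfold nY
      simp only [h7, mul_one]
      have h8 := sum_gtest_x C.toFinset 0 (P i) p
      rw [norm_zero, Real.zero_rpow hp0.ne', add_zero, List.toFinset_card_of_nodup hC] at h8
      have h9 : ∀ y : Cube d, |ind (pre C (P i)) y| ^ p = ‖gtest C.toFinset 0 (P i) y‖ ^ p := by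
        intro y
        congr 1
        rw [ind_pre]
        unfold gtest
        by_cases h : pre C (P i) = pre C y
        · rw [if_pos h]
          rw [Finset.prod_eq_one]
          · simp
          · intro j hj
            rw [if_pos]
            unfold pre at h
            rw [List.map_inj_left] at h
            have := h j (List.mem_toFinset.mp hj)
            simp only [Prod.mk.injEq, true_and] at this
            exact this.symm
        · rw [if_neg h]
          have h' : ∃ j ∈ C, P i j ≠ y j := by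
            by_contra hcon
            apply h
            unfold pre
            rw [List.map_inj_left]
            intro j hj
            simp only [Prod.mk.injEq, true_and]
            exact by_contra (fun hne => hcon ⟨j, hj, hne⟩)
          obtain ⟨j, hj, hne⟩ := h'
          rw [Finset.prod_eq_zero (List.mem_toFinset.mpr hj)]
          · simp
          · rw [if_neg (fun h => hne h.symm)]
      simp only [h9]
      rw [h8, ← Real.rpow_natCast, ← Real.rpow_mul (by norm_num)]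
      rw [show ((1 : ℝ) / 2) = (2 : ℝ) ^ (-1 : ℝ) by rw [Real.rpow_neg_one]; norm_num,
        ← Real.rpow_mul (by norm_num)]
      congr 1
      ring
    rw [h6] at h2
    linarith
  have h10 : uu τ ψ P C ∅ = ∑ i, ψ i * τ (pre C (P i)) ∅ i := by
    unfold uu
    simp [walsh]
  rw [h10]
  have hb : 0 ≤ D * (2 : ℝ) ^ (-(C.length : ℝ) / p) + ε := by positivity
  have h11 := Real.inner_le_Lp_mul_Lq (Finset.univ : Finset ι)
    (fun i => τ (pre C (P i)) ∅ i) (fun i => ψ i) hpq
  have h12 : (∑ i, |ψ i| ^ (p / (p - 1))) ^ (1 / (p / (p - 1))) ≤ 1 := by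
    apply Real.rpow_le_one
    · positivity
    · exact hψ
    · have : 0 < p / (p - 1) := div_pos hp0 (by linarith)
      positivity
  have h13 := Real.inner_le_Lp_mul_Lq (Finset.univ : Finset ι)
    (fun i => |τ (pre C (P i)) ∅ i|) (fun i => |ψ i|) hpq
  simp only [abs_abs] at h13
  calc |∑ i, ψ i * τ (pre C (P i)) ∅ i| ≤ ∑ i, |τ (pre C (P i)) ∅ i| * |ψ i| := by
        refine (Finset.abs_sum_le_sum_abs _ _).trans (le_of_eq ?_)
        apply Finset.sum_congr rfl
        intro i _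
        rw [abs_mul, mul_comm]
    _ ≤ (∑ i, |τ (pre C (P i)) ∅ i| ^ p) ^ (1 / p) *
          (∑ i, |ψ i| ^ (p / (p - 1))) ^ (1 / (p / (p - 1))) := h13
    _ ≤ (∑ i, |τ (pre C (P i)) ∅ i| ^ p) ^ (1 / p) * 1 :=
        mul_le_mul_of_nonneg_left h12 (by positivity)
    _ = (∑ i, |τ (pre C (P i)) ∅ i| ^ p) ^ (1 / p) := mul_one _
    _ ≤ (∑ _i : ι, (D * (2 : ℝ) ^ (-(C.length : ℝ) / p) + ε) ^ p) ^ (1 / p) := by
        apply Real.rpow_le_rpow (by positivity) _ (by positivity)
        exact Finset.sum_le_sum (fun i _ => Real.rpow_le_rpow (abs_nonneg _) (h1 i) hp0.le)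
    _ = (Fintype.card ι : ℝ) ^ (1 / p) * (D * (2 : ℝ) ^ (-(C.length : ℝ) / p) + ε) := by
        rw [Finset.sum_const, nsmul_eq_mul, Finset.card_univ,
          Real.mul_rpow (by positivity) (by positivity), ← Real.rpow_mul hb,
          mul_one_div_cancel hp0.ne', Real.rpow_one]

end PairA

open PairA in
theorem specPairA : SpecPairA := by
  intro p D hp hD d m ε hε ι _ τ hS ψ P hψ C B₀ hC hCB hB
  have hlen : C.length ≤ d := by
    have h1 := hC.length_le_card
    simpa using h1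
  exact ⟨fun w hw => partA hp hD hε hS ψ P hψ C hlen B₀ hB w hw,
    partB hp hD hε hS ψ P hψ C hC hlen⟩

end Vale.Agent.P249.SP
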