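import Vale.Agent.P249.SP.Pair
import Vale.Agent.P249.SP.PairA

/-! # P249, block PAIR: closed -/

namespace Vale.Agent.P249.SP

/-- block PAIR -/
theorem specPair : SpecPair := specPair_of specPairA specPairB

end Vale.Agent.P249.SP
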