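import Vale.Agent.P249.SP.Spec

/-!
# START (location map from a peaked system)
-/

open Finset
open scoped BigOperators symmDiff

namespace Vale.Agent.P249.SP

namespace StartAux

variable {d : ℕ}

lemma wt_nonneg {θ : ℝ} (h0 : 0 < θ) (h1 : θ < 1) (S : Finset (Fin d)) : 0 ≤ wt θ S := by
  unfold wt
  have : 0 ≤ 1 - θ := by linarith
  positivity

lemma sum_wt (θ : ℝ) : ∑ S : Finset (Fin d), wt θ S = 1 := by
  have h := Fintype.sum_pow_mul_eq_add_pow (Fin d) θ (1 - θ)
  rw [Fintype.card_fin] at h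
  unfold wt
  rw [h]
  simp

lemma sum_small (θ : ℝ) (s : ℕ) :
    ∑ S ∈ univ.filter (fun S : Finset (Fin d) => S.card ≤ s), wt θ S = 1 - tail θ d s := by
  have h := Finset.sum_filter_add_sum_filter_not (univ : Finset (Finset (Fin d)))
    (fun S => S.card ≤ s) (fun S => wt θ S)
  rw [sum_wt] at h
  unfold tail
  simp only [not_le] at h
  linarith

/-- the ratio sign -/
noncomputable def rs (h t : ℝ) : ℝ := if 0 ≤ h * t then 1 else -1

lemma rs_or (h t : ℝ) : rs h t = 1 ∨ rs h t = -1 := by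
  unfold rs; split_ifs <;> simp

lemma scal {h x y z : ℝ} (hh : h ≠ 0)
    (h1 : min |(h + x) / 2| |(h - x) / 2| ≤ |h| / 16)
    (h2 : min |(h + x + y + z) / 4| |(h + x - y - z) / 4| ≤ |h| / 16)
    (h3 : min |(h - x + y - z) / 4| |(h - x - y + z) / 4| ≤ |h| / 16) :
    rs h x * rs h y = rs h z := by
  rcases lt_or_gt_of_ne hh with hneg | hpos
  · have e : ∀ t : ℝ, rs h t = if t ≤ 0 then 1 else -1 := by
      intro t
      unfold rs
      refine if_congr ?_ rfl rfl
      constructor
      · intro h'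
        by_contra hc
        push Not at hc
        have := mul_neg_of_neg_of_pos hneg hc
        linarith
      · intro h'
        exact mul_nonneg_of_nonpos_of_nonpos hneg.le h'
    rw [e, e, e]
    rw [abs_of_neg hneg] at h1 h2 h3
    rw [min_le_iff, abs_le, abs_le] at h1 h2 h3
    rcases h1 with h1 | h1 <;> rcases h2 with h2 | h2 <;> rcases h3 with h3 | h3 <;>
      obtain ⟨h1a, h1b⟩ := h1 <;> obtain ⟨h2a, h2b⟩ := h2 <;> obtain ⟨h3a, h3b⟩ := h3 <;>
      split_ifs <;> first | (norm_num; done) | (exfalso; linarith)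
  · have e : ∀ t : ℝ, rs h t = if 0 ≤ t then 1 else -1 := by
      intro t
      unfold rs
      exact if_congr (mul_nonneg_iff_of_pos_left hpos) rfl rfl
    rw [e, e, e]
    rw [abs_of_pos hpos] at h1 h2 h3
    rw [min_le_iff, abs_le, abs_le] at h1 h2 h3
    rcases h1 with h1 | h1 <;> rcases h2 with h2 | h2 <;> rcases h3 with h3 | h3 <;>
      obtain ⟨h1a, h1b⟩ := h1 <;> obtain ⟨h2a, h2b⟩ := h2 <;> obtain ⟨h3a, h3b⟩ := h3 <;>
      split_ifs <;> first | (norm_num; done) | (exfalso; linarith)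

/-- the sign of `h` -/
noncomputable def sh (h : ℝ) : ℝ := if 0 ≤ h then 1 else -1

lemma sh_mul (h t : ℝ) (hh : h ≠ 0) : sh h * t = rs h t * |t| := by
  unfold sh rs
  rcases lt_or_gt_of_ne hh with hneg | hpos
  · rw [if_neg (not_le.mpr hneg)]
    split_ifs with h1
    · have ht : t ≤ 0 := by
        by_contra hc
        push Not at hc
        have := mul_neg_of_neg_of_pos hneg hc
        linarith
      rw [abs_of_nonpos ht]; ring
    · have ht : 0 ≤ t := by
        by_contra hc
        push Not at hc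
        exact h1 (mul_pos_of_neg_of_neg hneg hc).le
      rw [abs_of_nonneg ht]
  · rw [if_pos hpos.le]
    split_ifs with h1
    · have ht : 0 ≤ t := by
        by_contra hc
        push Not at hc
        have := mul_neg_of_pos_of_neg hpos hc
        linarith
      rw [abs_of_nonneg ht]
    · have ht : t ≤ 0 := by
        by_contra hc
        push Not at hc
        exact h1 (mul_pos hpos hc).le
      rw [abs_of_nonpos ht]; ring

lemma term_lb {p h t g : ℝ} (hp : 1 < p) (hh : h ≠ 0) (hg : g = 1 ∨ g = -1) :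
    7 / 8 * |h| ^ p - 3 * |h| ^ p * (if rs h t = g then 0 else 1) -
      16 ^ p * (min |(h + t) / 2| |(h - t) / 2|) ^ p ≤ |h| ^ (p - 1) * g * (sh h * t) := by
  rw [sh_mul h t hh]
  set m := min |(h + t) / 2| |(h - t) / 2| with hm
  have hm0 : 0 ≤ m := le_min (abs_nonneg _) (abs_nonneg _)
  have hh0 : 0 < |h| := abs_pos.mpr hh
  have ha0 : 0 < |h| ^ (p - 1) := Real.rpow_pos_of_pos hh0 _
  have hpp : |h| ^ p = |h| ^ (p - 1) * |h| := by
    rw [← Real.rpow_add_one hh0.ne']; ring_nf
  have hP0 : 0 < |h| ^ p := Real.rpow_pos_of_pos hh0 _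
  have h16 : (16 : ℝ) ^ p * m ^ p = (16 * m) ^ p := by
    rw [Real.mul_rpow (by norm_num) hm0]
  have h16' : 0 ≤ (16 * m) ^ p := by positivity
  have ht0 : 0 ≤ |t| := abs_nonneg t
  rw [h16]
  by_cases hr : rs h t = g
  · rw [if_pos hr, ← hr]
    have hsq : rs h t * rs h t = 1 := by
      rcases rs_or h t with h' | h' <;> rw [h'] <;> norm_num
    have e1 : |h| ^ (p - 1) * rs h t * (rs h t * |t|) = |h| ^ (p - 1) * |t| := by
      calc _ = |h| ^ (p - 1) * (rs h t * rs h t) * |t| := by ring
        _ = _ := by rw [hsq]; ring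
    rw [e1]
    by_cases hsm : m ≤ |h| / 16
    · -- |t| ≥ 7/8 |h|
      have ht : 7 / 8 * |h| ≤ |t| := by
        rw [hm, min_le_iff] at hsm
        rcases hsm with h' | h'
        · have := abs_sub_abs_le_abs_sub h (-t)
          rw [abs_neg] at this
          have e2 : |h - -t| = 2 * |(h + t) / 2| := by
            rw [abs_div, sub_neg_eq_add]; norm_num; ring
          rw [e2] at this
          linarith
        · have := abs_sub_abs_le_abs_sub h t
          have e2 : |h - t| = 2 * |(h - t) / 2| := by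
            rw [abs_div]; norm_num; ring
          rw [e2] at this
          linarith
      have := mul_le_mul_of_nonneg_left ht ha0.le
      nlinarith
    · push Not at hsm
      have h1 : |h| ^ p ≤ (16 * m) ^ p :=
        Real.rpow_le_rpow hh0.le (by linarith) (by linarith)
      have h2 : 0 ≤ |h| ^ (p - 1) * |t| := by positivity
      linarith
  · rw [if_neg hr]
    have hgr : g * rs h t = -1 := by
      rcases rs_or h t with h' | h' <;> rcases hg with h'' | h'' <;> rw [h', h''] at hr ⊢ <;>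
        first | (norm_num; done) | (exact absurd rfl hr)
    have e1 : |h| ^ (p - 1) * g * (rs h t * |t|) = -(|h| ^ (p - 1) * |t|) := by
      calc _ = |h| ^ (p - 1) * (g * rs h t) * |t| := by ring
        _ = _ := by rw [hgr]; ring
    rw [e1]
    by_cases ht : |t| ≤ 2 * |h|
    · have := mul_le_mul_of_nonneg_left ht ha0.le
      nlinarith
    · push Not at ht
      have hmt : |t| ≤ 4 * m := by
        rw [hm]
        have e2 : |t| / 4 ≤ min |(h + t) / 2| |(h - t) / 2| := by
          apply le_min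
          · rw [abs_div, abs_two]
            have := abs_sub_abs_le_abs_sub t (-h)
            rw [abs_neg, sub_neg_eq_add, add_comm] at this
            linarith
          · rw [abs_div, abs_two, abs_sub_comm]
            have := abs_sub_abs_le_abs_sub t h
            linarith
        linarith
      have h3 : |h| ^ (p - 1) * |t| ≤ |t| ^ (p - 1) * |t| := by
        apply mul_le_mul_of_nonneg_right _ ht0
        exact Real.rpow_le_rpow hh0.le (by linarith) (by linarith)
      have h4 : |t| ^ (p - 1) * |t| = |t| ^ p := by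
        rw [← Real.rpow_add_one (by linarith : |t| ≠ 0)]; ring_nf
      have h5 : |t| ^ p ≤ (16 * m) ^ p :=
        Real.rpow_le_rpow ht0 (by linarith) (by linarith)
      nlinarith

/-! ### the swap -/

lemma mem_mix (W S S' : Finset (Fin d)) (i : Fin d) :
    i ∈ mix W S S' ↔ (i ∈ S ∧ i ∉ W) ∨ (i ∈ S' ∧ i ∈ W) := by
  simp [mix]

lemma mix_mix (W S S' : Finset (Fin d)) : mix W (mix W S S') (mix W S' S) = S := by
  ext i
  simp only [mem_mix]
  tauto

lemma mix_symm (W S S' : Finset (Fin d)) : mix W S S' ∆ mix W S' S = S ∆ S' := by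
  ext i
  simp only [Finset.mem_symmDiff, mem_mix]
  tauto

lemma card_mix (W S S' : Finset (Fin d)) :
    (mix W S S').card + (mix W S' S).card = S.card + S'.card := by
  have e : ∀ A B : Finset (Fin d), (mix W A B).card = (A \ W).card + (B ∩ W).card := by
    intro A B
    unfold mix
    apply Finset.card_union_of_disjoint
    rw [Finset.disjoint_left]
    intro i hi hi'
    simp only [Finset.mem_sdiff, Finset.mem_inter] at hi hi'
    exact hi.2 hi'.2
  rw [e, e]
  have e1 := Finset.card_sdiff_add_card_inter S W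
  have e2 := Finset.card_sdiff_add_card_inter S' W
  omega

lemma wt_mix (θ : ℝ) (W S S' : Finset (Fin d)) :
    wt θ (mix W S S') * wt θ (mix W S' S) = wt θ S * wt θ S' := by
  have e : ∀ A B : Finset (Fin d), wt θ A * wt θ B =
      θ ^ (A.card + B.card) * (1 - θ) ^ ((d - A.card) + (d - B.card)) := by
    intro A B
    unfold wt
    rw [pow_add, pow_add]
    ring
  have hc := card_mix W S S'
  have c1 : (mix W S S').card ≤ d := by simpa using Finset.card_le_univ (mix W S S')
  have c2 : (mix W S' S).card ≤ d := by simpa using Finset.card_le_univ (mix W S' S)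
  have c3 : S.card ≤ d := by simpa using Finset.card_le_univ S
  have c4 : S'.card ≤ d := by simpa using Finset.card_le_univ S'
  rw [e, e, hc]
  congr 2
  omega

/-- the swap as an equivalence of pairs -/
def swapE (W : Finset (Fin d)) : (Finset (Fin d) × Finset (Fin d)) ≃
    (Finset (Fin d) × Finset (Fin d)) where
  toFun q := (mix W q.1 q.2, mix W q.2 q.1)
  invFun q := (mix W q.1 q.2, mix W q.2 q.1)
  left_inv := by
    rintro ⟨S, S'⟩
    simp only [mix_mix]
  right_inv := by
    rintro ⟨S, S'⟩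
    simp only [mix_mix]

lemma sum_swap (θ : ℝ) (W : Finset (Fin d)) (f : Finset (Fin d) → Finset (Fin d) → ℝ) :
    ∑ S, ∑ S', wt θ S * wt θ S' * f (mix W S S') (mix W S' S) =
      ∑ S, ∑ S', wt θ S * wt θ S' * f S S' := by
  have e1 : ∑ S, ∑ S', wt θ S * wt θ S' * f S S' =
      ∑ q : Finset (Fin d) × Finset (Fin d), wt θ q.1 * wt θ q.2 * f q.1 q.2 := by
    rw [Fintype.sum_prod_type]
  have e2 : ∑ S, ∑ S', wt θ S * wt θ S' * f (mix W S S') (mix W S' S) =
      ∑ q : Finset (Fin d) × Finset (Fin d), wt θ q.1 * wt θ q.2 *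
        f (mix W q.1 q.2) (mix W q.2 q.1) := by
    rw [Fintype.sum_prod_type]
  rw [e1, e2, ← (swapE W).sum_comp]
  apply Finset.sum_congr rfl
  rintro ⟨S, S'⟩ _
  simp only [swapE, Equiv.coe_fn_mk]
  rw [wt_mix, mix_mix, mix_mix]

/-- the pair `(S, S')` is fine for the coordinate with values `t` -/
def okp (s : ℕ) (t : Finset (Fin d) → ℝ) (S S' : Finset (Fin d)) : Prop :=
  S.card ≤ s ∧ S'.card ≤ s ∧
  min |(t ∅ + t S) / 2| |(t ∅ - t S) / 2| ≤ |t ∅| / 16 ∧
  min |(t ∅ + t S + t S' + t (S ∆ S')) / 4| |(t ∅ + t S - t S' - t (S ∆ S')) / 4| ≤ |t ∅| / 16 ∧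
  min |(t ∅ - t S + t S' - t (S ∆ S')) / 4| |(t ∅ - t S - t S' + t (S ∆ S')) / 4| ≤ |t ∅| / 16

open Classical in
/-- indicator of failure -/
noncomputable def nf (s : ℕ) (t : Finset (Fin d) → ℝ) (S S' : Finset (Fin d)) : ℝ :=
  if okp s t S S' then 0 else 1

lemma nf_nonneg (s : ℕ) (t : Finset (Fin d) → ℝ) (S S' : Finset (Fin d)) : 0 ≤ nf s t S S' := by
  unfold nf; split_ifs <;> norm_num

/-- the sign function at one coordinate -/
noncomputable def FF (s : ℕ) (t : Finset (Fin d) → ℝ) (S : Finset (Fin d)) : ℝ :=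
  if S.card ≤ s then rs (t ∅) (t S) else 1

lemma FF_or (s : ℕ) (t : Finset (Fin d) → ℝ) (S : Finset (Fin d)) :
    FF s t S = 1 ∨ FF s t S = -1 := by
  unfold FF; split_ifs
  · exact rs_or _ _
  · exact Or.inl rfl

lemma FF_mul {s : ℕ} {t : Finset (Fin d) → ℝ} {S S' : Finset (Fin d)} (h0 : t ∅ ≠ 0)
    (h : okp s t S S') : FF s t S * FF s t S' = rs (t ∅) (t (S ∆ S')) := by
  obtain ⟨h1, h2, h3, h4, h5⟩ := h
  unfold FF
  rw [if_pos h1, if_pos h2]
  exact scal h0 h3 h4 h5

lemma swap_ind_le (s : ℕ) (t : Finset (Fin d) → ℝ) (h0 : t ∅ ≠ 0) (W S S' : Finset (Fin d)) :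
    (if FF s t S * FF s t S' = FF s t (mix W S S') * FF s t (mix W S' S) then (0 : ℝ) else 1) ≤
      nf s t S S' + nf s t (mix W S S') (mix W S' S) := by
  by_cases h1 : okp s t S S'
  · by_cases h2 : okp s t (mix W S S') (mix W S' S)
    · have e1 := FF_mul h0 h1
      have e2 := FF_mul h0 h2
      rw [mix_symm] at e2
      rw [if_pos (e1.trans e2.symm)]
      exact add_nonneg (nf_nonneg _ _ _ _) (nf_nonneg _ _ _ _)
    · have e : nf s t (mix W S S') (mix W S' S) = 1 := by unfold nf; rw [if_neg h2]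
      rw [e]
      have := nf_nonneg s t S S'
      split_ifs <;> linarith
  · have e : nf s t S S' = 1 := by unfold nf; rw [if_neg h1]
    rw [e]
    have := nf_nonneg s t (mix W S S') (mix W S' S)
    split_ifs <;> linarith

/-- failure probability -/
noncomputable def fail (θ : ℝ) (s : ℕ) (t : Finset (Fin d) → ℝ) : ℝ :=
  ∑ S, ∑ S', wt θ S * wt θ S' * nf s t S S'

lemma fail_nonneg {θ : ℝ} (h0 : 0 < θ) (h1 : θ < 1) (s : ℕ) (t : Finset (Fin d) → ℝ) :
    0 ≤ fail θ s t :=
  Finset.sum_nonneg fun S _ => Finset.sum_nonneg fun S' _ =>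
    mul_nonneg (mul_nonneg (wt_nonneg h0 h1 S) (wt_nonneg h0 h1 S')) (nf_nonneg _ _ _ _)

lemma swap_le {θ : ℝ} (hθ0 : 0 < θ) (hθ1 : θ < 1) (s : ℕ) (t : Finset (Fin d) → ℝ)
    (h0 : t ∅ ≠ 0) (W : Finset (Fin d)) :
    ∑ S, ∑ S', wt θ S * wt θ S' *
      (if FF s t S * FF s t S' = FF s t (mix W S S') * FF s t (mix W S' S) then 0 else 1) ≤
      2 * fail θ s t := by
  have e : 2 * fail θ s t = ∑ S, ∑ S', wt θ S * wt θ S' *
      (nf s t S S' + nf s t (mix W S S') (mix W S' S)) := by
    have e1 := sum_swap θ W (nf s t)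
    simp only [mul_add, Finset.sum_add_distrib]
    rw [e1]
    unfold fail
    ring
  rw [e]
  apply Finset.sum_le_sum
  intro S _
  apply Finset.sum_le_sum
  intro S' _
  exact mul_le_mul_of_nonneg_left (swap_ind_le s t h0 W S S')
    (mul_nonneg (wt_nonneg hθ0 hθ1 S) (wt_nonneg hθ0 hθ1 S'))

/-- big indicator -/
noncomputable def big (s : ℕ) (S : Finset (Fin d)) : ℝ := if S.card ≤ s then 0 else 1

lemma sum_big (θ : ℝ) (s : ℕ) : ∑ S : Finset (Fin d), wt θ S * big s S = tail θ d s := by
  unfold tail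
  rw [Finset.sum_filter]
  apply Finset.sum_congr rfl
  intro S _
  unfold big
  by_cases h : S.card ≤ s
  · rw [if_pos h, if_neg (not_lt.mpr h), mul_zero]
  · rw [if_neg h, if_pos (not_le.mp h), mul_one]

/-- total of the three minima at one coordinate -/
noncomputable def m3 (p : ℝ) (t : Finset (Fin d) → ℝ) (S S' : Finset (Fin d)) : ℝ :=
  (min |(t ∅ + t S) / 2| |(t ∅ - t S) / 2|) ^ p +
  ((min |(t ∅ + t S + t S' + t (S ∆ S')) / 4| |(t ∅ + t S - t S' - t (S ∆ S')) / 4|) ^ p +
  (min |(t ∅ - t S + t S' - t (S ∆ S')) / 4| |(t ∅ - t S - t S' + t (S ∆ S')) / 4|) ^ p)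

lemma min_abs_nonneg (a b : ℝ) : 0 ≤ min |a| |b| := le_min (abs_nonneg _) (abs_nonneg _)

lemma m3_nonneg (p : ℝ) (t : Finset (Fin d) → ℝ) (S S' : Finset (Fin d)) : 0 ≤ m3 p t S S' := by
  unfold m3
  have := min_abs_nonneg
  apply add_nonneg
  · exact Real.rpow_nonneg (this _ _) _
  · apply add_nonneg
    · exact Real.rpow_nonneg (this _ _) _
    · exact Real.rpow_nonneg (this _ _) _

lemma mass_le {p : ℝ} (hp : 1 < p) (s : ℕ) (t : Finset (Fin d) → ℝ) (S S' : Finset (Fin d)) :
    |t ∅| ^ p * nf s t S S' ≤ |t ∅| ^ p * (big s S + big s S') +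
      16 ^ p * (if S.card ≤ s then (if S'.card ≤ s then m3 p t S S' else 0) else 0) := by
  have hA : 0 ≤ |t ∅| ^ p := Real.rpow_nonneg (abs_nonneg _) _
  have h16 : (0 : ℝ) < 16 ^ p := by positivity
  have hm := m3_nonneg p t S S'
  by_cases h1 : S.card ≤ s
  · by_cases h2 : S'.card ≤ s
    · have e1 : big s S = 0 := by unfold big; rw [if_pos h1]
      have e2 : big s S' = 0 := by unfold big; rw [if_pos h2]
      rw [e1, e2, if_pos h1, if_pos h2]
      unfold nf
      by_cases h3 : okp s t S S'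
      · rw [if_pos h3]
        have := mul_nonneg h16.le hm
        linarith
      · rw [if_neg h3]
        have key : ∀ m : ℝ, 0 ≤ m → ¬ m ≤ |t ∅| / 16 → |t ∅| ^ p ≤ 16 ^ p * m ^ p := by
          intro m hm0 hlt
          push Not at hlt
          rw [← Real.mul_rpow (by norm_num) hm0]
          exact Real.rpow_le_rpow (abs_nonneg _) (by linarith) (by linarith)
        have n1 := Real.rpow_nonneg (min_abs_nonneg ((t ∅ + t S) / 2) ((t ∅ - t S) / 2)) p
        have n2 := Real.rpow_nonneg (min_abs_nonneg ((t ∅ + t S + t S' + t (S ∆ S')) / 4)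
          ((t ∅ + t S - t S' - t (S ∆ S')) / 4)) p
        have n3 := Real.rpow_nonneg (min_abs_nonneg ((t ∅ - t S + t S' - t (S ∆ S')) / 4)
          ((t ∅ - t S - t S' + t (S ∆ S')) / 4)) p
        unfold m3
        unfold okp at h3
        simp only [h1, h2, true_and, not_and_or] at h3
        rcases h3 with h3 | h3 | h3
        · have := key _ (min_abs_nonneg _ _) h3
          nlinarith
        · have := key _ (min_abs_nonneg _ _) h3
          nlinarith
        · have := key _ (min_abs_nonneg _ _) h3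
          nlinarith
    · have e2 : big s S' = 1 := by unfold big; rw [if_neg h2]
      have e1 : 0 ≤ big s S := by unfold big; split_ifs <;> norm_num
      have e3 : nf s t S S' = 1 := by
        unfold nf; rw [if_neg]; unfold okp; tauto
      rw [if_pos h1, if_neg h2, e2, e3]
      nlinarith
  · have e2 : big s S = 1 := by unfold big; rw [if_neg h1]
    have e1 : 0 ≤ big s S' := by unfold big; split_ifs <;> norm_num
    have e3 : nf s t S S' = 1 := by
      unfold nf; rw [if_neg]; unfold okp; tauto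
    rw [if_neg h1, e2, e3]
    nlinarith

lemma def_eq (p : ℝ) {ι : Type} [Fintype ι] (T : Finset (Fin d) → ι → ℝ)
    (S S' : Finset (Fin d)) :
    def1 p T S + def2 p T S S' = ∑ i, m3 p (fun V => T V i) S S' := by
  unfold def1 def2 m3
  rw [← Finset.sum_add_distrib]

lemma total_fail {p θ δ H₀ : ℝ} (hp : 1 < p) (s : ℕ)
    {ι : Type} [Fintype ι] (T : Finset (Fin d) → ι → ℝ) (hθ0 : 0 < θ) (hθ1 : θ < 1)
    (hP : Peaked p δ H₀ θ d s T) :
    ∑ i, |T ∅ i| ^ p * fail θ s (fun V => T V i) ≤
      (2 * tail θ d s + 16 ^ p * δ) * ∑ i, |T ∅ i| ^ p := by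
  obtain ⟨_, hP⟩ := hP
  have h16 : (0 : ℝ) < 16 ^ p := by positivity
  have step1 : ∀ i, |T ∅ i| ^ p * fail θ s (fun V => T V i) ≤
      ∑ S, ∑ S', wt θ S * wt θ S' * (|T ∅ i| ^ p * (big s S + big s S') +
      16 ^ p * (if S.card ≤ s then (if S'.card ≤ s then m3 p (fun V => T V i) S S' else 0)
        else 0)) := by
    intro i
    unfold fail
    rw [Finset.mul_sum]
    apply Finset.sum_le_sum
    intro S _
    rw [Finset.mul_sum]
    apply Finset.sum_le_sum
    intro S' _
    have := mul_le_mul_of_nonneg_left (mass_le hp s (fun V => T V i) S S')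
      (mul_nonneg (wt_nonneg hθ0 hθ1 S) (wt_nonneg hθ0 hθ1 S'))
    calc _ = wt θ S * wt θ S' * (|T ∅ i| ^ p * nf s (fun V => T V i) S S') := by ring
      _ ≤ _ := this
  have hb : ∑ S : Finset (Fin d), ∑ S' : Finset (Fin d),
      wt θ S * wt θ S' * (big s S + big s S') = 2 * tail θ d s := by
    have e1 : ∑ S : Finset (Fin d), ∑ S' : Finset (Fin d), wt θ S * wt θ S' * (big s S + big s S')
        = ∑ S : Finset (Fin d), ∑ S' : Finset (Fin d),
          ((wt θ S * big s S) * wt θ S' + wt θ S * (wt θ S' * big s S')) := by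
      apply Finset.sum_congr rfl; intro S _
      apply Finset.sum_congr rfl; intro S' _
      ring
    rw [e1]
    simp only [Finset.sum_add_distrib]
    rw [← Finset.sum_mul_sum, ← Finset.sum_mul_sum, sum_big, sum_wt]
    ring
  calc ∑ i, |T ∅ i| ^ p * fail θ s (fun V => T V i)
      ≤ ∑ i, ∑ S, ∑ S', wt θ S * wt θ S' * (|T ∅ i| ^ p * (big s S + big s S') +
      16 ^ p * (if S.card ≤ s then (if S'.card ≤ s then m3 p (fun V => T V i) S S' else 0)
        else 0)) := Finset.sum_le_sum fun i _ => step1 i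
    _ = ∑ S, ∑ S', ∑ i, wt θ S * wt θ S' * (|T ∅ i| ^ p * (big s S + big s S') +
      16 ^ p * (if S.card ≤ s then (if S'.card ≤ s then m3 p (fun V => T V i) S S' else 0)
        else 0)) := by
        rw [Finset.sum_comm]
        apply Finset.sum_congr rfl; intro S _
        rw [Finset.sum_comm]
    _ = (∑ S, ∑ S', wt θ S * wt θ S' * (big s S + big s S')) * (∑ i, |T ∅ i| ^ p) +
        16 ^ p * ∑ S, ∑ S', (if S.card ≤ s then (if S'.card ≤ s then
          wt θ S * wt θ S' * (def1 p T S + def2 p T S S') else 0) else 0) := by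
        rw [Finset.sum_mul, Finset.mul_sum, ← Finset.sum_add_distrib]
        apply Finset.sum_congr rfl; intro S _
        rw [Finset.sum_mul, Finset.mul_sum, ← Finset.sum_add_distrib]
        apply Finset.sum_congr rfl; intro S' _
        rw [def_eq]
        by_cases h1 : S.card ≤ s
        · by_cases h2 : S'.card ≤ s
          · simp only [if_pos h1, if_pos h2]
            simp only [Finset.mul_sum]
            rw [← Finset.sum_add_distrib]
            apply Finset.sum_congr rfl; intro i _; ring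
          · simp only [if_pos h1, if_neg h2, mul_zero, add_zero]
            simp only [Finset.mul_sum]
            apply Finset.sum_congr rfl; intro i _; ring
        · simp only [if_neg h1, mul_zero, add_zero]
          simp only [Finset.mul_sum]
          apply Finset.sum_congr rfl; intro i _; ring
    _ ≤ 2 * tail θ d s * (∑ i, |T ∅ i| ^ p) + 16 ^ p * (δ * ∑ i, |T ∅ i| ^ p) := by
        rw [hb]
        have e : ∑ S : Finset (Fin d), ∑ S' : Finset (Fin d),
            (if S.card ≤ s then (if S'.card ≤ s then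
            wt θ S * wt θ S' * (def1 p T S + def2 p T S S') else 0) else 0) =
            ∑ S ∈ univ.filter (fun S : Finset (Fin d) => S.card ≤ s),
              ∑ S' ∈ univ.filter (fun S : Finset (Fin d) => S.card ≤ s),
              wt θ S * wt θ S' * (def1 p T S + def2 p T S S') := by
          rw [Finset.sum_filter]
          apply Finset.sum_congr rfl; intro S _
          by_cases h1 : S.card ≤ s
          · simp only [if_pos h1]
            rw [Finset.sum_filter]
          · simp only [if_neg h1, Finset.sum_const_zero]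
        rw [e]
        have := mul_le_mul_of_nonneg_left hP h16.le
        linarith
    _ = _ := by ring

lemma sum_def1_le {p θ δ H₀ : ℝ} (s : ℕ)
    {ι : Type} [Fintype ι] (T : Finset (Fin d) → ι → ℝ) (hθ0 : 0 < θ) (hθ1 : θ < 1)
    (hP : Peaked p δ H₀ θ d s T) :
    (1 - tail θ d s) * ∑ S ∈ univ.filter (fun S : Finset (Fin d) => S.card ≤ s),
      wt θ S * def1 p T S ≤ δ * ∑ i, |T ∅ i| ^ p := by
  refine le_trans ?_ hP.2
  rw [← sum_small, Finset.mul_sum]
  apply Finset.sum_le_sum
  intro S _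
  rw [Finset.sum_mul]
  apply Finset.sum_le_sum
  intro S' _
  have h2 : 0 ≤ def2 p T S S' := by
    unfold def2
    apply Finset.sum_nonneg
    intro i _
    apply add_nonneg
    · exact Real.rpow_nonneg (min_abs_nonneg _ _) _
    · exact Real.rpow_nonneg (min_abs_nonneg _ _) _
  have h3 := mul_nonneg (wt_nonneg hθ0 hθ1 S) (wt_nonneg hθ0 hθ1 S')
  have h4 := mul_nonneg h3 h2
  calc _ = wt θ S * wt θ S' * def1 p T S := by ring
    _ ≤ _ := by rw [mul_add]; linarith

lemma sh_or (h : ℝ) : sh h = 1 ∨ sh h = -1 := by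
  unfold sh; split_ifs <;> simp

lemma walsh_or (S : Finset (Fin d)) (y : Cube d) : walsh S y = 1 ∨ walsh S y = -1 := by
  unfold walsh
  induction S using Finset.induction_on with
  | empty => left; simp
  | insert a S ha ih =>
    rw [Finset.prod_insert ha]
    have : sg (y a) = 1 ∨ sg (y a) = -1 := by unfold sg; split_ifs <;> simp
    rcases this with h | h <;> rcases ih with h' | h' <;> rw [h, h'] <;> norm_num

lemma good_lb {p θ : ℝ} (hp : 1 < p) (hθ0 : 0 < θ) (hθ1 : θ < 1) (s : ℕ)
    (t : Finset (Fin d) → ℝ) (h0 : t ∅ ≠ 0) (y : Cube d) (k e : ℝ) (hk : k = 1 ∨ k = -1)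
    (hy : ∑ S, wt θ S * (if FF s t S = k * walsh S y then 0 else 1) ≤ e) :
    7 / 8 * |t ∅| ^ p * (1 - tail θ d s) - 3 * |t ∅| ^ p * e -
      16 ^ p * ∑ S ∈ univ.filter (fun S : Finset (Fin d) => S.card ≤ s),
        wt θ S * (min |(t ∅ + t S) / 2| |(t ∅ - t S) / 2|) ^ p ≤
    ∑ S ∈ univ.filter (fun S : Finset (Fin d) => S.card ≤ s),
      wt θ S * (|t ∅| ^ (p - 1) * (k * walsh S y) * (sh (t ∅) * t S)) := by
  have hg : ∀ S : Finset (Fin d), k * walsh S y = 1 ∨ k * walsh S y = -1 := by
    intro S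
    rcases hk with h | h <;> rcases walsh_or S y with h' | h' <;> rw [h, h'] <;> norm_num
  have hA : 0 ≤ |t ∅| ^ p := Real.rpow_nonneg (abs_nonneg _) _
  have e1 : ∑ S ∈ univ.filter (fun S : Finset (Fin d) => S.card ≤ s),
      wt θ S * (if rs (t ∅) (t S) = k * walsh S y then (0 : ℝ) else 1) ≤ e := by
    refine le_trans ?_ hy
    calc _ = ∑ S ∈ univ.filter (fun S : Finset (Fin d) => S.card ≤ s),
          wt θ S * (if FF s t S = k * walsh S y then (0 : ℝ) else 1) := by
          apply Finset.sum_congr rfl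
          intro S hS
          have hS' : S.card ≤ s := (Finset.mem_filter.mp hS).2
          unfold FF
          rw [if_pos hS']
      _ ≤ _ := by
          apply Finset.sum_le_sum_of_subset_of_nonneg (Finset.filter_subset _ _)
          intro S _ _
          apply mul_nonneg (wt_nonneg hθ0 hθ1 S)
          split_ifs <;> norm_num
  calc _ ≤ 7 / 8 * |t ∅| ^ p * (∑ S ∈ univ.filter (fun S : Finset (Fin d) => S.card ≤ s), wt θ S)
        - 3 * |t ∅| ^ p * (∑ S ∈ univ.filter (fun S : Finset (Fin d) => S.card ≤ s),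
          wt θ S * (if rs (t ∅) (t S) = k * walsh S y then (0 : ℝ) else 1)) -
      16 ^ p * ∑ S ∈ univ.filter (fun S : Finset (Fin d) => S.card ≤ s),
        wt θ S * (min |(t ∅ + t S) / 2| |(t ∅ - t S) / 2|) ^ p := by
        rw [sum_small]
        have := mul_le_mul_of_nonneg_left e1 (by positivity : (0 : ℝ) ≤ 3 * |t ∅| ^ p)
        linarith
    _ = ∑ S ∈ univ.filter (fun S : Finset (Fin d) => S.card ≤ s), wt θ S *
        (7 / 8 * |t ∅| ^ p - 3 * |t ∅| ^ p *
          (if rs (t ∅) (t S) = k * walsh S y then 0 else 1) -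
        16 ^ p * (min |(t ∅ + t S) / 2| |(t ∅ - t S) / 2|) ^ p) := by
        rw [Finset.mul_sum, Finset.mul_sum, Finset.mul_sum, ← Finset.sum_sub_distrib,
          ← Finset.sum_sub_distrib]
        apply Finset.sum_congr rfl
        intro S _
        ring
    _ ≤ _ := by
        apply Finset.sum_le_sum
        intro S _
        exact mul_le_mul_of_nonneg_left (term_lb hp h0 (hg S)) (wt_nonneg hθ0 hθ1 S)

end StartAux

open StartAux in
theorem specStart_of (hPT : SpecPT) : SpecStart := by
  intro p hp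
  have h16 : (0 : ℝ) < 16 ^ p := by positivity
  refine ⟨(16 : ℝ) ^ (-p) / 20000, 1 / 20000, by positivity, by norm_num, ?_⟩
  intro d s θ hθ0 hθ1 htail ι _ T H₀ hH₀ hPk
  classical
  have hδ : (16 : ℝ) ^ p * ((16 : ℝ) ^ (-p) / 20000) = 1 / 20000 := by
    rw [Real.rpow_neg (by norm_num)]
    field_simp
  set H : ℝ := ∑ i, |T ∅ i| ^ p with hH
  have hHpos : 0 < H := lt_of_lt_of_le hH₀ hPk.1
  set fl : ι → ℝ := fun i => fail θ s (fun V => T V i) with hfl
  have hfl0 : ∀ i, 0 ≤ fl i := fun i => fail_nonneg hθ0 hθ1 s _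
  have hA : ∀ i, 0 ≤ |T ∅ i| ^ p := fun i => Real.rpow_nonneg (abs_nonneg _) _
  have htail0 : 0 ≤ tail θ d s := by
    unfold tail
    exact Finset.sum_nonneg fun S _ => wt_nonneg hθ0 hθ1 S
  have htot : ∑ i, |T ∅ i| ^ p * fl i ≤ 3 / 20000 * H := by
    have h1 := total_fail hp s T hθ0 hθ1 hPk
    rw [hδ] at h1
    have h2 : (2 * tail θ d s + 1 / 20000) * H ≤ 3 / 20000 * H :=
      mul_le_mul_of_nonneg_right (by linarith) hHpos.le
    exact h1.trans h2
  have hgood : ∀ i, ∃ (y : Cube d) (k : ℝ), (k = 1 ∨ k = -1) ∧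
      (T ∅ i ≠ 0 ∧ 2 * fl i ≤ 1 / 500 → ∑ S, wt θ S *
        (if FF s (fun V => T V i) S = k * walsh S y then 0 else 1) ≤ 5 * (2 * fl i)) := by
    intro i
    by_cases h : T ∅ i ≠ 0 ∧ 2 * fl i ≤ 1 / 500
    · obtain ⟨y, k, hk, hy⟩ := hPT d θ hθ0 hθ1 (FF s (fun V => T V i)) (FF_or s _) (2 * fl i)
        h.2 (fun W => swap_le hθ0 hθ1 s (fun V => T V i) h.1 W)
      exact ⟨y, k, hk, fun _ => hy⟩
    · exact ⟨fun _ => true, 1, Or.inl rfl, fun a => absurd a h⟩
  choose P k hk hPP using hgood
  set c : ℝ := H ^ ((p - 1) / p) with hc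
  have hc0 : 0 < c := Real.rpow_pos_of_pos hHpos _
  refine ⟨fun i => if T ∅ i ≠ 0 ∧ 2 * fl i ≤ 1 / 500 then
    k i * |T ∅ i| ^ (p - 1) * sh (T ∅ i) / c else 0, P, ?_, ?_⟩
  · -- norm
    have hpp : (0 : ℝ) < p / (p - 1) := div_pos (by linarith) (by linarith)
    have h1 : ∀ i, |(if T ∅ i ≠ 0 ∧ 2 * fl i ≤ 1 / 500 then
        k i * |T ∅ i| ^ (p - 1) * sh (T ∅ i) / c else 0)| ^ (p / (p - 1)) ≤ |T ∅ i| ^ p / H := by
      intro i
      split_ifs with h
      · have e1 : |k i| = 1 := by rcases hk i with h' | h' <;> rw [h'] <;> norm_num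
        have e2 : |sh (T ∅ i)| = 1 := by
          rcases sh_or (T ∅ i) with h' | h' <;> rw [h'] <;> norm_num
        have e3 : |(|T ∅ i| ^ (p - 1))| = |T ∅ i| ^ (p - 1) :=
          abs_of_nonneg (Real.rpow_nonneg (abs_nonneg _) _)
        rw [abs_div, abs_mul, abs_mul, e1, e2, e3, abs_of_pos hc0, one_mul, mul_one,
          Real.div_rpow (Real.rpow_nonneg (abs_nonneg _) _) hc0.le,
          ← Real.rpow_mul (abs_nonneg _), hc, ← Real.rpow_mul hHpos.le]
        have e4 : (p - 1) * (p / (p - 1)) = p := by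
          have : p - 1 ≠ 0 := by linarith
          field_simp
        have e5 : (p - 1) / p * (p / (p - 1)) = 1 := by
          have : p - 1 ≠ 0 := by linarith
          have : p ≠ 0 := by linarith
          field_simp
        rw [e4, e5, Real.rpow_one]
      · rw [abs_zero, Real.zero_rpow hpp.ne']
        exact div_nonneg (hA i) hHpos.le
    calc _ ≤ ∑ i, |T ∅ i| ^ p / H := Finset.sum_le_sum fun i _ => h1 i
      _ = 1 := by rw [← Finset.sum_div, ← hH]; exact div_self hHpos.ne'
  · -- main estimate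
    have hdef1 : (16 : ℝ) ^ p * ∑ S ∈ univ.filter (fun S : Finset (Fin d) => S.card ≤ s),
        wt θ S * def1 p T S ≤ 2 / 20000 * H := by
      have h1 := sum_def1_le s T hθ0 hθ1 hPk
      set Q := ∑ S ∈ univ.filter (fun S : Finset (Fin d) => S.card ≤ s), wt θ S * def1 p T S
        with hQ
      have hQ0 : 0 ≤ Q := by
        apply Finset.sum_nonneg
        intro S _
        apply mul_nonneg (wt_nonneg hθ0 hθ1 S)
        unfold def1
        exact Finset.sum_nonneg fun i _ => Real.rpow_nonneg (min_abs_nonneg _ _) _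
      have h2 : 1 / 2 * Q ≤ (1 - tail θ d s) * Q :=
        mul_le_mul_of_nonneg_right (by linarith) hQ0
      have h3 : 16 ^ p * (1 / 2 * Q) ≤ 16 ^ p * ((16 : ℝ) ^ (-p) / 20000 * H) :=
        mul_le_mul_of_nonneg_left (h2.trans h1) h16.le
      have h4 : (16 : ℝ) ^ p * ((16 : ℝ) ^ (-p) / 20000 * H) = 1 / 20000 * H := by
        rw [← mul_assoc, hδ]
      rw [h4] at h3
      linarith
    -- mass of the good coordinates
    have hmass : 17 / 20 * H ≤ ∑ i, if T ∅ i ≠ 0 ∧ 2 * fl i ≤ 1 / 500 then |T ∅ i| ^ p else 0 := by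
      have h1 : ∀ i, |T ∅ i| ^ p - 1000 * (|T ∅ i| ^ p * fl i) ≤
          if T ∅ i ≠ 0 ∧ 2 * fl i ≤ 1 / 500 then |T ∅ i| ^ p else 0 := by
        intro i
        split_ifs with h
        · have := mul_nonneg (hA i) (hfl0 i)
          linarith
        · by_cases h0 : T ∅ i = 0
          · rw [h0, abs_zero, Real.zero_rpow (by linarith)]
            simp
          · have h2 : ¬ 2 * fl i ≤ 1 / 500 := fun h' => h ⟨h0, h'⟩
            push Not at h2
            have := hA i
            nlinarith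
      have h2 := Finset.sum_le_sum fun i (_ : i ∈ (univ : Finset ι)) => h1 i
      rw [Finset.sum_sub_distrib, ← Finset.mul_sum, ← hH] at h2
      linarith
    -- lower bound coordinatewise
    have hco : ∀ i, (if T ∅ i ≠ 0 ∧ 2 * fl i ≤ 1 / 500 then |T ∅ i| ^ p else 0) *
          (7 / 8 * (1 - tail θ d s)) - 30 * (|T ∅ i| ^ p * fl i) -
          16 ^ p * ∑ S ∈ univ.filter (fun S : Finset (Fin d) => S.card ≤ s),
            wt θ S * (min |(T ∅ i + T S i) / 2| |(T ∅ i - T S i) / 2|) ^ p ≤
        c * ∑ S ∈ univ.filter (fun S : Finset (Fin d) => S.card ≤ s), wt θ S *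
          ((if T ∅ i ≠ 0 ∧ 2 * fl i ≤ 1 / 500 then
            k i * |T ∅ i| ^ (p - 1) * sh (T ∅ i) / c else 0) * walsh S (P i) * T S i) := by
      intro i
      have hm0 : 0 ≤ ∑ S ∈ univ.filter (fun S : Finset (Fin d) => S.card ≤ s),
            wt θ S * (min |(T ∅ i + T S i) / 2| |(T ∅ i - T S i) / 2|) ^ p :=
        Finset.sum_nonneg fun S _ => mul_nonneg (wt_nonneg hθ0 hθ1 S)
          (Real.rpow_nonneg (min_abs_nonneg _ _) _)
      by_cases h : T ∅ i ≠ 0 ∧ 2 * fl i ≤ 1 / 500
      · simp only [if_pos h]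
        have h1 := good_lb hp hθ0 hθ1 s (fun V => T V i) h.1 (P i) (k i) _ (hk i) (hPP i h)
        have h2 : c * ∑ S ∈ univ.filter (fun S : Finset (Fin d) => S.card ≤ s), wt θ S *
          ((k i * |T ∅ i| ^ (p - 1) * sh (T ∅ i) / c) * walsh S (P i) * T S i) =
          ∑ S ∈ univ.filter (fun S : Finset (Fin d) => S.card ≤ s),
            wt θ S * (|T ∅ i| ^ (p - 1) * (k i * walsh S (P i)) * (sh (T ∅ i) * T S i)) := by
          rw [Finset.mul_sum]
          apply Finset.sum_congr rfl
          intro S _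
          field_simp
        rw [h2]
        refine le_trans (le_of_eq ?_) h1
        ring
      · simp only [if_neg h]
        have := mul_nonneg (hA i) (hfl0 i)
        have := mul_nonneg h16.le hm0
        simp only [zero_mul, mul_zero, Finset.sum_const_zero]
        linarith
    have hsum := Finset.sum_le_sum fun i (_ : i ∈ (univ : Finset ι)) => hco i
    rw [Finset.sum_sub_distrib, Finset.sum_sub_distrib, ← Finset.sum_mul, ← Finset.mul_sum,
      ← Finset.mul_sum, ← Finset.mul_sum] at hsum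
    have hswap1 : ∑ i, ∑ S ∈ univ.filter (fun S : Finset (Fin d) => S.card ≤ s),
            wt θ S * (min |(T ∅ i + T S i) / 2| |(T ∅ i - T S i) / 2|) ^ p =
        ∑ S ∈ univ.filter (fun S : Finset (Fin d) => S.card ≤ s), wt θ S * def1 p T S := by
      rw [Finset.sum_comm]
      apply Finset.sum_congr rfl
      intro S _
      unfold def1
      rw [Finset.mul_sum]
    have hswap2 : ∑ i, ∑ S ∈ univ.filter (fun S : Finset (Fin d) => S.card ≤ s), wt θ S *
          ((if T ∅ i ≠ 0 ∧ 2 * fl i ≤ 1 / 500 then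
            k i * |T ∅ i| ^ (p - 1) * sh (T ∅ i) / c else 0) * walsh S (P i) * T S i) =
        ∑ S ∈ univ.filter (fun S : Finset (Fin d) => S.card ≤ s), wt θ S * ∑ i,
          (if T ∅ i ≠ 0 ∧ 2 * fl i ≤ 1 / 500 then
            k i * |T ∅ i| ^ (p - 1) * sh (T ∅ i) / c else 0) * walsh S (P i) * T S i := by
      rw [Finset.sum_comm]
      apply Finset.sum_congr rfl
      intro S _
      rw [Finset.mul_sum]
    rw [hswap1, hswap2] at hsum
    set R := ∑ S ∈ univ.filter (fun S : Finset (Fin d) => S.card ≤ s), wt θ S * ∑ i,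
          (if T ∅ i ≠ 0 ∧ 2 * fl i ≤ 1 / 500 then
            k i * |T ∅ i| ^ (p - 1) * sh (T ∅ i) / c else 0) * walsh S (P i) * T S i with hR
    have hfac : (17 / 20 * H) * (7 / 8 * (1 - 1 / 20000)) ≤
        (∑ i, if T ∅ i ≠ 0 ∧ 2 * fl i ≤ 1 / 500 then |T ∅ i| ^ p else 0) *
          (7 / 8 * (1 - tail θ d s)) := by
      apply mul_le_mul hmass (by linarith) (by norm_num)
      exact le_trans (by positivity) hmass
    have hcR : 1 / 4 * H ≤ c * R := by linarith
    have hcc : H = c * H ^ (1 / p) := by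
      rw [hc, ← Real.rpow_add hHpos]
      have : (p - 1) / p + 1 / p = 1 := by
        have : p ≠ 0 := by linarith
        field_simp
        ring
      rw [this, Real.rpow_one]
    have h1 : c * (1 / 4 * H ^ (1 / p)) ≤ c * R := by
      calc c * (1 / 4 * H ^ (1 / p)) = 1 / 4 * (c * H ^ (1 / p)) := by ring
        _ = 1 / 4 * H := by rw [← hcc]
        _ ≤ _ := hcR
    have h2 : 1 / 4 * H ^ (1 / p) ≤ R := le_of_mul_le_mul_left h1 hc0
    have h3 : H₀ ^ (1 / p) ≤ H ^ (1 / p) :=
      Real.rpow_le_rpow hH₀.le hPk.1 (by positivity)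
    linarith

end Vale.Agent.P249.SP
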