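import Vale.Agent.P249.SP.Spec

/-!
# P249: TAIL, BRIDGE and COUNT (helper644)
-/

open Finset
open scoped BigOperators symmDiff

namespace Vale.Agent.P249.SP

theorem tl_wt_nonneg {θ : ℝ} (h0 : 0 ≤ θ) (h1 : θ ≤ 1) {d : ℕ} (S : Finset (Fin d)) :
    0 ≤ wt θ S := by
  have : 0 ≤ 1 - θ := by linarith
  unfold wt
  positivity

/-- the sum of `a ^ |S| b ^ (d - |S|)` over all subsets -/
theorem tl_sum_pow_fin (a b : ℝ) (d : ℕ) :
    ∑ S : Finset (Fin d), a ^ S.card * b ^ (d - S.card) = (a + b) ^ d := by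
  have h := Fintype.sum_pow_mul_eq_add_pow (Fin d) a b
  rwa [Fintype.card_fin] at h

theorem tl_exp_half_le : Real.exp (1 / 2) ≤ 5 / 3 := by
  have h1 : Real.exp (1 / 2) ^ 2 = Real.exp 1 := by
    rw [← Real.exp_nat_mul]; norm_num
  have h2 := Real.exp_one_lt_d9
  nlinarith [Real.exp_pos (1 / 2)]

theorem specTail : SpecTail := by
  intro d s z h0 h1 hz
  have hE : ∑ S : Finset (Fin d), wt z S * 2 ^ S.card = (1 + z) ^ d := by
    have h := tl_sum_pow_fin (2 * z) (1 - z) d
    rw [show 2 * z + (1 - z) = 1 + z by ring] at h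
    rw [← h]
    refine Finset.sum_congr rfl fun S _ => ?_
    unfold wt
    rw [mul_pow]
    ring
  have h2 : tail z d s * 2 ^ s ≤ (1 + z) ^ d := by
    rw [← hE]
    unfold tail
    rw [Finset.sum_mul]
    calc ∑ S ∈ univ.filter (fun S : Finset (Fin d) => s < S.card), wt z S * 2 ^ s
        ≤ ∑ S ∈ univ.filter (fun S : Finset (Fin d) => s < S.card), wt z S * 2 ^ S.card := by
          refine Finset.sum_le_sum fun S hS => ?_
          rw [Finset.mem_filter] at hS
          exact mul_le_mul_of_nonneg_left (pow_le_pow_right₀ (by norm_num) hS.2.le)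
            (tl_wt_nonneg h0 h1 S)
      _ ≤ ∑ S : Finset (Fin d), wt z S * 2 ^ S.card :=
          Finset.sum_le_sum_of_subset_of_nonneg (Finset.filter_subset _ _)
            fun S _ _ => mul_nonneg (tl_wt_nonneg h0 h1 S) (by positivity)
  have h3 : (1 + z) ^ d ≤ (5 / 3 : ℝ) ^ s := by
    calc (1 + z) ^ d ≤ (Real.exp z) ^ d :=
          pow_le_pow_left₀ (by linarith) (by linarith [Real.add_one_le_exp z]) d
      _ = Real.exp (d * z) := by rw [Real.exp_nat_mul]
      _ ≤ Real.exp (s * (1 / 2)) := by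
          refine Real.exp_le_exp.2 ?_
          linarith
      _ = Real.exp (1 / 2) ^ s := by rw [Real.exp_nat_mul]
      _ ≤ (5 / 3 : ℝ) ^ s := pow_le_pow_left₀ (Real.exp_pos _).le tl_exp_half_le s
  have h4 : (5 / 6 : ℝ) ^ s * 2 ^ s = (5 / 3) ^ s := by
    rw [← mul_pow]; norm_num
  have h5 : tail z d s * 2 ^ s ≤ (5 / 6 : ℝ) ^ s * 2 ^ s := by
    rw [h4]; exact h2.trans h3
  exact le_of_mul_le_mul_right h5 (by positivity)

/-- Bernoulli(z/2) as a random half of a Bernoulli(z) set -/
theorem tl_wt_half (z : ℝ) {d : ℕ} (S : Finset (Fin d)) :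
    ∑ B ∈ univ.filter (fun B : Finset (Fin d) => S ⊆ B), wt z B * (1 / 2) ^ B.card =
      wt (z / 2) S := by
  classical
  have h1 : ∑ B ∈ univ.filter (fun B : Finset (Fin d) => S ⊆ B), wt z B * (1 / 2) ^ B.card =
      ∑ B' ∈ (Sᶜ).powerset, wt z (S ∪ B') * (1 / 2) ^ (S ∪ B').card := by
    refine Finset.sum_bij' (fun B _ => B \ S) (fun B' _ => S ∪ B') ?_ ?_ ?_ ?_ ?_
    · intro B hB
      rw [Finset.mem_powerset]
      intro x hx
      rw [Finset.mem_sdiff] at hx
      exact Finset.mem_compl.2 hx.2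
    · intro B' _
      rw [Finset.mem_filter]
      exact ⟨Finset.mem_univ _, Finset.subset_union_left⟩
    · intro B hB
      rw [Finset.mem_filter] at hB
      exact Finset.union_sdiff_of_subset hB.2
    · intro B' hB'
      rw [Finset.mem_powerset] at hB'
      ext x
      simp only [Finset.mem_sdiff, Finset.mem_union]
      constructor
      · rintro ⟨h | h, h'⟩
        · exact absurd h h'
        · exact h
      · intro h
        exact ⟨Or.inr h, Finset.mem_compl.1 (hB' h)⟩
    · intro B hB
      rw [Finset.mem_filter] at hB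
      rw [Finset.union_sdiff_of_subset hB.2]
  rw [h1]
  have hcard : ∀ B' ∈ (Sᶜ).powerset, (S ∪ B').card = S.card + B'.card := by
    intro B' hB'
    rw [Finset.mem_powerset] at hB'
    refine Finset.card_union_of_disjoint ?_
    rw [Finset.disjoint_left]
    intro x hx hx'
    exact Finset.mem_compl.1 (hB' hx') hx
  have hc : (Sᶜ).card = d - S.card := by
    rw [Finset.card_compl, Fintype.card_fin]
  have h2 : ∀ B' ∈ (Sᶜ).powerset, wt z (S ∪ B') * (1 / 2) ^ (S ∪ B').card =
      (z / 2) ^ S.card * ((z / 2) ^ B'.card * (1 - z) ^ ((Sᶜ).card - B'.card)) := by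
    intro B' hB'
    unfold wt
    rw [hcard B' hB', hc, Nat.sub_sub]
    have : (z / 2) ^ S.card * ((z / 2) ^ B'.card * (1 - z) ^ (d - (S.card + B'.card))) =
        (z / 2) ^ (S.card + B'.card) * (1 - z) ^ (d - (S.card + B'.card)) := by
      rw [pow_add]; ring
    rw [this, div_eq_mul_one_div z 2, mul_pow]
    ring
  rw [Finset.sum_congr rfl h2, ← Finset.mul_sum, Finset.sum_pow_mul_eq_add_pow, hc]
  unfold wt
  rw [show z / 2 + (1 - z) = 1 - z / 2 by ring]

theorem specBridge : SpecBridge := by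
  classical
  intro d s z M h0 h1 hM X hX
  have hz2 : 0 ≤ z / 2 := by linarith
  -- first sum
  have e1 : (∑ B ∈ univ.filter (fun B : Finset (Fin d) => B.card ≤ s),
        wt z B * ((1 / 2) ^ B.card * ∑ S ∈ B.powerset, X S)) =
      ∑ S ∈ univ.filter (fun S : Finset (Fin d) => S.card ≤ s),
        (∑ B ∈ univ.filter (fun B : Finset (Fin d) => B.card ≤ s ∧ S ⊆ B),
          wt z B * (1 / 2) ^ B.card) * X S := by
    have a1 : ∀ B ∈ univ.filter (fun B : Finset (Fin d) => B.card ≤ s),
        wt z B * ((1 / 2) ^ B.card * ∑ S ∈ B.powerset, X S) =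
        ∑ S ∈ univ.filter (fun S : Finset (Fin d) => S.card ≤ s),
          if S ⊆ B then wt z B * (1 / 2) ^ B.card * X S else 0 := by
      intro B hB
      rw [Finset.mem_filter] at hB
      rw [← Finset.sum_filter, Finset.filter_filter, ← mul_assoc, Finset.mul_sum]
      refine Finset.sum_congr ?_ fun _ _ => rfl
      ext S
      simp only [Finset.mem_powerset, Finset.mem_filter, Finset.mem_univ, true_and]
      constructor
      · intro h
        exact ⟨(Finset.card_le_card h).trans hB.2, h⟩
      · exact fun h => h.2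
    rw [Finset.sum_congr rfl a1, Finset.sum_comm]
    refine Finset.sum_congr rfl fun S _ => ?_
    rw [← Finset.sum_filter, Finset.filter_filter, Finset.sum_mul]
  have e2 : ∑ S ∈ univ.filter (fun S : Finset (Fin d) => S.card ≤ s), wt (z / 2) S * X S =
      ∑ S ∈ univ.filter (fun S : Finset (Fin d) => S.card ≤ s),
        (∑ B ∈ univ.filter (fun B : Finset (Fin d) => B.card ≤ s ∧ S ⊆ B),
            wt z B * (1 / 2) ^ B.card) * X S +
      ∑ S ∈ univ.filter (fun S : Finset (Fin d) => S.card ≤ s),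
        (∑ B ∈ univ.filter (fun B : Finset (Fin d) => s < B.card ∧ S ⊆ B),
            wt z B * (1 / 2) ^ B.card) * X S := by
    rw [← Finset.sum_add_distrib]
    refine Finset.sum_congr rfl fun S _ => ?_
    rw [← add_mul, ← tl_wt_half z S]
    congr 1
    rw [← Finset.sum_filter_add_sum_filter_not
      (univ.filter (fun B : Finset (Fin d) => S ⊆ B)) (fun B => B.card ≤ s),
      Finset.filter_filter, Finset.filter_filter]
    congr 1
    · refine Finset.sum_congr ?_ fun _ _ => rfl
      ext B
      simp only [Finset.mem_filter, Finset.mem_univ, true_and]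
      tauto
    · refine Finset.sum_congr ?_ fun _ _ => rfl
      ext B
      simp only [Finset.mem_filter, Finset.mem_univ, true_and, not_le]
      tauto
  rw [e1, e2, sub_add_cancel_left, abs_neg]
  -- bound of the remaining sum
  calc |∑ S ∈ univ.filter (fun S : Finset (Fin d) => S.card ≤ s),
        (∑ B ∈ univ.filter (fun B : Finset (Fin d) => s < B.card ∧ S ⊆ B),
            wt z B * (1 / 2) ^ B.card) * X S|
      ≤ ∑ S ∈ univ.filter (fun S : Finset (Fin d) => S.card ≤ s),
        |(∑ B ∈ univ.filter (fun B : Finset (Fin d) => s < B.card ∧ S ⊆ B),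
            wt z B * (1 / 2) ^ B.card) * X S| := Finset.abs_sum_le_sum_abs _ _
    _ ≤ ∑ S ∈ univ.filter (fun S : Finset (Fin d) => S.card ≤ s),
        (∑ B ∈ univ.filter (fun B : Finset (Fin d) => s < B.card ∧ S ⊆ B),
            wt z B * (1 / 2) ^ B.card) * M := by
        refine Finset.sum_le_sum fun S hS => ?_
        rw [Finset.mem_filter] at hS
        have hn : 0 ≤ ∑ B ∈ univ.filter (fun B : Finset (Fin d) => s < B.card ∧ S ⊆ B),
            wt z B * (1 / 2) ^ B.card :=
          Finset.sum_nonneg fun B _ => mul_nonneg (tl_wt_nonneg h0 h1 B) (by positivity)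
        rw [abs_mul, abs_of_nonneg hn]
        exact mul_le_mul_of_nonneg_left (hX S hS.2) hn
    _ ≤ ∑ S : Finset (Fin d),
        (∑ B ∈ univ.filter (fun B : Finset (Fin d) => s < B.card ∧ S ⊆ B),
            wt z B * (1 / 2) ^ B.card) * M :=
        Finset.sum_le_sum_of_subset_of_nonneg (Finset.filter_subset _ _)
          fun S _ _ => mul_nonneg (Finset.sum_nonneg fun B _ =>
            mul_nonneg (tl_wt_nonneg h0 h1 B) (by positivity)) hM
    _ = M * tail z d s := by
        rw [← Finset.sum_mul, mul_comm]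
        congr 1
        unfold tail
        have a2 : ∀ S : Finset (Fin d),
            ∑ B ∈ univ.filter (fun B : Finset (Fin d) => s < B.card ∧ S ⊆ B),
              wt z B * (1 / 2) ^ B.card =
            ∑ B ∈ univ.filter (fun B : Finset (Fin d) => s < B.card),
              if S ⊆ B then wt z B * (1 / 2) ^ B.card else 0 := by
          intro S
          rw [← Finset.sum_filter, Finset.filter_filter]
        rw [Finset.sum_congr rfl fun S _ => a2 S, Finset.sum_comm]
        refine Finset.sum_congr rfl fun B _ => ?_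
        rw [← Finset.sum_filter, Finset.sum_const]
        have : (univ.filter fun S : Finset (Fin d) => S ⊆ B) = B.powerset := by
          ext S
          simp
        rw [this, Finset.card_powerset, nsmul_eq_mul]
        push_cast
        have h2 : (2 : ℝ) ^ B.card * (1 / 2) ^ B.card = 1 := by
          rw [← mul_pow]; norm_num
        calc (2 : ℝ) ^ B.card * (wt z B * (1 / 2) ^ B.card)
            = wt z B * ((2 : ℝ) ^ B.card * (1 / 2) ^ B.card) := by ring
          _ = wt z B := by rw [h2, mul_one]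

theorem specCount : SpecCount := by
  intro J m₀ s hJ
  have hJ' : (1 : ℝ) ≤ J := by exact_mod_cast hJ
  have hJ0 : (0 : ℝ) < J := by linarith
  have h1 : (NN (J * s) (m₀ * s) : ℝ) ≤ (J : ℝ) ^ (m₀ * s) * (1 + 1 / (J : ℝ)) ^ (J * s) := by
    have h2 := tl_sum_pow_fin (1 / (J : ℝ)) 1 (J * s)
    simp only [one_pow, mul_one] at h2
    rw [add_comm (1 : ℝ), ← h2, Finset.mul_sum]
    unfold NN
    calc (((univ.filter fun S : Finset (Fin (J * s)) => S.card ≤ m₀ * s).card : ℕ) : ℝ)
        = ∑ S ∈ univ.filter (fun S : Finset (Fin (J * s)) => S.card ≤ m₀ * s), (1 : ℝ) := by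
          simp
      _ ≤ ∑ S ∈ univ.filter (fun S : Finset (Fin (J * s)) => S.card ≤ m₀ * s),
            (J : ℝ) ^ (m₀ * s) * (1 / (J : ℝ)) ^ S.card := by
          refine Finset.sum_le_sum fun S hS => ?_
          rw [Finset.mem_filter] at hS
          rw [one_div, inv_pow, ← div_eq_mul_inv, le_div_iff₀ (by positivity), one_mul]
          exact pow_le_pow_right₀ hJ' hS.2
      _ ≤ ∑ S : Finset (Fin (J * s)), (J : ℝ) ^ (m₀ * s) * (1 / (J : ℝ)) ^ S.card :=
          Finset.sum_le_sum_of_subset_of_nonneg (Finset.filter_subset _ _)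
            fun S _ _ => by positivity
  have h3 : (1 + 1 / (J : ℝ)) ^ (J * s) ≤ Real.exp 1 ^ s := by
    rw [pow_mul]
    refine pow_le_pow_left₀ (by positivity) ?_ s
    calc (1 + 1 / (J : ℝ)) ^ J ≤ (Real.exp (1 / J)) ^ J :=
          pow_le_pow_left₀ (by positivity) (by linarith [Real.add_one_le_exp (1 / (J : ℝ))]) J
      _ = Real.exp 1 := by
          rw [← Real.exp_nat_mul, mul_one_div_cancel hJ0.ne']
  calc (NN (J * s) (m₀ * s) : ℝ) ≤ (J : ℝ) ^ (m₀ * s) * (1 + 1 / (J : ℝ)) ^ (J * s) := h1
    _ ≤ (J : ℝ) ^ (m₀ * s) * Real.exp 1 ^ s := mul_le_mul_of_nonneg_left h3 (by positivity)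
    _ = (Real.exp 1 * (J : ℝ) ^ m₀) ^ s := by
        rw [mul_pow, pow_mul]
        ring

end Vale.Agent.P249.SP
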