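import Vale.Agent.P249.SP.UniA

/-!
# P249, block UNI: the test family (StFam)
-/

open Finset
open scoped BigOperators symmDiff

namespace Vale.Agent.P249.SP

open Vale.Agent.P249.SP.Uni

set_option linter.unusedSectionVars false

/-- `Φ` is a finite positive combination of evaluations at dyadic universes -/
def Rep {d : ℕ} (s n l : ℕ) (Φ : (Co d → ℝ) → ℝ) : Prop :=
  ∃ (T : Type) (_ : Fintype T) (π : T → ℝ) (b : T → Finset (Fin d) → ℤ),
    (∀ t, 0 ≤ π t) ∧ (∀ t S, n * s < S.card → b t S = 0) ∧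
    (∀ t, ∑ S, |(b t S : ℝ)| ≤ 2 ^ l) ∧
    ∀ f, Φ f = ∑ t, π t * f (fun S => (b t S : ℝ) / 2 ^ l)

lemma rep_zero (d s : ℕ) : Rep (d := d) s 0 0 (fun f => f (one' d)) := by
  refine ⟨Unit, inferInstance, fun _ => 1, fun _ S => if S = ∅ then 1 else 0, fun _ => zero_le_one,
    fun _ S hS => ?_, fun _ => ?_, fun f => ?_⟩
  · have : S ≠ ∅ := by
      rintro rfl
      simp at hS
    simp [this]
  · simp [apply_ite abs]
  · simp only [Finset.univ_unique, Finset.sum_singleton, one_mul, pow_zero, div_one]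
    congr 1
    funext S
    unfold one'
    split_ifs <;> simp

lemma rep_M {d : ℕ} {θ : ℝ} (h0 : 0 ≤ θ) (h1 : θ ≤ 1) {s n l : ℕ} {Φ : (Co d → ℝ) → ℝ}
    (h : Rep s n l Φ) : Rep s (n + 1) l (fun f => Φ (Mop θ s f)) := by
  obtain ⟨T, hT, π, b, hπ, hsupp, hl1, hrep⟩ := h
  refine ⟨T × {S // S ∈ sm d s}, inferInstance, fun t => π t.1 * wt θ t.2.1,
    fun t V => b t.1 (V ∆ t.2.1), fun t => mul_nonneg (hπ _) (Uni.wt_nonneg h0 h1 _),
    fun t V hV => ?_, fun t => ?_, fun f => ?_⟩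
  · apply hsupp
    have hS := mem_sm.mp t.2.2
    have h2 : V.card ≤ (V ∆ t.2.1).card + t.2.1.card := by
      conv_lhs => rw [← sd_sd V t.2.1]
      exact card_sd_le _ _
    have : (n + 1) * s = n * s + s := by ring
    omega
  · have := sum_sd t.2.1 fun V => |(b t.1 V : ℝ)|
    rw [this]
    exact hl1 t.1
  · simp only
    rw [hrep, Fintype.sum_prod_type]
    refine Finset.sum_congr rfl fun t _ => ?_
    unfold Mop
    rw [← Finset.sum_coe_sort (sm d s), Finset.mul_sum]
    refine Finset.sum_congr rfl fun S _ => ?_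
    rw [mul_assoc]
    rfl

lemma rep_A {d : ℕ} {θ : ℝ} (h0 : 0 ≤ θ) (h1 : θ ≤ 1) {s n l : ℕ} {Φ : (Co d → ℝ) → ℝ}
    (h : Rep s n l Φ) : Rep s (n + 1) (l + 1) (fun f => Φ (Aop θ s f)) := by
  obtain ⟨T, hT, π, b, hπ, hsupp, hl1, hrep⟩ := h
  refine ⟨T × {S // S ∈ sm d s} × Bool, inferInstance, fun t => π t.1 * wt θ t.2.1.1,
    fun t V => b t.1 V + (if t.2.2 then 1 else -1) * b t.1 (V ∆ t.2.1.1),
    fun t => mul_nonneg (hπ _) (Uni.wt_nonneg h0 h1 _), fun t V hV => ?_, fun t => ?_, fun f => ?_⟩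
  · have hS := mem_sm.mp t.2.1.2
    have h2 : V.card ≤ (V ∆ t.2.1.1).card + t.2.1.1.card := by
      conv_lhs => rw [← sd_sd V t.2.1.1]
      exact card_sd_le _ _
    have h3 : (n + 1) * s = n * s + s := by ring
    have h4 := hsupp t.1 V (by omega)
    have h5 := hsupp t.1 (V ∆ t.2.1.1) (by omega)
    simp only [h4, h5]
    simp
  · have h2 : ∀ V : Finset (Fin d), |((b t.1 V + (if t.2.2 then 1 else -1) *
        b t.1 (V ∆ t.2.1.1) : ℤ) : ℝ)| ≤ |(b t.1 V : ℝ)| + |(b t.1 (V ∆ t.2.1.1) : ℝ)| := by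
      intro V
      push_cast
      refine (abs_add_le _ _).trans (add_le_add le_rfl (le_of_eq ?_))
      rw [abs_mul]
      split_ifs <;> simp
    refine (Finset.sum_le_sum fun V _ => h2 V).trans ?_
    rw [Finset.sum_add_distrib, sum_sd t.2.1.1 fun V => |(b t.1 V : ℝ)|]
    have := hl1 t.1
    rw [pow_succ]
    linarith
  · simp only
    rw [hrep, Fintype.sum_prod_type]
    refine Finset.sum_congr rfl fun t _ => ?_
    unfold Aop
    rw [← Finset.sum_coe_sort (sm d s), Finset.mul_sum, Fintype.sum_prod_type]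
    refine Finset.sum_congr rfl fun S _ => ?_
    simp only [Fintype.sum_bool]
    have e1 : at' S.1 1 (fun S => (b t S : ℝ) / 2 ^ l) =
        fun V => ((b t V + (if true = true then 1 else -1) * b t (V ∆ S.1) : ℤ) : ℝ) /
          2 ^ (l + 1) := by
      funext V
      unfold at'
      push_cast
      rw [pow_succ, if_pos rfl]
      field_simp
    have e2 : at' S.1 (-1) (fun S => (b t S : ℝ) / 2 ^ l) =
        fun V => ((b t V + (if false = true then 1 else -1) * b t (V ∆ S.1) : ℤ) : ℝ) /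
          2 ^ (l + 1) := by
      funext V
      unfold at'
      push_cast
      rw [pow_succ]
      field_simp
    rw [e1, e2, ← mul_assoc, mul_add]
    simp

lemma rep_Phi {d : ℕ} {θ : ℝ} (h0 : 0 ≤ θ) (h1 : θ ≤ 1) (s R l : ℕ) :
    Rep (d := d) s (R + l) l (fun f => Phi θ s R l f) := by
  induction R with
  | zero =>
    induction l with
    | zero => exact rep_zero d s
    | succ l ih =>
      have := rep_A h0 h1 ih
      have h2 : (fun f : Co d → ℝ => Phi θ s 0 (l + 1) f) = fun f => Phi θ s 0 l (Aop θ s f) := by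
        funext f; rw [phi_succ_A]
      rw [h2]
      have h3 : 0 + l + 1 = 0 + (l + 1) := by omega
      rw [← h3]
      exact this
  | succ R ih =>
    have := rep_M h0 h1 ih
    have h2 : (fun f : Co d → ℝ => Phi θ s (R + 1) l f) = fun f => Phi θ s R l (Mop θ s f) := by
      funext f; rw [phi_succ_M]
    rw [h2]
    have h3 : R + l + 1 = R + 1 + l := by omega
    rw [← h3]
    exact this

lemma f0_scale {d : ℕ} {ι : Type} [Fintype ι] (p c : ℝ) (T : Finset (Fin d) → ι → ℝ) (b : Co d) :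
    f0 p T (fun S => b S / c) = f0 p T b / |c| ^ p := by
  unfold f0
  rw [Finset.sum_div]
  refine Finset.sum_congr rfl fun i _ => ?_
  have : lin T (fun S => b S / c) i = lin T b i / c := by
    unfold lin
    rw [Finset.sum_div]
    exact Finset.sum_congr rfl fun S _ => by ring
  rw [this, abs_div, Real.div_rpow (abs_nonneg _) (abs_nonneg _)]

lemma Nf_scale {d : ℕ} (p c : ℝ) (b : Co d) :
    Nf p (fun S => b S / c) = Nf p b / |c| ^ p := by
  have h : ∀ y, |poly (fun S => b S / c) y| ^ p = |poly b y| ^ p / |c| ^ p := by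
    intro y
    have : poly (fun S => b S / c) y = poly b y / c := by
      unfold poly
      rw [Finset.sum_div]
      exact Finset.sum_congr rfl fun S _ => by ring
    rw [this, abs_div, Real.div_rpow (abs_nonneg _) (abs_nonneg _)]
  unfold Nf
  rw [Finset.sum_congr rfl fun y _ => h y, ← Finset.sum_div]
  ring

theorem stFam : StFam := by
  intro p Λ θ hp h0 h1 d s K l m₀ hK hm hΛ hPs
  have hp0 : 0 < p := by linarith
  have hKpos : (0 : ℝ) < K := by exact_mod_cast hK
  obtain ⟨hP0, hP1, -⟩ := stP θ h0 h1 d s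
  choose T hT π b hπ hsupp hl1 hrep using fun R : ℕ => rep_Phi (d := d) h0.le h1.le s R l
  -- the averaged functional
  have key : ∀ f : Co d → ℝ, (∑ R ∈ range K, Phi θ s R l f) / K =
      ∑ t : (Σ R : Fin K, T R), (π t.1 t.2 / K) * f (fun S => (b t.1 t.2 S : ℝ) / 2 ^ l) := by
    intro f
    rw [Fintype.sum_sigma, Finset.sum_range fun R => Phi θ s R l f, Finset.sum_div]
    refine Finset.sum_congr rfl fun R _ => ?_
    have := hrep R f
    simp only at this
    rw [this, Finset.sum_div]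
    exact Finset.sum_congr rfl fun t _ => by ring
  have h2l : (0 : ℝ) < 2 ^ l := by positivity
  have habs : |(2 : ℝ) ^ l| = 2 ^ l := abs_of_pos h2l
  have hc : (0 : ℝ) < ((2 : ℝ) ^ l) ^ p := Real.rpow_pos_of_pos h2l p
  -- sums of masses
  have hone : ∑ t : (Σ R : Fin K, T R), (π t.1 t.2 / K) ≤ 2 ^ l := by
    have h3 := key (fun _ => 1)
    simp only [mul_one] at h3
    rw [← h3, div_le_iff₀ hKpos]
    have h4 : ∀ R ∈ range K, Phi θ s R l (fun _ : Co d => (1 : ℝ)) ≤ 2 ^ l := by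
      intro R _
      rw [(stPhi p θ hp h0 h1 d s R l).2]
      have h5 : Ps θ d s ^ R ≤ 1 := pow_le_one₀ hP0 hP1
      have h6 : (2 * Ps θ d s) ^ l ≤ 2 ^ l := pow_le_pow_left₀ (by linarith) (by linarith) l
      calc Ps θ d s ^ R * (2 * Ps θ d s) ^ l ≤ 1 * 2 ^ l :=
            mul_le_mul h5 h6 (by positivity) zero_le_one
        _ = 2 ^ l := one_mul _
    refine (Finset.sum_le_sum h4).trans (le_of_eq ?_)
    rw [Finset.sum_const, Finset.card_range, nsmul_eq_mul]
    ring
  have hN : 1 / 2 * ((2 : ℝ) ^ l) ^ p ≤ ∑ t : (Σ R : Fin K, T R), (π t.1 t.2 / K) *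
      Nf p (fun S => (b t.1 t.2 S : ℝ)) := by
    have h3 := key (Nf p)
    have h4 : ∀ R ∈ range K, (1 / 2 : ℝ) ≤ Phi θ s R l (Nf p (d := d)) := by
      intro R hR
      rw [(stPhi p θ hp h0 h1 d s R l).1]
      have := Finset.mem_range.mp hR
      exact hPs.trans (pow_le_pow_of_le_one hP0 hP1 (by omega))
    have h5 : (1 / 2 : ℝ) ≤ (∑ R ∈ range K, Phi θ s R l (Nf p (d := d))) / K := by
      rw [le_div_iff₀ hKpos]
      have := Finset.sum_le_sum h4
      rw [Finset.sum_const, Finset.card_range, nsmul_eq_mul] at this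
      linarith
    rw [h3] at h5
    have h6 : ∑ t : (Σ R : Fin K, T R), (π t.1 t.2 / K) *
        Nf p (fun S => (b t.1 t.2 S : ℝ) / 2 ^ l) =
        (∑ t : (Σ R : Fin K, T R), (π t.1 t.2 / K) * Nf p (fun S => (b t.1 t.2 S : ℝ))) /
          ((2 : ℝ) ^ l) ^ p := by
      rw [Finset.sum_div]
      refine Finset.sum_congr rfl fun t _ => ?_
      rw [Nf_scale p (2 ^ l) (fun S => (b t.1 t.2 S : ℝ)), habs]
      ring
    rw [h6, le_div_iff₀ hc] at h5
    exact h5
  have hnn : ∀ t : (Σ R : Fin K, T R), 0 ≤ π t.1 t.2 / K := fun t =>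
    div_nonneg (hπ _ _) hKpos.le
  refine ⟨{ T := Σ R : Fin K, T R
            ft := inferInstance
            π := fun t => π t.1 t.2 / K
            b := fun t => b t.1 t.2
            π_nonneg := hnn
            supp := ?_
            l1 := ?_
            mass := ?_ }, ?_⟩
  · intro t S hS
    refine hsupp _ _ S (lt_of_le_of_lt (Nat.mul_le_mul_right s ?_) hS)
    have := t.1.2
    omega
  · intro t
    refine (hl1 _ _).trans (le_trans ?_ hΛ)
    exact pow_le_pow_right₀ (by norm_num) (Nat.le_succ l)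
  · have h3 : ∀ t : (Σ R : Fin K, T R), nY p (poly fun S => (b t.1 t.2 S : ℝ)) ^ p =
        Nf p (fun S => (b t.1 t.2 S : ℝ)) := fun t => nY_rpow hp _
    simp only [h3]
    have h4 : Λ * (1 / 2 * ((2 : ℝ) ^ l) ^ p) ≤ Λ * ∑ t : (Σ R : Fin K, T R), (π t.1 t.2 / K) *
        Nf p (fun S => (b t.1 t.2 S : ℝ)) :=
      mul_le_mul_of_nonneg_left hN (le_trans (by positivity) hΛ)
    refine hone.trans (le_trans ?_ h4)
    have h5 : (1 : ℝ) ≤ ((2 : ℝ) ^ l) ^ p :=
      Real.one_le_rpow (one_le_pow₀ (by norm_num)) hp0.le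
    have h6 : (2 : ℝ) ^ (l + 1) * (1 / 2 * 1) ≤ Λ * (1 / 2 * ((2 : ℝ) ^ l) ^ p) :=
      mul_le_mul hΛ (by linarith) (by norm_num) (le_trans (by positivity) hΛ)
    rw [pow_succ] at h6
    linarith
  · intro ι _ τ hL3
    unfold L3 at hL3
    simp only at hL3
    rw [key (f0 p (τ []))]
    have h3 : ∀ t : (Σ R : Fin K, T R), nY p (poly fun S => (b t.1 t.2 S : ℝ)) ^ p =
        Nf p (fun S => (b t.1 t.2 S : ℝ)) := fun t => nY_rpow hp _
    have h4 : ∀ t : (Σ R : Fin K, T R), nT p (∑ S, (b t.1 t.2 S : ℝ) • τ [] S) ^ p =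
        f0 p (τ []) (fun S => (b t.1 t.2 S : ℝ)) := fun t => (f0_nT hp _ _).symm
    simp only [h3, h4] at hL3
    have h5 : ∑ t : (Σ R : Fin K, T R), (π t.1 t.2 / K) *
        f0 p (τ []) (fun S => (b t.1 t.2 S : ℝ) / 2 ^ l) =
        (∑ t : (Σ R : Fin K, T R), (π t.1 t.2 / K) *
          f0 p (τ []) (fun S => (b t.1 t.2 S : ℝ))) / ((2 : ℝ) ^ l) ^ p := by
      rw [Finset.sum_div]
      refine Finset.sum_congr rfl fun t _ => ?_
      rw [f0_scale p (2 ^ l) (τ []) (fun S => (b t.1 t.2 S : ℝ)), habs]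
      ring
    rw [h5, le_div_iff₀ hc]
    refine le_trans (le_trans ?_ (mul_le_mul_of_nonneg_left hN
      (by positivity : (0 : ℝ) ≤ (1 / 2) ^ p))) hL3
    rw [Real.rpow_add (by norm_num), Real.rpow_one]
    exact le_of_eq (by ring)

end Vale.Agent.P249.SP
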