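import Vale.Agent.P249.SP.Uni3
import Vale.Agent.P249.SP.UniB
import Vale.Agent.P249.SP.Clk

/-!
# P249, block UNI: `specUni`
-/

namespace Vale.Agent.P249.SP

theorem specUni : SpecUni := Uni.specUni_of specClk stP stPhi stUp stDef stFam

end Vale.Agent.P249.SP
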