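import Vale.Agent.P249.SP.Core
import Vale.Agent.P249.SP.Final
import Vale.Agent.P249.SP.FinalD
import Vale.Agent.P249.SP.Chain
import Vale.Agent.P249.SP.LinFin
import Vale.Agent.P249.SP.PairFin
import Vale.Agent.P249.SP.PT
import Vale.Agent.P249.SP.Start
import Vale.Agent.P249.SP.Tail
import Vale.Agent.P249.SP.Uni

/-!
# Assembly: the superpolylogarithmic lower bound
-/

namespace Vale.Agent.P249.SP

theorem specCore : SpecCore :=
  core specLin specUni (specStart_of specPT) specPair specChain specTail specBridge specCount

theorem specFinal : SpecFinal := specFinal_of_core specCore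

end Vale.Agent.P249.SP
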