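import Vale.Agent.P249.SP.PairU

/-!
# P249, PAIR: the function `u` of one variable
`specPair_of : SpecPairA → SpecPairB → SpecPair`.
-/

open Finset
open scoped BigOperators symmDiff

namespace Vale.Agent.P249.SP

/-! ### small facts -/

theorem abs_le_one_of_sum {p : ℝ} (hp : 1 < p) {ι : Type} [Fintype ι] {ψ : ι → ℝ}
    (h : ∑ i, |ψ i| ^ (p / (p - 1)) ≤ 1) (i : ι) : |ψ i| ≤ 1 := by
  by_contra hc
  push Not at hc
  have hq : 0 < p / (p - 1) := div_pos (by linarith) (by linarith)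
  have h1 : 1 < |ψ i| ^ (p / (p - 1)) := Real.one_lt_rpow hc hq
  have h2 : |ψ i| ^ (p / (p - 1)) ≤ ∑ j, |ψ j| ^ (p / (p - 1)) :=
    Finset.single_le_sum (f := fun j => |ψ j| ^ (p / (p - 1)))
      (fun j _ => Real.rpow_nonneg (abs_nonneg _) _) (Finset.mem_univ i)
  linarith

theorem norm_one_sub_zmap {p : ℝ} (hp : 1 < p) {w : ℂ} (hw : ‖w‖ ≤ 1) :
    ‖1 - zmap p w‖ ≤ 1 := by
  set ρ := ‖w‖ with hρ
  have hρ0 : 0 ≤ ρ := norm_nonneg w
  have hpos : 0 < 1 + ρ ^ p := by
    have := Real.rpow_nonneg hρ0 p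
    linarith
  have h1 : 1 - zmap p w = (w + ((ρ ^ (p - 2) : ℝ) : ℂ) * (starRingEnd ℂ) w) /
      ((1 + ρ ^ p : ℝ) : ℂ) := by
    unfold zmap
    ring
  rw [h1, norm_div, Complex.norm_real, Real.norm_of_nonneg hpos.le, div_le_one hpos]
  refine (norm_add_le _ _).trans ?_
  rw [norm_mul, Complex.norm_real, Complex.norm_conj, ← hρ,
    Real.norm_of_nonneg (Real.rpow_nonneg hρ0 _)]
  rcases hρ0.eq_or_lt with h0 | h0
  · rw [← h0]
    have : (0 : ℝ) ^ p = 0 := Real.zero_rpow (by linarith)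
    rw [this]; simp
  · have h2 : ρ ^ (p - 2) * ρ = ρ ^ (p - 1) := by
      rw [← Real.rpow_add_one h0.ne']
      congr 1; ring
    have h3 : ρ ^ p = ρ * ρ ^ (p - 1) := by
      rw [mul_comm, ← Real.rpow_add_one h0.ne']
      congr 1; ring
    rw [h2, h3]
    have h4 : ρ ^ (p - 1) ≤ 1 := Real.rpow_le_one hρ0 hw (by linarith)
    nlinarith [mul_nonneg (sub_nonneg.2 hw) (sub_nonneg.2 h4)]

theorem norm_zmap_le {p : ℝ} (hp : 1 < p) {w : ℂ} (hw : ‖w‖ ≤ 1) : ‖zmap p w‖ ≤ 2 := by
  have h1 : zmap p w = 1 - (1 - zmap p w) := by ring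
  rw [h1]
  refine (norm_sub_le _ _).trans ?_
  have := norm_one_sub_zmap hp hw
  rw [norm_one]
  linarith

theorem nY_walsh {p : ℝ} {d : ℕ} (S : Finset (Fin d)) :
    nY p (fun y => ind [] y * poly (fun S' => if S' = S then (1 : ℝ) else 0) y) = 1 := by
  have h1 : ∀ y : Cube d, ind [] y * poly (fun S' => if S' = S then (1 : ℝ) else 0) y =
      walsh S y := by
    intro y
    unfold ind poly
    simp
  unfold nY
  simp only [h1, abs_walsh, Real.one_rpow]
  rw [Finset.sum_const, Finset.card_univ]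
  simp

/-- sum over the sets with at most `s` elements of a function of the cardinality -/
theorem sum_card_le {d s : ℕ} (hs : s ≤ d) (g : ℕ → ℝ) :
    ∑ B ∈ univ.filter (fun B : Finset (Fin d) => B.card ≤ s), g B.card =
      ∑ r ∈ range (s + 1), (d.choose r : ℝ) * g r := by
  rw [Finset.sum_filter]
  have h := Finset.sum_powerset_apply_card (x := (univ : Finset (Fin d)))
    (fun r => if r ≤ s then g r else 0)
  rw [Finset.powerset_univ, Finset.card_univ, Fintype.card_fin] at h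
  rw [h]
  have hsub : range (s + 1) ⊆ range (d + 1) := by
    intro x hx
    rw [Finset.mem_range] at hx ⊢
    omega
  rw [← Finset.sum_subset hsub]
  · refine Finset.sum_congr rfl fun r hr => ?_
    rw [Finset.mem_range] at hr
    rw [if_pos (by omega), nsmul_eq_mul]
  · intro r _ hr
    rw [Finset.mem_range] at hr
    rw [if_neg (by omega), smul_zero]

theorem wt_nonneg {θ : ℝ} (h0 : 0 ≤ θ) (h1 : θ ≤ 1) {d : ℕ} (S : Finset (Fin d)) :
    0 ≤ wt θ S := by
  unfold wt
  exact mul_nonneg (pow_nonneg h0 _) (pow_nonneg (by linarith) _)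

theorem sum_wt (θ : ℝ) (d : ℕ) : ∑ S : Finset (Fin d), wt θ S = 1 := by
  have h := Finset.sum_pow_mul_eq_add_pow θ (1 - θ) (univ : Finset (Fin d))
  rw [Finset.powerset_univ, Finset.card_univ, Fintype.card_fin] at h
  unfold wt
  rw [h]
  simp

section Err

variable {ε : ℝ} {d : ℕ} {ι : Type} [Fintype ι]

theorem err_nonneg (hε : 0 ≤ ε) : 0 ≤ err ε d ι := by
  unfold err; positivity

theorem pow_aux {d : ℕ} (hd : 1 ≤ d) : (10 : ℝ) ^ (d + 1) ≤ 1000 ^ d := by
  have : (1000 : ℝ) ^ d = 10 ^ (3 * d) := by rw [pow_mul]; norm_num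
  rw [this]
  exact pow_le_pow_right₀ (by norm_num) (by omega)

theorem pow_aux2 {s d : ℕ} (hsd : s ≤ d) : (3 : ℝ) ^ s * s ≤ 1000 ^ d := by
  have h1 : (s : ℝ) ≤ 2 ^ s := by exact_mod_cast (Nat.lt_two_pow_self (n := s)).le
  calc (3 : ℝ) ^ s * s ≤ 3 ^ s * 2 ^ s := by gcongr
    _ = 6 ^ s := by rw [← mul_pow]; norm_num
    _ ≤ 1000 ^ s := by gcongr; norm_num
    _ ≤ 1000 ^ d := pow_le_pow_right₀ (by norm_num) hsd

theorem err_bound (hε : 0 ≤ ε) {s : ℕ} (hd : 1 ≤ d) (hsd : s ≤ d) :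
    ε * 10 ^ (d + 1) + 3 ^ s * (s * (ε * Fintype.card ι)) ≤ err ε d ι := by
  unfold err
  have h1 := pow_aux hd
  have h2 := pow_aux2 hsd
  have h3 : 0 ≤ ε * (Fintype.card ι : ℝ) := by positivity
  calc ε * 10 ^ (d + 1) + 3 ^ s * (s * (ε * Fintype.card ι))
      = ε * 10 ^ (d + 1) + (ε * Fintype.card ι) * (3 ^ s * s) := by ring
    _ ≤ ε * 1000 ^ d + (ε * Fintype.card ι) * 1000 ^ d := by
        gcongr
    _ = ε * ((Fintype.card ι : ℝ) + 1) * 1000 ^ d := by ring

theorem err_bound' (hε : 0 ≤ ε) {s : ℕ} (hsd : s ≤ d) :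
    s * (ε * Fintype.card ι) ≤ err ε d ι := by
  unfold err
  have h2 := pow_aux2 hsd
  have h4 : (s : ℝ) ≤ 3 ^ s * s := by
    have : (1 : ℝ) ≤ 3 ^ s := one_le_pow₀ (by norm_num)
    nlinarith [Nat.cast_nonneg (α := ℝ) s]
  have h3 : 0 ≤ ε * (Fintype.card ι : ℝ) := by positivity
  have h5 : 0 ≤ ε * (1000 : ℝ) ^ d := by positivity
  calc s * (ε * Fintype.card ι) ≤ (1000 ^ d) * (ε * Fintype.card ι) := by
        gcongr; linarith
    _ ≤ ε * ((Fintype.card ι : ℝ) + 1) * 1000 ^ d := by nlinarith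

theorem eps_le_err (hε : 0 ≤ ε) : ε * ((Fintype.card ι : ℝ) + 1) ≤ err ε d ι := by
  unfold err
  have : (1 : ℝ) ≤ 1000 ^ d := one_le_pow₀ (by norm_num)
  have h3 : 0 ≤ ε * ((Fintype.card ι : ℝ) + 1) := by positivity
  nlinarith

end Err

/-! ### the main statement -/

section Main

variable {p D ε : ℝ} {d s m : ℕ} {ι : Type} [Fintype ι]
  {τ : List (Fin d × Bool) → Finset (Fin d) → ι → ℝ} {ψ : ι → ℝ} {P : ι → Cube d}

theorem pair1 (hA : SpecPairA) (hB : SpecPairB) (hp : 1 < p) (hD : 1 ≤ D) (hs : 1 ≤ s)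
    (hsm : s ≤ m) (hsd : s ≤ d) (hε : 0 ≤ ε) (hS : Sys p D ε d m τ)
    (hψ : ∑ i, |ψ i| ^ (p / (p - 1)) ≤ 1) (t : ℕ) (ht : t + s ≤ d) (w : ℂ) (hw : ‖w‖ ≤ 1) :
    ‖binC s (zmap p w) (uAv τ ψ P) t‖ ≤ 2 * D + err ε d ι := by
  have hψ1 := abs_le_one_of_sum hp hψ
  set z := zmap p w with hz
  have hz1 : ‖1 - z‖ ≤ 1 := norm_one_sub_zmap hp hw
  have hz2 : ‖z‖ ≤ 2 := norm_zmap_le hp hw
  set M := win d t s with hM
  have hMc : M.card = s := win_card ht
  -- average of the pairing over the window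
  set X : Finset (Fin d) → ℝ := fun B =>
    (∑ σ : Equiv.Perm (Fin d), uu τ ψ P ((pos d t).map σ) (B.map σ.toEmbedding)) /
        (d.factorial : ℝ) with hX
  have hXu : ∀ B ∈ M.powerset, |X B - uAv τ ψ P (t + B.card)| ≤ s * (ε * Fintype.card ι) := by
    intro B hBM
    have hBM' : B ⊆ M := Finset.mem_powerset.1 hBM
    have hBc : B.card ≤ s := hMc ▸ Finset.card_le_card hBM'
    have h := avg_uu τ ψ P hB hp hD hε hS hψ1 t (by omega) B
      (fun x hx => ((Finset.mem_filter.1 (hBM' hx)).2).1) (hBc.trans hsm)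
    refine h.trans ?_
    gcongr
  -- rewrite the binomial sum
  have h1 : binC s z (uAv τ ψ P) t =
      ∑ B ∈ M.powerset, z ^ B.card * (1 - z) ^ (s - B.card) *
        (uAv τ ψ P (t + B.card) : ℂ) := by
    have h := Finset.sum_powerset_apply_card (x := M)
      (fun r => z ^ r * (1 - z) ^ (s - r) * (uAv τ ψ P (t + r) : ℂ))
    rw [h, hMc]
    unfold binC
    refine Finset.sum_congr rfl fun r _ => ?_
    rw [nsmul_eq_mul]
    ring
  have h2 : ∑ B ∈ M.powerset, z ^ B.card * (1 - z) ^ (s - B.card) *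
        (uAv τ ψ P (t + B.card) : ℂ) =
      ∑ B ∈ M.powerset, z ^ B.card * (1 - z) ^ (s - B.card) * (X B : ℂ) -
      ∑ B ∈ M.powerset, z ^ B.card * (1 - z) ^ (s - B.card) *
        ((X B - uAv τ ψ P (t + B.card) : ℝ) : ℂ) := by
    rw [← Finset.sum_sub_distrib]
    refine Finset.sum_congr rfl fun B _ => ?_
    push_cast
    ring
  -- the main part
  have h3 : ‖∑ B ∈ M.powerset, z ^ B.card * (1 - z) ^ (s - B.card) * (X B : ℂ)‖ ≤
      2 * D + ε * 10 ^ (d + 1) := by
    have h31 : ∑ B ∈ M.powerset, z ^ B.card * (1 - z) ^ (s - B.card) * (X B : ℂ) =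
        (∑ σ : Equiv.Perm (Fin d), ∑ B ∈ (M.map σ.toEmbedding).powerset,
          z ^ B.card * (1 - z) ^ ((M.map σ.toEmbedding).card - B.card) *
            (uu τ ψ P ((pos d t).map σ) B : ℂ)) / (d.factorial : ℂ) := by
      have h32 : ∀ σ : Equiv.Perm (Fin d), ∑ B ∈ (M.map σ.toEmbedding).powerset,
          z ^ B.card * (1 - z) ^ ((M.map σ.toEmbedding).card - B.card) *
            (uu τ ψ P ((pos d t).map σ) B : ℂ) =
          ∑ B ∈ M.powerset, z ^ B.card * (1 - z) ^ (s - B.card) *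
            (uu τ ψ P ((pos d t).map σ) (B.map σ.toEmbedding) : ℂ) := by
        intro σ
        symm
        refine Finset.sum_bij' (fun B _ => B.map σ.toEmbedding)
          (fun B _ => B.map (Equiv.symm σ).toEmbedding) ?_ ?_ ?_ ?_ ?_
        · intro B hBM
          rw [Finset.mem_powerset] at hBM ⊢
          exact Finset.map_subset_map.2 hBM
        · intro B hBM
          rw [Finset.mem_powerset] at hBM ⊢
          intro x hx
          rw [Finset.mem_map] at hx
          obtain ⟨y, hy, rfl⟩ := hx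
          have h5 := hBM hy
          rw [Finset.mem_map] at h5
          obtain ⟨x', hx', h6⟩ := h5
          rw [← h6]
          simpa using hx'
        · intro B _
          ext x
          simp only [Finset.mem_map_equiv]
          simp
        · intro B _
          ext x
          simp only [Finset.mem_map_equiv]
          simp
        · intro B _
          rw [Finset.card_map, Finset.card_map, hMc]
      simp only [h32]
      rw [Finset.sum_comm, Finset.sum_div]
      refine Finset.sum_congr rfl fun B _ => ?_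
      simp only [hX]
      push_cast
      rw [← Finset.mul_sum, mul_div_assoc]
    rw [h31]
    refine norm_avg_le _ fun σ => ?_
    refine (hA p D hp hD d m ε hε ι τ hS ψ P hψ ((pos d t).map σ) (M.map σ.toEmbedding)
      ((pos_nodup t).map σ.injective) ?_ ?_).1 w hw
    · intro i hi hiB
      rw [List.mem_map] at hi
      obtain ⟨a, ha, rfl⟩ := hi
      rw [Finset.mem_map] at hiB
      obtain ⟨b, hb, hab⟩ := hiB
      have h1 : b = a := σ.injective hab
      subst h1
      have h2 := mem_pos.1 ha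
      have h3 := (Finset.mem_filter.1 hb).2.1
      omega
    · rw [Finset.card_map, hMc]; exact hsm
  -- the error
  have h4 : ‖∑ B ∈ M.powerset, z ^ B.card * (1 - z) ^ (s - B.card) *
        ((X B - uAv τ ψ P (t + B.card) : ℝ) : ℂ)‖ ≤ 3 ^ s * (s * (ε * Fintype.card ι)) := by
    refine (norm_sum_le _ _).trans ?_
    calc ∑ B ∈ M.powerset, ‖z ^ B.card * (1 - z) ^ (s - B.card) *
          ((X B - uAv τ ψ P (t + B.card) : ℝ) : ℂ)‖
        ≤ ∑ B ∈ M.powerset, 2 ^ B.card * 1 ^ (M.card - B.card) *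
            (s * (ε * Fintype.card ι)) := by
          refine Finset.sum_le_sum fun B hBM => ?_
          rw [norm_mul, norm_mul, norm_pow, norm_pow, Complex.norm_real, Real.norm_eq_abs, hMc]
          have h5 := hXu B hBM
          gcongr
      _ = 3 ^ s * (s * (ε * Fintype.card ι)) := by
          rw [← Finset.sum_mul, Finset.sum_pow_mul_eq_add_pow, hMc]
          norm_num
  rw [h1, h2]
  refine (norm_sub_le _ _).trans ?_
  have h5 := err_bound (ι := ι) hε (hs.trans hsd) hsd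
  linarith

theorem pair2 (hA : SpecPairA) (hp : 1 < p) (hD : 1 ≤ D) (hd : 1 ≤ d)
    (hε : 0 ≤ ε) (hS : Sys p D ε d m τ)
    (hψ : ∑ i, |ψ i| ^ (p / (p - 1)) ≤ 1) (n : ℕ) :
    |uAv τ ψ P n| ≤ 2 * D + err ε d ι := by
  refine abs_avg_le _ fun σ => ?_
  have h := (hA p D hp hD d m ε hε ι τ hS ψ P hψ ((pos d n).map σ) ∅
    ((pos_nodup n).map σ.injective) (by simp) (by simp)).1 0 (by simp)
  rw [Finset.powerset_empty, Finset.sum_singleton] at h
  simp only [Finset.card_empty, pow_zero, one_mul] at h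
  have h0 : (1 - zmap p 0) ^ (0 - 0) = 1 := by simp
  rw [h0, one_mul, Complex.norm_real, Real.norm_eq_abs] at h
  refine h.trans ?_
  have h5 := err_bound (ι := ι) (s := 0) hε hd (Nat.zero_le _)
  simp only [Nat.cast_zero, zero_mul, mul_zero, add_zero] at h5
  linarith

theorem pair3 (hA : SpecPairA) (hp : 1 < p) (hD : 1 ≤ D)
    (hε : 0 ≤ ε) (hS : Sys p D ε d m τ)
    (hψ : ∑ i, |ψ i| ^ (p / (p - 1)) ≤ 1) (n : ℕ) (hn : n ≤ d) :
    |uAv τ ψ P n| ≤
        (Fintype.card ι : ℝ) ^ (1 / p) * (D * (2 : ℝ) ^ (-(n : ℝ) / p)) + err ε d ι := by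
  refine abs_avg_le _ fun σ => ?_
  have h := (hA p D hp hD d m ε hε ι τ hS ψ P hψ ((pos d n).map σ) ∅
    ((pos_nodup n).map σ.injective) (by simp) (by simp)).2
  rw [List.length_map, pos_length hn] at h
  refine h.trans ?_
  rw [mul_add]
  have h1 : (Fintype.card ι : ℝ) ^ (1 / p) ≤ (Fintype.card ι : ℝ) + 1 := by
    rcases Nat.eq_zero_or_pos (Fintype.card ι) with h0 | h0
    · rw [h0, Nat.cast_zero, Real.zero_rpow (by positivity)]
      norm_num
    · have h2 : (1 : ℝ) ≤ Fintype.card ι := by exact_mod_cast h0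
      have h3 : (Fintype.card ι : ℝ) ^ (1 / p) ≤ (Fintype.card ι : ℝ) ^ (1 : ℝ) := by
        refine Real.rpow_le_rpow_of_exponent_le h2 ?_
        rw [div_le_one (by linarith)]
        exact hp.le
      rw [Real.rpow_one] at h3
      linarith
  have h2 := eps_le_err (d := d) (ι := ι) hε
  have h3 : (Fintype.card ι : ℝ) ^ (1 / p) * ε ≤ ε * ((Fintype.card ι : ℝ) + 1) := by
    rw [mul_comm]
    exact mul_le_mul_of_nonneg_left h1 hε
  linarith

theorem pair4 (hp : 1 < p) (hS : Sys p D ε d m τ) (hε1 : ε ≤ 1)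
    (hψ : ∑ i, |ψ i| ^ (p / (p - 1)) ≤ 1) (S : Finset (Fin d)) (hSm : S.card ≤ m) :
    |∑ i, ψ i * walsh S (P i) * τ [] S i| ≤ D + 1 := by
  have hL := hS.L1 [] (Nat.zero_le _) (fun S' => if S' = S then (1 : ℝ) else 0) (by
    intro S' hS'
    rw [if_neg]
    rintro rfl
    omega)
  have h1 : ∑ S', (if S' = S then (1 : ℝ) else 0) • τ [] S' = τ [] S := by
    simp
  have h2 : ∑ S' : Finset (Fin d), |(if S' = S then (1 : ℝ) else 0)| = 1 := by
    have : ∀ S' : Finset (Fin d), |(if S' = S then (1 : ℝ) else 0)| = if S' = S then 1 else 0 := by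
      intro S'; split <;> simp
    simp [this]
  rw [h1, h2, nY_walsh] at hL
  have hq : (p / (p - 1)).HolderConjugate p := by
    rw [Real.holderConjugate_iff]
    refine ⟨?_, ?_⟩
    · rw [lt_div_iff₀ (by linarith)]; linarith
    · have h1 : p - 1 ≠ 0 := by linarith
      have h2 : p ≠ 0 := by linarith
      field_simp
      ring
  refine (Finset.abs_sum_le_sum_abs _ _).trans ?_
  have h3 : ∑ i, |ψ i * walsh S (P i) * τ [] S i| = ∑ i, |ψ i| * |τ [] S i| := by
    refine Finset.sum_congr rfl fun i _ => ?_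
    rw [abs_mul, abs_mul, abs_walsh, mul_one]
  rw [h3]
  have h4 := Real.inner_le_Lp_mul_Lq univ (fun i => |ψ i|) (fun i => |τ [] S i|) hq
  simp only [abs_abs] at h4
  refine h4.trans ?_
  have h5 : (∑ i, |ψ i| ^ (p / (p - 1))) ^ (1 / (p / (p - 1))) ≤ 1 := by
    refine Real.rpow_le_one (Finset.sum_nonneg fun i _ => Real.rpow_nonneg (abs_nonneg _) _) hψ ?_
    have : 0 < p / (p - 1) := div_pos (by linarith) (by linarith)
    positivity
  have h6 : 0 ≤ (∑ i, |τ [] S i| ^ p) ^ (1 / p) :=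
    Real.rpow_nonneg (Finset.sum_nonneg fun i _ => Real.rpow_nonneg (abs_nonneg _) _) _
  have h7 : (∑ i, |τ [] S i| ^ p) ^ (1 / p) ≤ D * 1 + ε * 1 := hL
  nlinarith

theorem pair5 (hB : SpecPairB) (hp : 1 < p) (hD : 1 ≤ D)
    (hsm : s ≤ m) (hsd : s ≤ d) (hε : 0 ≤ ε) (hS : Sys p D ε d m τ)
    (hψ : ∑ i, |ψ i| ^ (p / (p - 1)) ≤ 1) (z : ℝ) (hz0 : 0 ≤ z) (hz1 : z ≤ 1) :
    |(∑ B ∈ univ.filter (fun B : Finset (Fin d) => B.card ≤ s), wt z B * ((1 / 2) ^ B.card *
            ∑ S ∈ B.powerset, ∑ i, ψ i * walsh S (P i) * τ [] S i)) -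
          ∑ r ∈ range (s + 1), (d.choose r : ℝ) * z ^ r * (1 - z) ^ (d - r) * uAv τ ψ P r| ≤
      err ε d ι := by
  have hψ1 := abs_le_one_of_sum hp hψ
  set X : Finset (Fin d) → ℝ := fun B =>
    (∑ σ : Equiv.Perm (Fin d), uu τ ψ P [] (B.map σ.toEmbedding)) / (d.factorial : ℝ) with hX
  have hXu : ∀ B ∈ univ.filter (fun B : Finset (Fin d) => B.card ≤ s),
      |X B - uAv τ ψ P B.card| ≤ s * (ε * Fintype.card ι) := by
    intro B hBM
    have hBc : B.card ≤ s := (Finset.mem_filter.1 hBM).2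
    have h := avg_uu τ ψ P hB hp hD hε hS hψ1 0 (Nat.zero_le _) B
      (fun x _ => Nat.zero_le _) (hBc.trans hsm)
    have h0 : ∀ σ : Equiv.Perm (Fin d), (pos d 0).map σ = [] := by
      intro σ
      simp [pos]
    simp only [h0, Nat.zero_add] at h
    refine h.trans ?_
    gcongr
  have h1 : ∀ B : Finset (Fin d), ((1 / 2 : ℝ) ^ B.card *
      ∑ S ∈ B.powerset, ∑ i, ψ i * walsh S (P i) * τ [] S i) = uu τ ψ P [] B := by
    intro B
    unfold uu
    rw [Finset.sum_comm, Finset.mul_sum]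
    refine Finset.sum_congr rfl fun i _ => ?_
    rw [mul_left_comm, Finset.mul_sum (s := B.powerset) (a := ψ i)]
    congr 1
    refine Finset.sum_congr rfl fun S _ => ?_
    simp only [pre, List.map_nil]
    ring
  simp only [h1]
  -- symmetrise
  have h2 : ∑ B ∈ univ.filter (fun B : Finset (Fin d) => B.card ≤ s), wt z B * uu τ ψ P [] B =
      ∑ B ∈ univ.filter (fun B : Finset (Fin d) => B.card ≤ s), wt z B * X B := by
    have h21 : ∀ σ : Equiv.Perm (Fin d),
        ∑ B ∈ univ.filter (fun B : Finset (Fin d) => B.card ≤ s), wt z B * uu τ ψ P [] B =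
        ∑ B ∈ univ.filter (fun B : Finset (Fin d) => B.card ≤ s),
          wt z B * uu τ ψ P [] (B.map σ.toEmbedding) := by
      intro σ
      symm
      refine Finset.sum_bij' (fun B _ => B.map σ.toEmbedding)
        (fun B _ => B.map (Equiv.symm σ).toEmbedding) ?_ ?_ ?_ ?_ ?_
      · intro B hBM
        simpa using hBM
      · intro B hBM
        simpa using hBM
      · intro B _
        ext x
        simp only [Finset.mem_map_equiv]
        simp
      · intro B _
        ext x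
        simp only [Finset.mem_map_equiv]
        simp
      · intro B _
        unfold wt
        rw [Finset.card_map]
    have h22 : ∑ B ∈ univ.filter (fun B : Finset (Fin d) => B.card ≤ s), wt z B * X B =
        (∑ σ : Equiv.Perm (Fin d), ∑ B ∈ univ.filter (fun B : Finset (Fin d) => B.card ≤ s),
          wt z B * uu τ ψ P [] (B.map σ.toEmbedding)) / (d.factorial : ℝ) := by
      rw [Finset.sum_comm, Finset.sum_div]
      refine Finset.sum_congr rfl fun B _ => ?_
      simp only [hX]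
      rw [← Finset.mul_sum, mul_div_assoc]
    rw [h22]
    have h23 : ∑ σ : Equiv.Perm (Fin d),
        ∑ B ∈ univ.filter (fun B : Finset (Fin d) => B.card ≤ s),
          wt z B * uu τ ψ P [] (B.map σ.toEmbedding) =
        ∑ _σ : Equiv.Perm (Fin d),
          ∑ B ∈ univ.filter (fun B : Finset (Fin d) => B.card ≤ s), wt z B * uu τ ψ P [] B :=
      Finset.sum_congr rfl fun σ _ => (h21 σ).symm
    rw [h23, Finset.sum_const, nsmul_eq_mul, Finset.card_univ, card_perm']
    field_simp [(fact_pos' (d := d)).ne']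
  have h3 : ∑ r ∈ range (s + 1), (d.choose r : ℝ) * z ^ r * (1 - z) ^ (d - r) * uAv τ ψ P r =
      ∑ B ∈ univ.filter (fun B : Finset (Fin d) => B.card ≤ s),
        wt z B * uAv τ ψ P B.card := by
    have h := sum_card_le hsd (fun r => z ^ r * (1 - z) ^ (d - r) * uAv τ ψ P r)
    unfold wt
    rw [h]
    refine Finset.sum_congr rfl fun r _ => ?_
    ring
  rw [h2, h3, ← Finset.sum_sub_distrib]
  refine (Finset.abs_sum_le_sum_abs _ _).trans ?_
  calc ∑ B ∈ univ.filter (fun B : Finset (Fin d) => B.card ≤ s),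
        |wt z B * X B - wt z B * uAv τ ψ P B.card|
      ≤ ∑ B ∈ univ.filter (fun B : Finset (Fin d) => B.card ≤ s),
          wt z B * (s * (ε * Fintype.card ι)) := by
        refine Finset.sum_le_sum fun B hBM => ?_
        rw [← mul_sub, abs_mul, abs_of_nonneg (wt_nonneg hz0 hz1 B)]
        exact mul_le_mul_of_nonneg_left (hXu B hBM) (wt_nonneg hz0 hz1 B)
    _ ≤ ∑ B : Finset (Fin d), wt z B * (s * (ε * Fintype.card ι)) := by
        refine Finset.sum_le_sum_of_subset_of_nonneg (Finset.filter_subset _ _) ?_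
        intro B _ _
        have := wt_nonneg hz0 hz1 B
        positivity
    _ = s * (ε * Fintype.card ι) := by
        rw [← Finset.sum_mul, sum_wt, one_mul]
    _ ≤ err ε d ι := err_bound' hε hsd

end Main

theorem specPair_of (hA : SpecPairA) (hB : SpecPairB) : SpecPair := by
  intro p D hp hD d s m ε hs hsm hsd hε ι _ τ hS ψ P hψ herr
  have hε1 : ε ≤ 1 := by
    have h := eps_le_err (d := d) (ι := ι) hε
    have h2 : 0 ≤ ε * (Fintype.card ι : ℝ) := by positivity
    nlinarith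
  refine ⟨uAv τ ψ P, ?_, ?_, ?_, ?_, ?_⟩
  · intro t ht w hw
    have := pair1 (P := P) hA hB hp hD hs hsm hsd hε hS hψ t ht w hw
    linarith
  · intro n _
    have := pair2 (P := P) hA hp hD (hs.trans hsd) hε hS hψ n
    linarith
  · intro n hn
    exact pair3 (P := P) hA hp hD hε hS hψ n hn
  · intro S hSs
    exact pair4 hp hS hε1 hψ S (hSs.trans hsm)
  · intro z hz0 hz1
    exact pair5 hB hp hD hsm hsd hε hS hψ z hz0 hz1

end Vale.Agent.P249.SP
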