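import Vale.Agent.P249.SP.Spec

/-!
# P249, PAIR-B: compatibility of the pairings `u^C(B)` under extension of the prefix
-/

open Finset
open scoped BigOperators symmDiff

namespace Vale.Agent.P249.SP

/-- a coordinate is bounded by the `ℓ_p` norm -/
theorem abs_le_nT {p : ℝ} (hp : 0 < p) {ι : Type} [Fintype ι] (v : ι → ℝ) (i : ι) :
    |v i| ≤ nT p v := by
  have h0 : ∀ j, 0 ≤ |v j| ^ p := fun j => Real.rpow_nonneg (abs_nonneg _) _
  have h1 : |v i| ^ p ≤ ∑ j, |v j| ^ p :=
    Finset.single_le_sum (f := fun j => |v j| ^ p) (fun j _ => h0 j) (Finset.mem_univ i)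
  have h2 : |v i| = (|v i| ^ p) ^ (1 / p) := by
    rw [← Real.rpow_mul (abs_nonneg _), mul_one_div_cancel hp.ne', Real.rpow_one]
  rw [h2]
  exact Real.rpow_le_rpow (h0 i) h1 (by positivity)

theorem abs_sg (b : Bool) : |sg b| = 1 := by
  unfold sg; split <;> simp

theorem abs_walsh {d : ℕ} (S : Finset (Fin d)) (y : Cube d) : |walsh S y| = 1 := by
  unfold walsh
  rw [Finset.abs_prod]
  exact Finset.prod_eq_one fun i _ => abs_sg _

theorem walsh_insert {d : ℕ} {S : Finset (Fin d)} {j : Fin d} (hj : j ∉ S) (y : Cube d) :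
    walsh (insert j S) y = sg (y j) * walsh S y := by
  unfold walsh
  rw [Finset.prod_insert hj]

theorem symmDiff_singleton_of_notMem {d : ℕ} {S : Finset (Fin d)} {j : Fin d} (hj : j ∉ S) :
    S ∆ {j} = insert j S := by
  ext x
  simp only [Finset.mem_symmDiff, Finset.mem_singleton, Finset.mem_insert]
  constructor
  · rintro (⟨h, _⟩ | ⟨h, _⟩)
    · exact Or.inr h
    · exact Or.inl h
  · rintro (h | h)
    · subst h; exact Or.inr ⟨rfl, hj⟩
    · exact Or.inl ⟨h, fun e => hj (e ▸ h)⟩

/-- splitting a sum over the subsets of `B` according to `j ∈ B` -/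
theorem sum_powerset_erase {d : ℕ} (B : Finset (Fin d)) (j : Fin d) (hj : j ∈ B)
    (f : Finset (Fin d) → ℝ) :
    ∑ S ∈ B.powerset, f S = ∑ S ∈ (B.erase j).powerset, (f S + f (insert j S)) := by
  have h := Finset.sum_powerset_insert (Finset.notMem_erase j B) f
  rw [Finset.insert_erase hj] at h
  rw [h, Finset.sum_add_distrib]

theorem pre_append {d : ℕ} (C : List (Fin d)) (j : Fin d) (y : Cube d) :
    pre (C ++ [j]) y = pre C y ++ [(j, y j)] := by
  simp [pre]

theorem pre_length {d : ℕ} (C : List (Fin d)) (y : Cube d) : (pre C y).length = C.length := by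
  simp [pre]

theorem length_lt_of_nodup {d : ℕ} {C : List (Fin d)} (hC : C.Nodup) {j : Fin d} (hj : j ∉ C) :
    C.length < d := by
  have h : (j :: C).Nodup := List.nodup_cons.2 ⟨hj, hC⟩
  have h2 := h.length_le_card
  simpa using h2

theorem specPairB : SpecPairB := by
  intro p D hp hD d m ε hε ι _ τ hS ψ P hψ C B j hC hCB hj hB
  have hp0 : 0 < p := by linarith
  have hjC : j ∉ C := fun h => hCB j h hj
  have hlen : C.length < d := length_lt_of_nodup hC hjC
  have hcard : B.card = (B.erase j).card + 1 := (Finset.card_erase_add_one hj).symm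
  -- the pointwise error
  set E : ι → Finset (Fin d) → ℝ := fun i S =>
    (1 / 2 : ℝ) * (τ (pre C (P i)) S i + sg (P i j) * τ (pre C (P i)) (insert j S) i) -
      τ (pre (C ++ [j]) (P i)) S i with hE
  have hEb : ∀ i, ∀ S ∈ (B.erase j).powerset, |E i S| ≤ ε := by
    intro i S hSB
    have hSB' : S ⊆ B.erase j := Finset.mem_powerset.1 hSB
    have hjS : j ∉ S := fun h => Finset.notMem_erase j B (hSB' h)
    have hSm : S.card + 1 ≤ m := by
      have := Finset.card_le_card hSB'
      omega
    have h := hS.L2 (pre C (P i)) (by rw [pre_length]; exact hlen) j (P i j) S hSm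
    rw [symmDiff_singleton_of_notMem hjS, ← pre_append] at h
    have h2 := abs_le_nT hp0 (τ (pre (C ++ [j]) (P i)) S -
      (1 / 2 : ℝ) • (τ (pre C (P i)) S + sg (P i j) • τ (pre C (P i)) (insert j S))) i
    have h3 : E i S = -((τ (pre (C ++ [j]) (P i)) S -
      (1 / 2 : ℝ) • (τ (pre C (P i)) S + sg (P i j) • τ (pre C (P i)) (insert j S))) i) := by
      simp only [hE, Pi.sub_apply, Pi.smul_apply, Pi.add_apply, smul_eq_mul]
      ring
    rw [h3, abs_neg]
    exact h2.trans h
  have key : uu τ ψ P C B - uu τ ψ P (C ++ [j]) (B.erase j) =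
      ∑ i, ψ i * ((1 / 2) ^ (B.erase j).card *
        ∑ S ∈ (B.erase j).powerset, walsh S (P i) * E i S) := by
    unfold uu
    rw [← Finset.sum_sub_distrib]
    refine Finset.sum_congr rfl fun i _ => ?_
    rw [← mul_sub]
    congr 1
    rw [sum_powerset_erase B j hj, hcard, pow_succ, mul_assoc, ← mul_sub]
    congr 1
    rw [Finset.mul_sum, ← Finset.sum_sub_distrib]
    refine Finset.sum_congr rfl fun S hSB => ?_
    have hSB' : S ⊆ B.erase j := Finset.mem_powerset.1 hSB
    have hjS : j ∉ S := fun h => Finset.notMem_erase j B (hSB' h)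
    rw [walsh_insert hjS]
    simp only [hE]
    ring
  rw [key]
  refine (Finset.abs_sum_le_sum_abs _ _).trans ?_
  have hterm : ∀ i ∈ (Finset.univ : Finset ι), |ψ i * ((1 / 2) ^ (B.erase j).card *
        ∑ S ∈ (B.erase j).powerset, walsh S (P i) * E i S)| ≤ ε := by
    intro i _
    rw [abs_mul, abs_mul, abs_of_nonneg (by positivity : (0 : ℝ) ≤ (1 / 2) ^ (B.erase j).card)]
    have h1 : |∑ S ∈ (B.erase j).powerset, walsh S (P i) * E i S| ≤
        2 ^ (B.erase j).card * ε := by
      refine (Finset.abs_sum_le_sum_abs _ _).trans ?_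
      calc ∑ S ∈ (B.erase j).powerset, |walsh S (P i) * E i S|
          ≤ ∑ _S ∈ (B.erase j).powerset, ε := by
            refine Finset.sum_le_sum fun S hSB => ?_
            rw [abs_mul, abs_walsh, one_mul]
            exact hEb i S hSB
        _ = 2 ^ (B.erase j).card * ε := by
            rw [Finset.sum_const, Finset.card_powerset, nsmul_eq_mul]
            push_cast
            ring
    calc |ψ i| * ((1 / 2) ^ (B.erase j).card *
          |∑ S ∈ (B.erase j).powerset, walsh S (P i) * E i S|)
        ≤ 1 * ((1 / 2) ^ (B.erase j).card * (2 ^ (B.erase j).card * ε)) := by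
          refine mul_le_mul (hψ i) ?_ (by positivity) (by norm_num)
          exact mul_le_mul_of_nonneg_left h1 (by positivity)
      _ = ε := by
          rw [one_mul, ← mul_assoc, ← mul_pow]
          norm_num
  refine (Finset.sum_le_sum hterm).trans ?_
  rw [Finset.sum_const, nsmul_eq_mul, mul_comm]
  simp [Finset.card_univ]

end Vale.Agent.P249.SP
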