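import Vale.Agent.P249.SP.Spec

/-!
# P249, PAIR: the average over random orders
-/

open Finset
open scoped BigOperators symmDiff

namespace Vale.Agent.P249.SP

/-- the first `n` coordinates of the order `σ` -/
def ord {d : ℕ} (σ : Equiv.Perm (Fin d)) (n : ℕ) : List (Fin d) := ((List.finRange d).take n).map σ

/-- the sequence `u(n)`: average over all orders of `u^{(σ₀..σ_{n-1})}(∅)` -/
noncomputable def U {d : ℕ} {ι : Type} [Fintype ι]
    (τ : List (Fin d × Bool) → Finset (Fin d) → ι → ℝ) (ψ : ι → ℝ) (P : ι → Cube d)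
    (n : ℕ) : ℝ :=
  (∑ σ : Equiv.Perm (Fin d), uu τ ψ P (ord σ n) ∅) / (d.factorial : ℝ)

theorem ord_nodup {d : ℕ} (σ : Equiv.Perm (Fin d)) (n : ℕ) : (ord σ n).Nodup :=
  (((List.nodup_finRange d).sublist (List.take_sublist _ _)).map σ.injective)

theorem ord_length {d : ℕ} (σ : Equiv.Perm (Fin d)) (n : ℕ) : (ord σ n).length = min n d := by
  simp [ord]

theorem mem_ord {d : ℕ} (σ : Equiv.Perm (Fin d)) (n : ℕ) (i : Fin d) :
    i ∈ ord σ n ↔ (σ.symm i).val < n := by
  unfold ord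
  rw [List.mem_map]
  constructor
  · rintro ⟨j, hj, rfl⟩
    rw [Equiv.symm_apply_apply]
    obtain ⟨k, hk, hkj⟩ := List.mem_take_iff_getElem.1 hj
    have : (j : ℕ) = k := by rw [← hkj]; simp
    omega
  · intro h
    refine ⟨σ.symm i, ?_, σ.apply_symm_apply i⟩
    rw [List.mem_take_iff_getElem]
    have hd : (σ.symm i).val < d := (σ.symm i).isLt
    refine ⟨(σ.symm i).val, ?_, ?_⟩
    · simp; omega
    · simp

end Vale.Agent.P249.SP
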