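import Vale.Agent.P249.SP.PairB

/-!
# P249, PAIR: averages over random orders
`uAv τ ψ P n` is the average over all permutations `σ` of the coordinates of
`uu τ ψ P (σ 0, ..., σ (n-1)) ∅`.
-/

open Finset
open scoped BigOperators symmDiff

namespace Vale.Agent.P249.SP

variable {d : ℕ}

/-- the first `n` positions, as a list -/
def pos (d n : ℕ) : List (Fin d) := (List.finRange d).filter fun x => x.val < n

theorem mem_pos {n : ℕ} {x : Fin d} : x ∈ pos d n ↔ x.val < n := by
  simp [pos]

theorem pos_nodup (n : ℕ) : (pos d n).Nodup := (List.nodup_finRange d).filter _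

/-- the window of positions `t, ..., t + s - 1` -/
def win (d t s : ℕ) : Finset (Fin d) := univ.filter fun x => t ≤ x.val ∧ x.val < t + s

theorem win_card {t s : ℕ} (h : t + s ≤ d) : (win d t s).card = s := by
  have h1 : (win d t s).map Fin.valEmbedding = Finset.Ico t (t + s) := by
    ext x
    simp only [win, Finset.mem_map, Finset.mem_filter, Finset.mem_univ, true_and,
      Fin.valEmbedding_apply, Finset.mem_Ico]
    constructor
    · rintro ⟨y, hy, rfl⟩; exact hy
    · intro hx
      exact ⟨⟨x, by omega⟩, hx, rfl⟩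
  have h2 := congrArg Finset.card h1
  rw [Finset.card_map, Nat.card_Ico] at h2
  omega

theorem pos_length {n : ℕ} (h : n ≤ d) : (pos d n).length = n := by
  have h1 : (pos d n).toFinset = win d 0 n := by
    ext x
    simp [mem_pos, win]
  rw [← List.toFinset_card_of_nodup (pos_nodup n), h1, win_card (by omega)]

/-- averages over all orders only depend on the length of the list of positions -/
theorem sum_perm_list_eq (F : List (Fin d) → ℝ) {L L' : List (Fin d)} (hL : L.Nodup)
    (hL' : L'.Nodup) (hlen : L.length = L'.length) :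
    ∑ σ : Equiv.Perm (Fin d), F (L.map σ) = ∑ σ : Equiv.Perm (Fin d), F (L'.map σ) := by
  -- a permutation `ρ` with `L'.map ρ = L`
  obtain ⟨ρ, hρ⟩ : ∃ ρ : Equiv.Perm (Fin d), L'.map ρ = L := by
    have hpre := Equiv.Perm.isMultiplyPretransitive (Fin d) L'.length
    let x : Fin L'.length ↪ Fin d := ⟨fun i => L'.get i, List.nodup_iff_injective_get.1 hL'⟩
    let y : Fin L'.length ↪ Fin d :=
      ⟨fun i => L.get (Fin.cast hlen.symm i), fun a b h => by
        have := List.nodup_iff_injective_get.1 hL h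
        exact Fin.cast_injective _ this⟩
    obtain ⟨ρ, hρ⟩ := hpre.exists_smul_eq x y
    refine ⟨ρ, List.ext_getElem (by simp [hlen]) fun n h1 h2 => ?_⟩
    have h3 : n < L'.length := by simpa using h1
    have h4 := congrArg (fun e : Fin L'.length ↪ Fin d => e ⟨n, h3⟩) hρ
    simp only [Function.Embedding.smul_apply, Equiv.Perm.smul_def] at h4
    simpa [x, y] using h4
  rw [← Equiv.sum_comp (Equiv.mulRight ρ) (fun σ => F (L'.map σ))]
  refine Finset.sum_congr rfl fun σ _ => ?_
  rw [← hρ, List.map_map]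
  rfl

section
variable {ι : Type} [Fintype ι] (τ : List (Fin d × Bool) → Finset (Fin d) → ι → ℝ) (ψ : ι → ℝ)
  (P : ι → Cube d)

/-- the average over random orders -/
noncomputable def uAv (n : ℕ) : ℝ :=
  (∑ σ : Equiv.Perm (Fin d), uu τ ψ P ((pos d n).map σ) ∅) / (d.factorial : ℝ)

theorem fact_pos' : (0 : ℝ) < (d.factorial : ℝ) := by exact_mod_cast Nat.factorial_pos d

theorem card_perm' : (Fintype.card (Equiv.Perm (Fin d)) : ℝ) = (d.factorial : ℝ) := by
  rw [Fintype.card_perm, Fintype.card_fin]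

/-- `u(n)` from an arbitrary list of `n` positions -/
theorem uAv_eq {L : List (Fin d)} (hL : L.Nodup) :
    (∑ σ : Equiv.Perm (Fin d), uu τ ψ P (L.map σ) ∅) / (d.factorial : ℝ) =
      uAv τ ψ P L.length := by
  have hle : L.length ≤ d := by simpa using hL.length_le_card
  unfold uAv
  rw [sum_perm_list_eq (fun C => uu τ ψ P C ∅) hL (pos_nodup L.length) (pos_length hle).symm]

/-- averages of functions bounded by `K` are bounded by `K` -/
theorem abs_avg_le {K : ℝ} (f : Equiv.Perm (Fin d) → ℝ) (h : ∀ σ, |f σ| ≤ K) :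
    |(∑ σ, f σ) / (d.factorial : ℝ)| ≤ K := by
  rw [abs_div, abs_of_pos fact_pos', div_le_iff₀ fact_pos']
  refine (Finset.abs_sum_le_sum_abs _ _).trans ?_
  refine (Finset.sum_le_sum fun σ _ => h σ).trans ?_
  rw [Finset.sum_const, nsmul_eq_mul, Finset.card_univ, card_perm', mul_comm]

theorem norm_avg_le {K : ℝ} (f : Equiv.Perm (Fin d) → ℂ) (h : ∀ σ, ‖f σ‖ ≤ K) :
    ‖(∑ σ, f σ) / (d.factorial : ℂ)‖ ≤ K := by
  rw [norm_div, Complex.norm_natCast, div_le_iff₀ fact_pos']
  refine (norm_sum_le _ _).trans ?_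
  refine (Finset.sum_le_sum fun σ _ => h σ).trans ?_
  rw [Finset.sum_const, nsmul_eq_mul, Finset.card_univ, card_perm', mul_comm]

/-- iterated compatibility -/
theorem uu_iter {p D : ℝ} (hB : SpecPairB) (hp : 1 < p) (hD : 1 ≤ D) {m : ℕ} {ε : ℝ}
    (hε : 0 ≤ ε) (hS : Sys p D ε d m τ) (hψ : ∀ i, |ψ i| ≤ 1) :
    ∀ (l C : List (Fin d)) (B : Finset (Fin d)), C.Nodup → l.Nodup → (∀ i ∈ C, i ∉ B) →
      l.toFinset = B → B.card ≤ m →
      |uu τ ψ P C B - uu τ ψ P (C ++ l) ∅| ≤ l.length * (ε * Fintype.card ι) := by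
  intro l
  induction l with
  | nil =>
    intro C B _ _ _ hl _
    have : B = ∅ := by simpa using hl.symm
    subst this
    simp
  | cons j l ih =>
    intro C B hC hl hCB hlB hBm
    have hjl : j ∉ l := (List.nodup_cons.1 hl).1
    have hl' : l.Nodup := (List.nodup_cons.1 hl).2
    have hjB : j ∈ B := by rw [← hlB]; simp
    have hjC : j ∉ C := fun h => hCB j h hjB
    have h1 := hB p D hp hD d m ε hε ι τ hS ψ P hψ C B j hC hCB hjB hBm
    have hC' : (C ++ [j]).Nodup := by
      rw [List.nodup_append]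
      refine ⟨hC, by simp, ?_⟩
      intro a ha b hb
      simp only [List.mem_singleton] at hb
      subst hb
      exact fun h => hjC (h ▸ ha)
    have hCB' : ∀ i ∈ C ++ [j], i ∉ B.erase j := by
      intro i hi
      rw [List.mem_append, List.mem_singleton] at hi
      rcases hi with hi | hi
      · exact fun h => hCB i hi (Finset.mem_of_mem_erase h)
      · subst hi; exact Finset.notMem_erase i B
    have hlB' : l.toFinset = B.erase j := by
      rw [← hlB, List.toFinset_cons, Finset.erase_insert]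
      simpa using hjl
    have hBm' : (B.erase j).card ≤ m := (Finset.card_le_card (Finset.erase_subset j B)).trans hBm
    have h2 := ih (C ++ [j]) (B.erase j) hC' hl' hCB' hlB' hBm'
    have h3 : (C ++ [j]) ++ l = C ++ j :: l := by simp
    rw [h3] at h2
    have h4 : uu τ ψ P C B - uu τ ψ P (C ++ j :: l) ∅ =
        (uu τ ψ P C B - uu τ ψ P (C ++ [j]) (B.erase j)) +
        (uu τ ψ P (C ++ [j]) (B.erase j) - uu τ ψ P (C ++ j :: l) ∅) := by ring
    rw [h4]
    refine (abs_add_le _ _).trans ?_
    rw [List.length_cons]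
    push_cast
    linarith

/-- the average of `u^{σ(pos t)}(σ B)` is `u(t + |B|)` up to a small error -/
theorem avg_uu {p D : ℝ} (hB : SpecPairB) (hp : 1 < p) (hD : 1 ≤ D) {m : ℕ} {ε : ℝ}
    (hε : 0 ≤ ε) (hS : Sys p D ε d m τ) (hψ : ∀ i, |ψ i| ≤ 1) (t : ℕ) (ht : t ≤ d)
    (B : Finset (Fin d)) (hBt : ∀ x ∈ B, t ≤ x.val) (hBm : B.card ≤ m) :
    |(∑ σ : Equiv.Perm (Fin d), uu τ ψ P ((pos d t).map σ) (B.map σ.toEmbedding)) /
        (d.factorial : ℝ) - uAv τ ψ P (t + B.card)| ≤ B.card * (ε * Fintype.card ι) := by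
  have hnd : (pos d t ++ B.toList).Nodup := by
    rw [List.nodup_append]
    refine ⟨pos_nodup t, B.nodup_toList, ?_⟩
    intro a ha b hb
    rw [Finset.mem_toList] at hb
    have h1 := mem_pos.1 ha
    have h2 := hBt b hb
    intro h
    subst h
    omega
  have hlen : (pos d t ++ B.toList).length = t + B.card := by
    rw [List.length_append, pos_length ht, Finset.length_toList]
  rw [← hlen, ← uAv_eq τ ψ P hnd, ← sub_div, ← Finset.sum_sub_distrib]
  refine abs_avg_le _ fun σ => ?_
  have h := uu_iter τ ψ P hB hp hD hε hS hψ (B.toList.map σ) ((pos d t).map σ)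
    (B.map σ.toEmbedding) ((pos_nodup t).map σ.injective) (B.nodup_toList.map σ.injective) ?_ ?_ ?_
  · rw [List.map_append]
    refine h.trans_eq ?_
    rw [List.length_map, Finset.length_toList]
  · intro i hi hiB
    rw [List.mem_map] at hi
    obtain ⟨a, ha, rfl⟩ := hi
    rw [Finset.mem_map] at hiB
    obtain ⟨b, hb, hab⟩ := hiB
    have h1 : b = a := σ.injective hab
    subst h1
    have h2 := mem_pos.1 ha
    have h3 := hBt b hb
    omega
  · ext x
    rw [List.mem_toFinset, List.mem_map, Finset.mem_map]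
    simp only [Finset.mem_toList, Equiv.coe_toEmbedding]
  · rw [Finset.card_map]; exact hBm

end

end Vale.Agent.P249.SP
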