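import Vale.Agent.P249.SP.Spec

/-!
# P249, piece REG (helper456)
The region `zmap p '' {‖w‖ ≤ 1}` contains a neighbourhood of the segment `[z₀, 3/4]`.
-/

open Set

namespace Vale.Agent.P249.SP

/-- half axis of the ellipse `zmap p '' {‖w‖ = ρ}` -/
noncomputable def regA (p ρ : ℝ) : ℝ := (ρ + ρ ^ (p - 1)) / (1 + ρ ^ p)

/-- (signed) other half axis -/
noncomputable def regB (p ρ : ℝ) : ℝ := (ρ - ρ ^ (p - 1)) / (1 + ρ ^ p)

theorem regA_continuousOn {p : ℝ} (hp : 1 < p) : ContinuousOn (regA p) (Ici 0) := by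
  have h1 : Continuous fun x : ℝ => x ^ (p - 1) := Real.continuous_rpow_const (by linarith)
  have h2 : Continuous fun x : ℝ => x ^ p := Real.continuous_rpow_const (by linarith)
  refine ContinuousOn.div (by fun_prop) (by fun_prop) fun x hx => ?_
  have : 0 ≤ x ^ p := Real.rpow_nonneg hx _
  positivity

theorem regB_continuousOn {p : ℝ} (hp : 1 < p) : ContinuousOn (regB p) (Ici 0) := by
  have h1 : Continuous fun x : ℝ => x ^ (p - 1) := Real.continuous_rpow_const (by linarith)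
  have h2 : Continuous fun x : ℝ => x ^ p := Real.continuous_rpow_const (by linarith)
  refine ContinuousOn.div (by fun_prop) (by fun_prop) fun x hx => ?_
  have : 0 ≤ x ^ p := Real.rpow_nonneg hx _
  positivity

theorem regA_zero {p : ℝ} (hp : 1 < p) : regA p 0 = 0 := by
  have h : (0 : ℝ) ^ (p - 1) = 0 := Real.zero_rpow (by linarith)
  simp [regA, h]

theorem regA_one (p : ℝ) : regA p 1 = 1 := by
  simp [regA]

theorem regA_pos {p ρ : ℝ} (hρ : 0 < ρ) : 0 < regA p ρ := by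
  have h1 : 0 < ρ ^ (p - 1) := Real.rpow_pos_of_pos hρ _
  have h2 : 0 < ρ ^ p := Real.rpow_pos_of_pos hρ _
  unfold regA
  positivity

theorem regB_ne {p ρ : ℝ} (hp2 : p ≠ 2) (hρ : 0 < ρ) (hρ1 : ρ < 1) : regB p ρ ≠ 0 := by
  have h2 : 0 < ρ ^ p := Real.rpow_pos_of_pos hρ _
  have h3 : ρ - ρ ^ (p - 1) ≠ 0 := by
    intro h
    have h4 : ρ ^ (1 : ℝ) = ρ ^ (p - 1) := by
      rw [Real.rpow_one]
      linarith
    rcases lt_or_gt_of_ne hp2 with h5 | h5
    · have h6 := Real.rpow_lt_rpow_of_exponent_gt hρ hρ1 (show p - 1 < 1 by linarith)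
      exact h6.ne h4
    · have h6 := Real.rpow_lt_rpow_of_exponent_gt hρ hρ1 (show (1 : ℝ) < p - 1 by linarith)
      exact h6.ne' h4
  unfold regB
  exact div_ne_zero h3 (by positivity)

/-- points of the ellipse are values of `zmap` -/
theorem reg_point {p ρ X Y : ℝ} (hρ : 0 < ρ) (ha : regA p ρ ≠ 0) (hb : regB p ρ ≠ 0)
    (h : (X / regA p ρ) ^ 2 + (Y / regB p ρ) ^ 2 = 1) :
    ∃ w : ℂ, ‖w‖ = ρ ∧ (1 : ℂ) - (X + Y * Complex.I) = zmap p w := by
  have hne : (1 : ℝ) + ρ ^ p ≠ 0 := by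
    have := Real.rpow_pos_of_pos hρ p
    positivity
  set x := X / regA p ρ with hx
  set y := Y / regB p ρ with hy
  have hX : X = regA p ρ * x := by
    rw [hx]
    field_simp
  have hY : Y = regB p ρ * y := by
    rw [hy]
    field_simp
  refine ⟨(ρ : ℂ) * (x + y * Complex.I), ?_, ?_⟩
  · have h1 : ‖((x : ℂ) + y * Complex.I)‖ = 1 := by
      have h2 : ‖((x : ℂ) + y * Complex.I)‖ ^ 2 = 1 := by
        rw [← Complex.normSq_eq_norm_sq, Complex.normSq_add_mul_I]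
        exact h
      have h3 : 0 ≤ ‖((x : ℂ) + y * Complex.I)‖ := norm_nonneg _
      nlinarith
    rw [norm_mul, h1, Complex.norm_real, Real.norm_eq_abs, abs_of_pos hρ, mul_one]
  · have hn : ‖(ρ : ℂ) * (x + y * Complex.I)‖ = ρ := by
      have h1 : ‖((x : ℂ) + y * Complex.I)‖ = 1 := by
        have h2 : ‖((x : ℂ) + y * Complex.I)‖ ^ 2 = 1 := by
          rw [← Complex.normSq_eq_norm_sq, Complex.normSq_add_mul_I]
          exact h
        have h3 : 0 ≤ ‖((x : ℂ) + y * Complex.I)‖ := norm_nonneg _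
        nlinarith
      rw [norm_mul, h1, Complex.norm_real, Real.norm_eq_abs, abs_of_pos hρ, mul_one]
    unfold zmap
    rw [hn]
    have hpow : ρ ^ (p - 2) * ρ = ρ ^ (p - 1) := by
      rw [show p - 1 = (p - 2) + 1 by ring, Real.rpow_add hρ, Real.rpow_one]
    have hA : regA p ρ * (1 + ρ ^ p) = ρ + ρ ^ (p - 1) := by
      unfold regA
      field_simp
    have hB : regB p ρ * (1 + ρ ^ p) = ρ - ρ ^ (p - 1) := by
      unfold regB
      field_simp
    have hneC : ((1 + ρ ^ p : ℝ) : ℂ) ≠ 0 := by exact_mod_cast hne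
    have key : ((ρ : ℂ) * (x + y * Complex.I) + ((ρ ^ (p - 2) : ℝ) : ℂ) *
        (starRingEnd ℂ) ((ρ : ℂ) * (x + y * Complex.I))) =
        (X + Y * Complex.I) * ((1 + ρ ^ p : ℝ) : ℂ) := by
      have hconj : (starRingEnd ℂ) ((ρ : ℂ) * (x + y * Complex.I)) = ρ * (x - y * Complex.I) := by
        simp [Complex.conj_ofReal, sub_eq_add_neg]
      rw [hconj, ← mul_assoc, ← Complex.ofReal_mul, hpow, hX, hY]
      have hAc : ((regA p ρ : ℝ) : ℂ) * ((1 + ρ ^ p : ℝ) : ℂ) = (ρ + ρ ^ (p - 1) : ℝ) := by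
        rw [← Complex.ofReal_mul, hA]
      have hBc : ((regB p ρ : ℝ) : ℂ) * ((1 + ρ ^ p : ℝ) : ℂ) = (ρ - ρ ^ (p - 1) : ℝ) := by
        rw [← Complex.ofReal_mul, hB]
      have e : (((regA p ρ * x : ℝ) : ℂ) + ((regB p ρ * y : ℝ) : ℂ) * Complex.I) *
          ((1 + ρ ^ p : ℝ) : ℂ) =
          (((regA p ρ : ℝ) : ℂ) * ((1 + ρ ^ p : ℝ) : ℂ)) * x +
          (((regB p ρ : ℝ) : ℂ) * ((1 + ρ ^ p : ℝ) : ℂ)) * y * Complex.I := by
        simp only [Complex.ofReal_mul]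
        ring
      rw [e, hAc, hBc]
      simp only [Complex.ofReal_add, Complex.ofReal_sub]
      ring
    rw [key, mul_div_assoc, div_self hneC, mul_one]

/-- **REG** -/
theorem specReg : SpecReg := by
  intro p hp hp2 z₀ hz0 hz1
  -- `ρ₁` with `a(ρ₁) = 1 - z₀/2`
  have hc01 : ContinuousOn (regA p) (Icc 0 1) :=
    (regA_continuousOn hp).mono fun x hx => hx.1
  obtain ⟨ρ₁, hρ₁, ha₁⟩ : (1 - z₀ / 2) ∈ regA p '' Icc 0 1 := by
    refine intermediate_value_Icc (zero_le_one) hc01 ?_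
    rw [regA_zero hp, regA_one]
    constructor <;> linarith
  have hρ₁0 : 0 < ρ₁ := by
    rcases eq_or_lt_of_le hρ₁.1 with h | h
    · rw [← h, regA_zero hp] at ha₁
      linarith
    · exact h
  have hρ₁1 : ρ₁ < 1 := by
    rcases eq_or_lt_of_le hρ₁.2 with h | h
    · rw [h, regA_one] at ha₁
      linarith
    · exact h
  -- `ρ₀` with `a(ρ₀) = 1/8`
  have hc1 : ContinuousOn (regA p) (Icc 0 ρ₁) :=
    (regA_continuousOn hp).mono fun x hx => hx.1
  obtain ⟨ρ₀, hρ₀, ha₀⟩ : (1 / 8 : ℝ) ∈ regA p '' Icc 0 ρ₁ := by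
    refine intermediate_value_Icc hρ₁0.le hc1 ?_
    rw [regA_zero hp, ha₁]
    constructor <;> linarith
  have hρ₀0 : 0 < ρ₀ := by
    rcases eq_or_lt_of_le hρ₀.1 with h | h
    · rw [← h, regA_zero hp] at ha₀
      linarith
    · exact h
  have hb₁ : regB p ρ₁ ≠ 0 := regB_ne hp2 hρ₁0 hρ₁1
  have hb₁' : 0 < |regB p ρ₁| := abs_pos.mpr hb₁
  refine ⟨min (z₀ / 4) (|regB p ρ₁| * z₀ / 2), by positivity, ?_⟩
  intro x z hx0 hx1 hz
  have hr1 : ‖z - (x : ℂ)‖ ≤ z₀ / 4 := hz.trans (min_le_left _ _)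
  have hr2 : ‖z - (x : ℂ)‖ ≤ |regB p ρ₁| * z₀ / 2 := hz.trans (min_le_right _ _)
  have hre : |z.re - x| ≤ ‖z - (x : ℂ)‖ := by
    have := Complex.abs_re_le_norm (z - (x : ℂ))
    simpa using this
  have him : |z.im| ≤ ‖z - (x : ℂ)‖ := by
    have := Complex.abs_im_le_norm (z - (x : ℂ))
    simpa using this
  set X := 1 - z.re with hXdef
  set Y := - z.im with hYdef
  have hre' := abs_le.mp (hre.trans hr1)
  have hX1 : 1 / 8 ≤ X := by
    rw [hXdef]
    linarith [hre'.2]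
  have hX2 : X ≤ 1 - 3 / 4 * z₀ := by
    rw [hXdef]
    linarith [hre'.1]
  have hY : |Y| ≤ |regB p ρ₁| * z₀ / 2 := by
    rw [hYdef, abs_neg]
    exact him.trans hr2
  -- the function `g`
  have hsub : Icc ρ₀ ρ₁ ⊆ Ici (0 : ℝ) := fun y hy => hρ₀0.le.trans hy.1
  have hgc : ContinuousOn (fun ρ => (X / regA p ρ) ^ 2 + (Y / regB p ρ) ^ 2) (Icc ρ₀ ρ₁) := by
    refine ContinuousOn.add ?_ ?_
    · refine ContinuousOn.pow (ContinuousOn.div continuousOn_const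
        ((regA_continuousOn hp).mono hsub) fun y hy => ?_) 2
      exact (regA_pos (hρ₀0.trans_le hy.1)).ne'
    · refine ContinuousOn.pow (ContinuousOn.div continuousOn_const
        ((regB_continuousOn hp).mono hsub) fun y hy => ?_) 2
      exact regB_ne hp2 (hρ₀0.trans_le hy.1) (hy.2.trans_lt hρ₁1)
  have hg1 : (X / regA p ρ₁) ^ 2 + (Y / regB p ρ₁) ^ 2 ≤ 1 := by
    have h1 : X / regA p ρ₁ ≤ 1 - z₀ / 4 := by
      rw [ha₁, div_le_iff₀ (by linarith)]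
      nlinarith
    have h2 : 0 ≤ X / regA p ρ₁ := by
      rw [ha₁]
      exact div_nonneg (by linarith) (by linarith)
    have h3 : (X / regA p ρ₁) ^ 2 ≤ (1 - z₀ / 4) ^ 2 := by
      exact pow_le_pow_left₀ h2 h1 2
    have h4 : |Y / regB p ρ₁| ≤ z₀ / 2 := by
      rw [abs_div, div_le_iff₀ hb₁']
      linarith
    have h5 : (Y / regB p ρ₁) ^ 2 ≤ (z₀ / 2) ^ 2 := by
      rw [← sq_abs]
      exact pow_le_pow_left₀ (abs_nonneg _) h4 2
    nlinarith
  have hg0 : 1 ≤ (X / regA p ρ₀) ^ 2 + (Y / regB p ρ₀) ^ 2 := by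
    have h1 : 1 ≤ X / regA p ρ₀ := by
      rw [ha₀, le_div_iff₀ (by norm_num)]
      linarith
    nlinarith [sq_nonneg (Y / regB p ρ₀)]
  obtain ⟨ρ, hρ, hgρ⟩ := intermediate_value_Icc' hρ₀.2 hgc ⟨hg1, hg0⟩
  have hρpos : 0 < ρ := hρ₀0.trans_le hρ.1
  have hρ1 : ρ < 1 := hρ.2.trans_lt hρ₁1
  obtain ⟨w, hw1, hw2⟩ := reg_point hρpos (regA_pos hρpos).ne' (regB_ne hp2 hρpos hρ1) hgρ
  refine ⟨w, by rw [hw1]; exact hρ1.le, ?_⟩
  rw [← hw2, hXdef, hYdef]
  apply Complex.ext <;> simp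

end Vale.Agent.P249.SP
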