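import Mathlib

/-!
# P249: superpolylogarithmic lower bound for dimension reduction in `L_p`, `p ≠ 2`
Frozen definitions and statements (captain helper557).  Each `SpecXxx : Prop` below is to be proved
as `theorem specXxx : SpecXxx` in the file named in its doc string.  The proofs are sketched in
`Vale/Agent/P249/SP/PROOF.md`.
-/

open Finset
open scoped BigOperators symmDiff

namespace Vale.Agent.P249.SP

/-- the discrete cube -/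
abbrev Cube (d : ℕ) := Fin d → Bool

/-- the sign of a bit -/
def sg (b : Bool) : ℝ := if b then 1 else -1

/-- Walsh function -/
noncomputable def walsh {d : ℕ} (S : Finset (Fin d)) (y : Cube d) : ℝ := ∏ i ∈ S, sg (y i)

/-- Walsh polynomial with coefficients `b` -/
noncomputable def poly {d : ℕ} (b : Finset (Fin d) → ℝ) (y : Cube d) : ℝ := ∑ S, b S * walsh S y

/-- `L_p`-norm on the cube with the uniform probability -/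
noncomputable def nY (p : ℝ) {d : ℕ} (f : Cube d → ℝ) : ℝ := ((∑ y, |f y| ^ p) / 2 ^ d) ^ (1 / p)

/-- norm of `ℓ_p^ι` -/
noncomputable def nT (p : ℝ) {ι : Type} [Fintype ι] (v : ι → ℝ) : ℝ := (∑ i, |v i| ^ p) ^ (1 / p)

/-- indicator of the subcube given by the prefix `P` (a list of (coordinate, value)) -/
noncomputable def ind {d : ℕ} (P : List (Fin d × Bool)) (y : Cube d) : ℝ :=
  if ∀ c ∈ P, y c.1 = c.2 then 1 else 0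

/-- number of subsets of `Fin d` with at most `m` elements -/
def NN (d m : ℕ) : ℕ := (univ.filter fun S : Finset (Fin d) => S.card ≤ m).card

/-- Bernoulli(θ) weight of a subset -/
noncomputable def wt (θ : ℝ) {d : ℕ} (S : Finset (Fin d)) : ℝ :=
  θ ^ S.card * (1 - θ) ^ (d - S.card)

/-- probability that a Bernoulli(θ) subset of `Fin d` has more than `s` elements -/
noncomputable def tail (θ : ℝ) (d s : ℕ) : ℝ :=
  ∑ S ∈ univ.filter (fun S : Finset (Fin d) => s < S.card), wt θ S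

/-- the linearised system: `τ P S` = image of `1_P w_S` under the linear map `T_P` -/
structure Sys (p D ε : ℝ) (d m : ℕ) {ι : Type} [Fintype ι]
    (τ : List (Fin d × Bool) → Finset (Fin d) → ι → ℝ) : Prop where
  L1 : ∀ P : List (Fin d × Bool), P.length ≤ d → ∀ b : Finset (Fin d) → ℝ,
    (∀ S, m < S.card → b S = 0) →
    nT p (∑ S, b S • τ P S) ≤ D * nY p (fun y => ind P y * poly b y) + ε * ∑ S, |b S|
  L2 : ∀ P : List (Fin d × Bool), P.length < d → ∀ (i : Fin d) (β : Bool) (S : Finset (Fin d)),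
    S.card + 1 ≤ m →
    nT p (τ (P ++ [(i, β)]) S - (1 / 2 : ℝ) • (τ P S + sg β • τ P (S ∆ {i}))) ≤ ε

/-- a weighted finite family of integer polynomials, on which the lower bound (L3) is required -/
structure TestFam (p Λ : ℝ) (d m : ℕ) where
  T : Type
  [ft : Fintype T]
  π : T → ℝ
  b : T → Finset (Fin d) → ℤ
  π_nonneg : ∀ t, 0 ≤ π t
  supp : ∀ t S, m < S.card → b t S = 0
  l1 : ∀ t, ∑ S, |(b t S : ℝ)| ≤ Λ
  mass : ∑ t, π t ≤ Λ * ∑ t, π t * nY p (poly fun S => (b t S : ℝ)) ^ p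

/-- (L3) -/
def L3 {p Λ : ℝ} {d m : ℕ} (fam : TestFam p Λ d m) {ι : Type} [Fintype ι]
    (τ : List (Fin d × Bool) → Finset (Fin d) → ι → ℝ) : Prop :=
  letI := fam.ft
  (1 / 2) ^ p * ∑ t, fam.π t * nY p (poly fun S => (fam.b t S : ℝ)) ^ p ≤
    ∑ t, fam.π t * nT p (∑ S, (fam.b t S : ℝ) • τ [] S) ^ p

/-- `F` (arbitrary, nonlinear) has distortion at most `D` on `X` -/
def BiLip (p D : ℝ) {d : ℕ} {ι : Type} [Fintype ι] (X : Finset (Cube d → ℝ))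
    (F : (Cube d → ℝ) → ι → ℝ) : Prop :=
  ∀ x ∈ X, ∀ y ∈ X, nY p (x - y) ≤ nT p (F x - F y) ∧ nT p (F x - F y) ≤ D * nY p (x - y)

/-- **LIN** (linearisation).  Files `Lin*.lean`. -/
def SpecLin : Prop := ∀ p D Λ : ℝ, 1 < p → 1 ≤ D → 1 ≤ Λ → ∃ C : ℝ, 0 < C ∧
  ∀ (d m : ℕ) (ε : ℝ), 0 < ε → ε ≤ 1 → ∀ fam : TestFam p Λ d m,
    ∃ X : Finset (Cube d → ℝ),
      Real.log X.card ≤ C * (NN d m : ℝ) ^ 4 * ((d : ℝ) + 1) ^ 2 * (1 + Real.log (1 / ε)) ∧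
      ∀ (ι : Type) [Fintype ι] (F : (Cube d → ℝ) → ι → ℝ), BiLip p D X F →
        ∃ τ : List (Fin d × Bool) → Finset (Fin d) → ι → ℝ, Sys p D ε d m τ ∧ L3 fam τ

/-- first defect -/
noncomputable def def1 (p : ℝ) {d : ℕ} {ι : Type} [Fintype ι] (T : Finset (Fin d) → ι → ℝ)
    (S : Finset (Fin d)) : ℝ :=
  ∑ i, (min |(T ∅ i + T S i) / 2| |(T ∅ i - T S i) / 2|) ^ p

/-- second defect -/
noncomputable def def2 (p : ℝ) {d : ℕ} {ι : Type} [Fintype ι] (T : Finset (Fin d) → ι → ℝ)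
    (S S' : Finset (Fin d)) : ℝ :=
  ∑ i, ((min |(T ∅ i + T S i + T S' i + T (S ∆ S') i) / 4|
      |(T ∅ i + T S i - T S' i - T (S ∆ S') i) / 4|) ^ p +
    (min |(T ∅ i - T S i + T S' i - T (S ∆ S') i) / 4|
      |(T ∅ i - T S i - T S' i + T (S ∆ S') i) / 4|) ^ p)

/-- `T` is peaked: `T w_S = ± T 1` pointwise up to small mass, multiplicatively in `S` -/
def Peaked (p δ H₀ θ : ℝ) (d s : ℕ) {ι : Type} [Fintype ι] (T : Finset (Fin d) → ι → ℝ) : Prop :=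
  H₀ ≤ ∑ i, |T ∅ i| ^ p ∧
  ∑ S ∈ univ.filter (fun S : Finset (Fin d) => S.card ≤ s),
    ∑ S' ∈ univ.filter (fun S : Finset (Fin d) => S.card ≤ s),
      wt θ S * wt θ S' * (def1 p T S + def2 p T S S') ≤ δ * ∑ i, |T ∅ i| ^ p

/-- **CLK** (Clarkson inequalities with gap).  File `Clk.lean`. -/
def SpecClk : Prop := ∀ p : ℝ, 1 < p → ∀ x y : ℝ,
  (2 ≤ p → |x| ^ p + |y| ^ p + (p / 2 - 1) * (min |x| |y|) ^ p ≤ (|x + y| ^ p + |x - y| ^ p) / 2) ∧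
  (p ≤ 2 → (|x + y| ^ p + |x - y| ^ p) / 2 ≤ |x| ^ p + |y| ^ p - (1 - p / 2) * (min |x| |y|) ^ p)

/-- **UNI** (choice of the universe).  Files `Uni*.lean`; uses CLK. -/
def SpecUni : Prop := ∀ p D δ : ℝ, 1 < p → p ≠ 2 → 1 ≤ D → 0 < δ →
  ∃ (m₀ : ℕ) (Λ H₀ ν : ℝ), 1 ≤ Λ ∧ 0 < H₀ ∧ 0 < ν ∧
    ∀ (d s : ℕ) (θ : ℝ), 0 < θ → θ < 1 → tail θ d s ≤ ν →
      ∃ fam : TestFam p Λ d (m₀ * s), ∀ ε : ℝ, 0 ≤ ε → ε ≤ ν →
        ∀ (ι : Type) [Fintype ι] (τ : List (Fin d × Bool) → Finset (Fin d) → ι → ℝ),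
          Sys p D ε d (m₀ * s) τ → L3 fam τ →
          ∃ τ' : List (Fin d × Bool) → Finset (Fin d) → ι → ℝ,
            Sys p D ε d (3 * s) τ' ∧ Peaked p δ H₀ θ d s (τ' [])

/-- swap: `mix W S S'` equals `S'` on `W` and `S` off `W` -/
def mix {d : ℕ} (W S S' : Finset (Fin d)) : Finset (Fin d) := (S \ W) ∪ (S' ∩ W)

/-- **PT** (product test for sign functions; dimension free and uniform in the bias).
File `PT.lean`. -/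
def SpecPT : Prop := ∀ (d : ℕ) (θ : ℝ), 0 < θ → θ < 1 → ∀ (F : Finset (Fin d) → ℝ),
  (∀ S, F S = 1 ∨ F S = -1) → ∀ e : ℝ, e ≤ 1 / 500 →
  (∀ W : Finset (Fin d), ∑ S, ∑ S', wt θ S * wt θ S' *
    (if F S * F S' = F (mix W S S') * F (mix W S' S) then 0 else 1) ≤ e) →
  ∃ (y : Cube d) (k : ℝ), (k = 1 ∨ k = -1) ∧
    ∑ S, wt θ S * (if F S = k * walsh S y then 0 else 1) ≤ 5 * e

/-- **START** (location map from a peaked system).  File `Start.lean`; uses PT. -/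
def SpecStart : Prop := ∀ p : ℝ, 1 < p → ∃ δ ν : ℝ, 0 < δ ∧ 0 < ν ∧
  ∀ (d s : ℕ) (θ : ℝ), 0 < θ → θ < 1 → tail θ d s ≤ ν →
    ∀ (ι : Type) [Fintype ι] (T : Finset (Fin d) → ι → ℝ) (H₀ : ℝ), 0 < H₀ →
      Peaked p δ H₀ θ d s T →
      ∃ (ψ : ι → ℝ) (P : ι → Cube d), ∑ i, |ψ i| ^ (p / (p - 1)) ≤ 1 ∧
        1 / 4 * H₀ ^ (1 / p) ≤ ∑ S ∈ univ.filter (fun S : Finset (Fin d) => S.card ≤ s),
          wt θ S * ∑ i, ψ i * walsh S (P i) * T S i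

/-- the parameter `z(w) = 1 - (w + |w|^{p-2} conj w) / (1 + |w|^p)` -/
noncomputable def zmap (p : ℝ) (w : ℂ) : ℂ :=
  1 - (w + ((‖w‖ ^ (p - 2) : ℝ) : ℂ) * (starRingEnd ℂ) w) / ((1 + ‖w‖ ^ p : ℝ) : ℂ)

/-- binomial average of `u (t + ·)` with complex parameter `z` -/
noncomputable def binC (s : ℕ) (z : ℂ) (u : ℕ → ℝ) (t : ℕ) : ℂ :=
  ∑ r ∈ range (s + 1), (s.choose r : ℂ) * z ^ r * (1 - z) ^ (s - r) * (u (t + r) : ℂ)

/-- binomial average of `u (t + ·)` with real parameter `z` -/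
noncomputable def binR (s : ℕ) (z : ℝ) (u : ℕ → ℝ) (t : ℕ) : ℝ :=
  ∑ r ∈ range (s + 1), (s.choose r : ℝ) * z ^ r * (1 - z) ^ (s - r) * u (t + r)

/-- total error allowed for a system with `card ι` target coordinates -/
noncomputable def err (ε : ℝ) (d : ℕ) (ι : Type) [Fintype ι] : ℝ :=
  ε * ((Fintype.card ι : ℝ) + 1) * 1000 ^ d

/-- prefix of the point `y` along the list of coordinates `C` -/
def pre {d : ℕ} (C : List (Fin d)) (y : Cube d) : List (Fin d × Bool) := C.map fun i => (i, y i)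

/-- `u^C(B)`: the pairing of `ψ` with `T_{pre C (P i)} (1_{B, P i})` -/
noncomputable def uu {d : ℕ} {ι : Type} [Fintype ι]
    (τ : List (Fin d × Bool) → Finset (Fin d) → ι → ℝ) (ψ : ι → ℝ) (P : ι → Cube d)
    (C : List (Fin d)) (B : Finset (Fin d)) : ℝ :=
  ∑ i, ψ i * ((1 / 2) ^ B.card * ∑ S ∈ B.powerset, walsh S (P i) * τ (pre C (P i)) S i)

/-- **PAIR-A** (the nonlinear pairing for one list `C` and one set `B₀`).  File `PairA.lean`. -/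
def SpecPairA : Prop := ∀ p D : ℝ, 1 < p → 1 ≤ D → ∀ (d m : ℕ) (ε : ℝ), 0 ≤ ε →
  ∀ (ι : Type) [Fintype ι] (τ : List (Fin d × Bool) → Finset (Fin d) → ι → ℝ),
    Sys p D ε d m τ → ∀ (ψ : ι → ℝ) (P : ι → Cube d), ∑ i, |ψ i| ^ (p / (p - 1)) ≤ 1 →
    ∀ (C : List (Fin d)) (B₀ : Finset (Fin d)), C.Nodup → (∀ i ∈ C, i ∉ B₀) → B₀.card ≤ m →
      (∀ w : ℂ, ‖w‖ ≤ 1 → ‖∑ B ∈ B₀.powerset, (zmap p w) ^ B.card *
        (1 - zmap p w) ^ (B₀.card - B.card) * (uu τ ψ P C B : ℂ)‖ ≤ 2 * D + ε * 10 ^ (d + 1)) ∧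
      |uu τ ψ P C ∅| ≤ (Fintype.card ι : ℝ) ^ (1 / p) * (D * (2 : ℝ) ^ (-(C.length : ℝ) / p) + ε)

/-- **PAIR-B** (compatibility).  File `PairB.lean`. -/
def SpecPairB : Prop := ∀ p D : ℝ, 1 < p → 1 ≤ D → ∀ (d m : ℕ) (ε : ℝ), 0 ≤ ε →
  ∀ (ι : Type) [Fintype ι] (τ : List (Fin d × Bool) → Finset (Fin d) → ι → ℝ),
    Sys p D ε d m τ → ∀ (ψ : ι → ℝ) (P : ι → Cube d), (∀ i, |ψ i| ≤ 1) →
    ∀ (C : List (Fin d)) (B : Finset (Fin d)) (j : Fin d), C.Nodup → (∀ i ∈ C, i ∉ B) →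
      j ∈ B → B.card ≤ m →
      |uu τ ψ P C B - uu τ ψ P (C ++ [j]) (B.erase j)| ≤ ε * Fintype.card ι

/-- **PAIR** (average over random orders).  File `Pair.lean`; uses PAIR-A and PAIR-B. -/
def SpecPair : Prop := ∀ p D : ℝ, 1 < p → 1 ≤ D → ∀ (d s m : ℕ) (ε : ℝ), 1 ≤ s → s ≤ m → s ≤ d →
  0 ≤ ε → ∀ (ι : Type) [Fintype ι] (τ : List (Fin d × Bool) → Finset (Fin d) → ι → ℝ),
    Sys p D ε d m τ → ∀ (ψ : ι → ℝ) (P : ι → Cube d), ∑ i, |ψ i| ^ (p / (p - 1)) ≤ 1 →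
    err ε d ι ≤ 1 →
    ∃ u : ℕ → ℝ,
      (∀ t, t + s ≤ d → ∀ w : ℂ, ‖w‖ ≤ 1 → ‖binC s (zmap p w) u t‖ ≤ 2 * D + 1) ∧
      (∀ n, n ≤ d → |u n| ≤ 2 * D + 1) ∧
      (∀ n, n ≤ d → |u n| ≤
        (Fintype.card ι : ℝ) ^ (1 / p) * (D * (2 : ℝ) ^ (-(n : ℝ) / p)) + err ε d ι) ∧
      (∀ S : Finset (Fin d), S.card ≤ s → |∑ i, ψ i * walsh S (P i) * τ [] S i| ≤ D + 1) ∧
      (∀ z : ℝ, 0 ≤ z → z ≤ 1 →
        |(∑ B ∈ univ.filter (fun B : Finset (Fin d) => B.card ≤ s), wt z B * ((1 / 2) ^ B.card *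
            ∑ S ∈ B.powerset, ∑ i, ψ i * walsh S (P i) * τ [] S i)) -
          ∑ r ∈ range (s + 1), (d.choose r : ℝ) * z ^ r * (1 - z) ^ (d - r) * u r| ≤ err ε d ι)

/-- **REG** (the region contains a neighbourhood of `[z₀, 3/4]`).  File `Reg.lean`. -/
def SpecReg : Prop := ∀ p : ℝ, 1 < p → p ≠ 2 → ∀ z₀ : ℝ, 0 < z₀ → z₀ < 1 / 2 →
  ∃ r₀ : ℝ, 0 < r₀ ∧ ∀ (x : ℝ) (z : ℂ), z₀ ≤ x → x ≤ 3 / 4 → ‖z - (x : ℂ)‖ ≤ r₀ →
    ∃ w : ℂ, ‖w‖ ≤ 1 ∧ z = zmap p w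

/-- **CONT** (propagation of smallness along the segment).  File `Cont.lean`. -/
def SpecCont : Prop := ∀ z₀ r₀ : ℝ, 0 < z₀ → z₀ < 1 / 2 → 0 < r₀ →
  ∃ α : ℝ, 0 < α ∧ α ≤ 1 ∧ ∀ (Q : ℂ → ℂ) (M μ : ℝ), Differentiable ℂ Q → 0 < μ → μ ≤ M →
    (∀ (x : ℝ) (z : ℂ), z₀ ≤ x → x ≤ 3 / 4 → ‖z - (x : ℂ)‖ ≤ r₀ → ‖Q z‖ ≤ M) →
    (∀ x : ℝ, 1 / 2 ≤ x → x ≤ 3 / 4 → ‖Q (x : ℂ)‖ ≤ μ) →
    ‖Q (z₀ : ℂ)‖ ≤ M ^ (1 - α) * μ ^ α

/-- **CHAIN** (smallness of `u` at high levels propagates to level `0`).  File `Chain.lean`; uses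
REG and CONT (or another route; helper982). -/
def SpecChain : Prop := ∀ p : ℝ, 1 < p → p ≠ 2 → ∀ A J : ℕ, 8 * A + 8 ≤ J →
  ∃ b : ℝ, 0 < b ∧ ∃ s₀ : ℕ, ∀ s : ℕ, s₀ ≤ s → ∀ (M : ℝ) (u : ℕ → ℝ), 0 ≤ M →
    (∀ t, t + s ≤ J * s → ∀ w : ℂ, ‖w‖ ≤ 1 → ‖binC s (zmap p w) u t‖ ≤ M) →
    (∀ n : ℕ, A * s ≤ n → n ≤ J * s → |u n| ≤ M * (2 : ℝ) ^ (-((n : ℝ) - A * s) / p)) →
    |binR (J * s) (1 / (2 * (J : ℝ))) u 0| ≤ M * Real.exp (-b * s)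

/-- **TAIL** (Chernoff).  File `Tail.lean`. -/
def SpecTail : Prop := ∀ (d s : ℕ) (z : ℝ), 0 ≤ z → z ≤ 1 → z * d ≤ (s : ℝ) / 2 →
  tail z d s ≤ (5 / 6) ^ s

/-- **BRIDGE** (Bernoulli(z/2) as a random subset of a Bernoulli(z) set).  File `Tail.lean`. -/
def SpecBridge : Prop := ∀ (d s : ℕ) (z M : ℝ), 0 ≤ z → z ≤ 1 → 0 ≤ M →
  ∀ X : Finset (Fin d) → ℝ, (∀ S, S.card ≤ s → |X S| ≤ M) →
    |(∑ B ∈ univ.filter (fun B : Finset (Fin d) => B.card ≤ s),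
        wt z B * ((1 / 2) ^ B.card * ∑ S ∈ B.powerset, X S)) -
      ∑ S ∈ univ.filter (fun S : Finset (Fin d) => S.card ≤ s), wt (z / 2) S * X S| ≤
      M * tail z d s

/-- **COUNT** (number of small sets).  File `Tail.lean`. -/
def SpecCount : Prop := ∀ (J m₀ s : ℕ), 1 ≤ J →
  (NN (J * s) (m₀ * s) : ℝ) ≤ (Real.exp 1 * (J : ℝ) ^ m₀) ^ s

/-- **CORE** (assembly of everything above).  File `Core.lean`. -/
def SpecCore : Prop := ∀ p D : ℝ, 1 < p → p ≠ 2 → 1 ≤ D → ∃ m₀ : ℕ, ∀ A : ℕ, 1 ≤ A →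
  ∃ s₀ : ℕ, ∀ s, s₀ ≤ s → ∃ (d : ℕ) (X : Finset (Cube d → ℝ)),
    Real.log X.card ≤ ((8 * (A : ℝ) + 8) ^ m₀) ^ s ∧
    ∀ (ι : Type) [Fintype ι] (F : (Cube d → ℝ) → ι → ℝ), BiLip p D X F →
      2 ^ (A * s) < Fintype.card ι

/-- **FINAL** (asymptotics and translation to `L_p(μ)`).  File `Final.lean`. -/
def SpecFinal : Prop := ∀ (p : ENNReal) [Fact (1 ≤ p)], 1 < p → p ≠ ⊤ → p ≠ 2 →
  ∀ D : ℝ, 1 ≤ D → ∀ A : ℝ, ∃ n₀ : ℕ, ∀ n : ℕ, n₀ ≤ n →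
    ∃ (Ω : Type) (_ : MeasurableSpace Ω) (μ : MeasureTheory.Measure Ω)
      (_ : MeasureTheory.IsProbabilityMeasure μ) (X : Finset (MeasureTheory.Lp ℝ p μ)),
      X.card = n ∧ ∀ d : ℕ,
        (∃ f : MeasureTheory.Lp ℝ p μ → PiLp p (fun _ : Fin d => ℝ), ∃ s : ℝ, 0 < s ∧
          ∀ x ∈ X, ∀ y ∈ X, s * ‖x - y‖ ≤ ‖f x - f y‖ ∧ ‖f x - f y‖ ≤ D * s * ‖x - y‖) →
        (Real.log n) ^ A ≤ d

end Vale.Agent.P249.SP
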