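import Vale.Agent.P249.SP.UniDefs

/-!
# P249, block UNI: shared lemmas (helper583)
-/

open Finset
open scoped BigOperators symmDiff

namespace Vale.Agent.P249.SP.Uni

open Vale.Agent.P249.SP

variable {d : ℕ}

lemma sg_mul_sg (b : Bool) : sg b * sg b = 1 := by cases b <;> simp [sg]

lemma abs_sg1 (b : Bool) : |sg b| = 1 := by cases b <;> simp [sg]

lemma walsh_univ (S : Finset (Fin d)) (y : Cube d) :
    walsh S y = ∏ i, if i ∈ S then sg (y i) else 1 := by
  unfold walsh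
  rw [Finset.prod_ite_mem, Finset.univ_inter]

lemma walsh_sd (A B : Finset (Fin d)) (y : Cube d) :
    walsh (A ∆ B) y = walsh A y * walsh B y := by
  rw [walsh_univ, walsh_univ, walsh_univ, ← Finset.prod_mul_distrib]
  refine Finset.prod_congr rfl fun i _ => ?_
  by_cases hA : i ∈ A <;> by_cases hB : i ∈ B <;>
    simp [Finset.mem_symmDiff, hA, hB, sg_mul_sg]

lemma abs_walsh1 (A : Finset (Fin d)) (y : Cube d) : |walsh A y| = 1 := by
  unfold walsh
  rw [Finset.abs_prod]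
  exact Finset.prod_eq_one fun i _ => abs_sg1 _

lemma walsh_mul_self (A : Finset (Fin d)) (y : Cube d) : walsh A y * walsh A y = 1 := by
  rw [← walsh_sd]; simp [walsh]

lemma walsh_empty' (y : Cube d) : walsh (∅ : Finset (Fin d)) y = 1 := by simp [walsh]

lemma walsh_cases (A : Finset (Fin d)) (y : Cube d) : walsh A y = 1 ∨ walsh A y = -1 :=
  mul_self_eq_one_iff.mp (walsh_mul_self A y)

/-- the involution `V ↦ V ∆ S` -/
def sdE (S : Finset (Fin d)) : Equiv.Perm (Finset (Fin d)) :=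
  Function.Involutive.toPerm (fun V => V ∆ S) (symmDiff_left_involutive S)

@[simp] lemma sdE_apply (S V : Finset (Fin d)) : sdE S V = V ∆ S := rfl

lemma sum_sd {M : Type*} [AddCommMonoid M] (S : Finset (Fin d)) (g : Finset (Fin d) → M) :
    ∑ V, g (V ∆ S) = ∑ V, g V := Equiv.sum_comp (sdE S) g

lemma sd_sd (V S : Finset (Fin d)) : (V ∆ S) ∆ S = V := by
  rw [symmDiff_assoc, symmDiff_self]; simp

lemma sum_sd_left {M : Type*} [AddCommMonoid M] (S : Finset (Fin d))
    (g h : Finset (Fin d) → ℝ) : ∑ V, g (V ∆ S) * h V = ∑ V, g V * h (V ∆ S) := by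
  rw [← sum_sd S]
  simp only [sd_sd]

lemma card_sd_le (A B : Finset (Fin d)) : (A ∆ B).card ≤ A.card + B.card := by
  have h : A ∆ B ⊆ A ∪ B := by
    intro x hx
    rw [Finset.mem_symmDiff] at hx
    rw [Finset.mem_union]
    tauto
  exact (Finset.card_le_card h).trans (Finset.card_union_le A B)

lemma poly_tw (S : Finset (Fin d)) (χ : Co d) (y : Cube d) :
    poly (tw S χ) y = walsh S y * poly χ y := by
  unfold poly tw
  rw [← sum_sd S, Finset.mul_sum]
  refine Finset.sum_congr rfl fun V _ => ?_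
  rw [sd_sd, walsh_sd]; ring

lemma poly_at (S : Finset (Fin d)) (e : ℝ) (χ : Co d) (y : Cube d) :
    poly (at' S e χ) y = (1 + e * walsh S y) / 2 * poly χ y := by
  have h := poly_tw S χ y
  unfold poly tw at h
  unfold poly at'
  have : ∀ V : Finset (Fin d), (χ V + e * χ (V ∆ S)) / 2 * walsh V y =
      1 / 2 * (χ V * walsh V y) + e / 2 * (χ (V ∆ S) * walsh V y) := fun V => by ring
  rw [Finset.sum_congr rfl fun V _ => this V, Finset.sum_add_distrib, ← Finset.mul_sum,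
    ← Finset.mul_sum, h]
  ring

lemma poly_one' (y : Cube d) : poly (one' d) y = 1 := by
  unfold poly one'
  simp [walsh]

lemma adm_one (s : ℕ) : Adm s 0 (one' d) := by
  refine ⟨fun V hV => ?_, ?_, fun y => ?_⟩
  · unfold one'
    rw [if_neg]
    rintro rfl
    simp at hV
  · unfold one'
    simp [apply_ite abs]
  · rw [poly_one']; simp

lemma adm_mono {s k k' : ℕ} (h : k ≤ k') {χ : Co d} (hχ : Adm s k χ) : Adm s k' χ :=
  ⟨fun V hV => hχ.supp V (lt_of_le_of_lt (Nat.mul_le_mul_right s h) hV), hχ.l1, hχ.sup⟩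

lemma mem_sm {s : ℕ} {S : Finset (Fin d)} : S ∈ sm d s ↔ S.card ≤ s := by
  unfold sm; simp

lemma adm_tw {s k : ℕ} {χ : Co d} (hχ : Adm s k χ) {S : Finset (Fin d)} (hS : S ∈ sm d s) :
    Adm s (k + 1) (tw S χ) := by
  rw [mem_sm] at hS
  refine ⟨fun V hV => ?_, ?_, fun y => ?_⟩
  · unfold tw
    apply hχ.supp
    have h1 : V.card ≤ (V ∆ S).card + S.card := by
      conv_lhs => rw [← sd_sd V S]
      exact card_sd_le _ _
    have : (k + 1) * s = k * s + s := by ring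
    omega
  · unfold tw
    rw [sum_sd S fun V => |χ V|]
    exact hχ.l1
  · rw [poly_tw, abs_mul, abs_walsh1, one_mul]
    exact hχ.sup y

lemma adm_at {s k : ℕ} {χ : Co d} (hχ : Adm s k χ) {S : Finset (Fin d)} (hS : S ∈ sm d s)
    {e : ℝ} (he : |e| ≤ 1) : Adm s (k + 1) (at' S e χ) := by
  have ht := adm_tw hχ hS
  have hm := adm_mono (Nat.le_succ k) hχ
  refine ⟨fun V hV => ?_, ?_, fun y => ?_⟩
  · have h1 := ht.supp V hV
    have h2 := hm.supp V hV
    unfold tw at h1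
    unfold at'
    rw [h1, h2]; simp
  · have h1 := ht.l1
    have h2 := hm.l1
    unfold tw at h1
    unfold at'
    have : ∀ V : Finset (Fin d), |(χ V + e * χ (V ∆ S)) / 2| ≤
        1 / 2 * |χ V| + 1 / 2 * |χ (V ∆ S)| := fun V => by
      rw [abs_div, abs_two]
      have h3 : |χ V + e * χ (V ∆ S)| ≤ |χ V| + |χ (V ∆ S)| := by
        refine (abs_add_le _ _).trans ?_
        rw [abs_mul]
        have := mul_le_mul_of_nonneg_right he (abs_nonneg (χ (V ∆ S)))
        linarith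
      linarith
    refine (Finset.sum_le_sum fun V _ => this V).trans ?_
    rw [Finset.sum_add_distrib, ← Finset.mul_sum, ← Finset.mul_sum]
    linarith
  · rw [poly_at, abs_mul]
    have h1 : |(1 + e * walsh S y) / 2| ≤ 1 := by
      rw [abs_div, abs_two]
      have h3 : |1 + e * walsh S y| ≤ 1 + 1 := by
        refine (abs_add_le _ _).trans ?_
        rw [abs_mul, abs_walsh1, abs_one]
        linarith
      linarith
    calc |(1 + e * walsh S y) / 2| * |poly χ y| ≤ 1 * 1 :=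
          mul_le_mul h1 (hχ.sup y) (abs_nonneg _) zero_le_one
      _ = 1 := by ring

lemma at_tw (S S' : Finset (Fin d)) (e : ℝ) (χ : Co d) :
    at' S' e (tw S χ) = tw S (at' S' e χ) := by
  funext V
  unfold at' tw
  have : (V ∆ S') ∆ S = (V ∆ S) ∆ S' := by
    rw [symmDiff_assoc, symmDiff_comm S' S, ← symmDiff_assoc]
  rw [this]

lemma Mop_Aop (θ : ℝ) (s : ℕ) (f : Co d → ℝ) :
    Mop θ s (Aop θ s f) = Aop θ s (Mop θ s f) := by
  funext χ
  unfold Mop Aop
  simp only [at_tw, mul_add, Finset.mul_sum, Finset.sum_add_distrib]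
  congr 1 <;>
  · rw [Finset.sum_comm]
    refine Finset.sum_congr rfl fun S _ => Finset.sum_congr rfl fun S' _ => ?_
    ring

lemma Mop_Aop_iter (θ : ℝ) (s l : ℕ) (f : Co d → ℝ) :
    Mop θ s ((Aop θ s)^[l] f) = (Aop θ s)^[l] (Mop θ s f) := by
  induction l generalizing f with
  | zero => rfl
  | succ l ih =>
    rw [Function.iterate_succ_apply, Function.iterate_succ_apply, ih, Mop_Aop]

lemma phi_succ_M (θ : ℝ) (s R l : ℕ) (f : Co d → ℝ) :
    Phi θ s (R + 1) l f = Phi θ s R l (Mop θ s f) := by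
  unfold Phi
  rw [Function.iterate_succ_apply, Mop_Aop_iter]

lemma phi_succ_A (θ : ℝ) (s R l : ℕ) (f : Co d → ℝ) :
    Phi θ s R (l + 1) f = Phi θ s R l (Aop θ s f) := by
  unfold Phi
  rw [Function.iterate_succ_apply]

lemma phi_zero (θ : ℝ) (s : ℕ) (f : Co d → ℝ) : Phi θ s 0 0 f = f (one' d) := rfl

lemma wt_nonneg {θ : ℝ} (h0 : 0 ≤ θ) (h1 : θ ≤ 1) (S : Finset (Fin d)) : 0 ≤ wt θ S := by
  unfold wt
  have : 0 ≤ 1 - θ := by linarith
  positivity

lemma Mop_mono {θ : ℝ} (h0 : 0 ≤ θ) (h1 : θ ≤ 1) {s k : ℕ} {f g : Co d → ℝ}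
    (h : ∀ χ, Adm s (k + 1) χ → f χ ≤ g χ) (χ : Co d) (hχ : Adm s k χ) :
    Mop θ s f χ ≤ Mop θ s g χ := by
  unfold Mop
  exact Finset.sum_le_sum fun S hS =>
    mul_le_mul_of_nonneg_left (h _ (adm_tw hχ hS)) (wt_nonneg h0 h1 S)

lemma Aop_mono {θ : ℝ} (h0 : 0 ≤ θ) (h1 : θ ≤ 1) {s k : ℕ} {f g : Co d → ℝ}
    (h : ∀ χ, Adm s (k + 1) χ → f χ ≤ g χ) (χ : Co d) (hχ : Adm s k χ) :
    Aop θ s f χ ≤ Aop θ s g χ := by
  unfold Aop
  exact Finset.sum_le_sum fun S hS =>
    mul_le_mul_of_nonneg_left (add_le_add (h _ (adm_at hχ hS (by simp)))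
      (h _ (adm_at hχ hS (by simp)))) (wt_nonneg h0 h1 S)

lemma phi_mono {θ : ℝ} (h0 : 0 ≤ θ) (h1 : θ ≤ 1) {s R l : ℕ} {f g : Co d → ℝ}
    (h : ∀ χ, Adm s (R + l) χ → f χ ≤ g χ) : Phi θ s R l f ≤ Phi θ s R l g := by
  have hA : ∀ (l k : ℕ) (f g : Co d → ℝ), (∀ χ, Adm s (k + l) χ → f χ ≤ g χ) →
      ∀ χ, Adm s k χ → (Aop θ s)^[l] f χ ≤ (Aop θ s)^[l] g χ := by
    intro l
    induction l with
    | zero => intro k f g h χ hχ; exact h χ hχ
    | succ l ih =>
      intro k f g h χ hχ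
      rw [Function.iterate_succ_apply, Function.iterate_succ_apply]
      exact ih k _ _ (fun χ' hχ' => Aop_mono h0 h1 (k := k + l) h χ' hχ') χ hχ
  have hM : ∀ (R k : ℕ) (f g : Co d → ℝ), (∀ χ, Adm s (k + R) χ → f χ ≤ g χ) →
      ∀ χ, Adm s k χ → (Mop θ s)^[R] f χ ≤ (Mop θ s)^[R] g χ := by
    intro R
    induction R with
    | zero => intro k f g h χ hχ; exact h χ hχ
    | succ R ih =>
      intro k f g h χ hχ
      rw [Function.iterate_succ_apply, Function.iterate_succ_apply]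
      exact ih k _ _ (fun χ' hχ' => Mop_mono h0 h1 (k := k + R) h χ' hχ') χ hχ
  refine hM R 0 _ _ (fun χ hχ => hA l (0 + R) f g (fun χ' hχ' => h χ' ?_) χ hχ) _ (adm_one s)
  rwa [zero_add] at hχ'

lemma Mop_lin (θ : ℝ) (s : ℕ) (a b : ℝ) (f g : Co d → ℝ) :
    Mop θ s (fun χ => a * f χ + b * g χ) = fun χ => a * Mop θ s f χ + b * Mop θ s g χ := by
  funext χ
  unfold Mop
  rw [Finset.mul_sum, Finset.mul_sum, ← Finset.sum_add_distrib]
  exact Finset.sum_congr rfl fun S _ => by ring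

lemma Aop_lin (θ : ℝ) (s : ℕ) (a b : ℝ) (f g : Co d → ℝ) :
    Aop θ s (fun χ => a * f χ + b * g χ) = fun χ => a * Aop θ s f χ + b * Aop θ s g χ := by
  funext χ
  unfold Aop
  rw [Finset.mul_sum, Finset.mul_sum, ← Finset.sum_add_distrib]
  exact Finset.sum_congr rfl fun S _ => by ring

lemma phi_lin (θ : ℝ) (s R l : ℕ) (a b : ℝ) (f g : Co d → ℝ) :
    Phi θ s R l (fun χ => a * f χ + b * g χ) = a * Phi θ s R l f + b * Phi θ s R l g := by
  have hA : ∀ (l : ℕ) (f g : Co d → ℝ), (Aop θ s)^[l] (fun χ => a * f χ + b * g χ) =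
      fun χ => a * (Aop θ s)^[l] f χ + b * (Aop θ s)^[l] g χ := by
    intro l
    induction l with
    | zero => intro f g; rfl
    | succ l ih => intro f g; simp only [Function.iterate_succ_apply, Aop_lin, ih]
  have hM : ∀ (l : ℕ) (f g : Co d → ℝ), (Mop θ s)^[l] (fun χ => a * f χ + b * g χ) =
      fun χ => a * (Mop θ s)^[l] f χ + b * (Mop θ s)^[l] g χ := by
    intro l
    induction l with
    | zero => intro f g; rfl
    | succ l ih => intro f g; simp only [Function.iterate_succ_apply, Mop_lin, ih]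
  unfold Phi
  rw [hA, hM]

lemma phi_add (θ : ℝ) (s R l : ℕ) (f g : Co d → ℝ) :
    Phi θ s R l (fun χ => f χ + g χ) = Phi θ s R l f + Phi θ s R l g := by
  have := phi_lin θ s R l 1 1 f g
  simpa using this

lemma phi_smul (θ : ℝ) (s R l : ℕ) (a : ℝ) (f : Co d → ℝ) :
    Phi θ s R l (fun χ => a * f χ) = a * Phi θ s R l f := by
  have := phi_lin θ s R l a 0 f f
  simpa using this

lemma phi_const_nonneg {θ : ℝ} (h0 : 0 ≤ θ) (h1 : θ ≤ 1) {s R l : ℕ} {f : Co d → ℝ}
    (h : ∀ χ, Adm s (R + l) χ → 0 ≤ f χ) : 0 ≤ Phi θ s R l f := by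
  have h2 := phi_mono h0 h1 (s := s) (R := R) (l := l) (f := fun _ => 0) (g := f) h
  have h3 := phi_smul θ s R l 0 f
  simp only [zero_mul] at h3
  linarith

variable {ι : Type}

lemma lin_at (T : Finset (Fin d) → ι → ℝ) (S : Finset (Fin d)) (e : ℝ) (χ : Co d) (i : ι) :
    lin T (at' S e χ) i = (lin T χ i + e * lin T (tw S χ) i) / 2 := by
  unfold lin at' tw
  rw [Finset.mul_sum, ← Finset.sum_add_distrib, Finset.sum_div]
  exact Finset.sum_congr rfl fun V _ => by ring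

lemma lin_tw (T : Finset (Fin d) → ι → ℝ) (S : Finset (Fin d)) (χ : Co d) (i : ι) :
    lin T (tw S χ) i = ∑ V, χ V * T (V ∆ S) i := by
  unfold lin tw
  rw [← sum_sd S]
  exact Finset.sum_congr rfl fun V _ => by rw [sd_sd]

end Vale.Agent.P249.SP.Uni
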