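import Vale.Agent.P249.SP.Uni0

/-!
# P249, block UNI: Clarkson step, averaging, pigeonhole, translated systems (helper583)
-/

open Finset
open scoped BigOperators symmDiff

namespace Vale.Agent.P249.SP.Uni

open Vale.Agent.P249.SP

set_option linter.unusedSectionVars false

variable {d : ℕ} {ι : Type} [Fintype ι]

lemma x_add_y (T : Finset (Fin d) → ι → ℝ) (S : Finset (Fin d)) (χ : Co d) (i : ι) :
    lin T (at' S 1 χ) i + lin T (at' S (-1) χ) i = lin T χ i := by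
  rw [lin_at, lin_at]; ring

lemma x_sub_y (T : Finset (Fin d) → ι → ℝ) (S : Finset (Fin d)) (χ : Co d) (i : ι) :
    lin T (at' S 1 χ) i - lin T (at' S (-1) χ) i = lin T (tw S χ) i := by
  rw [lin_at, lin_at]; ring

/-- Clarkson step, `p ≥ 2`, one set `S` -/
lemma clk_S_ge (hclk : SpecClk) {p : ℝ} (hp : 1 < p) (h2 : 2 ≤ p)
    (T : Finset (Fin d) → ι → ℝ) (S : Finset (Fin d)) (χ : Co d) :
    f0 p T (at' S 1 χ) + f0 p T (at' S (-1) χ) + (p / 2 - 1) * Df p T S χ ≤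
      (f0 p T χ + f0 p T (tw S χ)) / 2 := by
  have h : ∀ i, |lin T (at' S 1 χ) i| ^ p + |lin T (at' S (-1) χ) i| ^ p +
      (p / 2 - 1) * (min |lin T (at' S 1 χ) i| |lin T (at' S (-1) χ) i|) ^ p ≤
      (|lin T χ i| ^ p + |lin T (tw S χ) i| ^ p) / 2 := by
    intro i
    have := (hclk p hp (lin T (at' S 1 χ) i) (lin T (at' S (-1) χ) i)).1 h2
    rwa [x_add_y, x_sub_y] at this
  have hs := Finset.sum_le_sum fun i (_ : i ∈ (univ : Finset ι)) => h i
  rw [Finset.sum_add_distrib, Finset.sum_add_distrib, ← Finset.mul_sum, ← Finset.sum_div,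
    Finset.sum_add_distrib] at hs
  exact hs

/-- Clarkson step, `p ≤ 2`, one set `S` -/
lemma clk_S_le (hclk : SpecClk) {p : ℝ} (hp : 1 < p) (h2 : p ≤ 2)
    (T : Finset (Fin d) → ι → ℝ) (S : Finset (Fin d)) (χ : Co d) :
    (f0 p T χ + f0 p T (tw S χ)) / 2 ≤
      f0 p T (at' S 1 χ) + f0 p T (at' S (-1) χ) - (1 - p / 2) * Df p T S χ := by
  have h : ∀ i, (|lin T χ i| ^ p + |lin T (tw S χ) i| ^ p) / 2 ≤
      |lin T (at' S 1 χ) i| ^ p + |lin T (at' S (-1) χ) i| ^ p -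
      (1 - p / 2) * (min |lin T (at' S 1 χ) i| |lin T (at' S (-1) χ) i|) ^ p := by
    intro i
    have := (hclk p hp (lin T (at' S 1 χ) i) (lin T (at' S (-1) χ) i)).2 h2
    rwa [x_add_y, x_sub_y] at this
  have hs := Finset.sum_le_sum fun i (_ : i ∈ (univ : Finset ι)) => h i
  rw [Finset.sum_sub_distrib, Finset.sum_add_distrib, ← Finset.mul_sum, ← Finset.sum_div,
    Finset.sum_add_distrib] at hs
  exact hs

lemma Aop_eq (θ : ℝ) (s : ℕ) (f : Co d → ℝ) (χ : Co d) :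
    Aop θ s f χ = ∑ S ∈ sm d s, wt θ S * (f (at' S 1 χ) + f (at' S (-1) χ)) := rfl

lemma clk_ge (hclk : SpecClk) {p θ : ℝ} (hp : 1 < p) (h2 : 2 ≤ p) (h0 : 0 ≤ θ) (h1 : θ ≤ 1)
    (s : ℕ) (T : Finset (Fin d) → ι → ℝ) (χ : Co d) :
    Aop θ s (f0 p T) χ + (p / 2 - 1) * D1 p θ s T χ ≤
      (Ps θ d s * f0 p T χ + Mop θ s (f0 p T) χ) / 2 := by
  have h := Finset.sum_le_sum fun S (_ : S ∈ sm d s) =>
    mul_le_mul_of_nonneg_left (clk_S_ge hclk hp h2 T S χ) (wt_nonneg h0 h1 S)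
  unfold Aop D1 Ps Mop
  have e1 : (∑ S ∈ sm d s, wt θ S * (f0 p T (at' S 1 χ) + f0 p T (at' S (-1) χ))) +
      (p / 2 - 1) * ∑ S ∈ sm d s, wt θ S * Df p T S χ =
      ∑ S ∈ sm d s, wt θ S * (f0 p T (at' S 1 χ) + f0 p T (at' S (-1) χ) +
        (p / 2 - 1) * Df p T S χ) := by
    rw [Finset.mul_sum, ← Finset.sum_add_distrib]
    exact Finset.sum_congr rfl fun S _ => by ring
  have e2 : ((∑ S ∈ sm d s, wt θ S) * f0 p T χ + ∑ S ∈ sm d s, wt θ S * f0 p T (tw S χ)) / 2 =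
      ∑ S ∈ sm d s, wt θ S * ((f0 p T χ + f0 p T (tw S χ)) / 2) := by
    rw [Finset.sum_mul, ← Finset.sum_add_distrib, Finset.sum_div]
    exact Finset.sum_congr rfl fun S _ => by ring
  rw [e1, e2]
  exact h

lemma clk_le (hclk : SpecClk) {p θ : ℝ} (hp : 1 < p) (h2 : p ≤ 2) (h0 : 0 ≤ θ) (h1 : θ ≤ 1)
    (s : ℕ) (T : Finset (Fin d) → ι → ℝ) (χ : Co d) :
    (Ps θ d s * f0 p T χ + Mop θ s (f0 p T) χ) / 2 ≤
      Aop θ s (f0 p T) χ - (1 - p / 2) * D1 p θ s T χ := by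
  have h := Finset.sum_le_sum fun S (_ : S ∈ sm d s) =>
    mul_le_mul_of_nonneg_left (clk_S_le hclk hp h2 T S χ) (wt_nonneg h0 h1 S)
  unfold Aop D1 Ps Mop
  have e1 : (∑ S ∈ sm d s, wt θ S * (f0 p T (at' S 1 χ) + f0 p T (at' S (-1) χ))) -
      (1 - p / 2) * ∑ S ∈ sm d s, wt θ S * Df p T S χ =
      ∑ S ∈ sm d s, wt θ S * (f0 p T (at' S 1 χ) + f0 p T (at' S (-1) χ) -
        (1 - p / 2) * Df p T S χ) := by
    rw [Finset.mul_sum, ← Finset.sum_sub_distrib]
    exact Finset.sum_congr rfl fun S _ => by ring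
  have e2 : ((∑ S ∈ sm d s, wt θ S) * f0 p T χ + ∑ S ∈ sm d s, wt θ S * f0 p T (tw S χ)) / 2 =
      ∑ S ∈ sm d s, wt θ S * ((f0 p T χ + f0 p T (tw S χ)) / 2) := by
    rw [Finset.sum_mul, ← Finset.sum_add_distrib, Finset.sum_div]
    exact Finset.sum_congr rfl fun S _ => by ring
  rw [e1, e2]
  exact h

lemma Df_nonneg (p : ℝ) (T : Finset (Fin d) → ι → ℝ) (S : Finset (Fin d)) (χ : Co d) :
    0 ≤ Df p T S χ :=
  Finset.sum_nonneg fun _ _ => Real.rpow_nonneg (le_min (abs_nonneg _) (abs_nonneg _)) _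

lemma D1_nonneg {p θ : ℝ} (h0 : 0 ≤ θ) (h1 : θ ≤ 1) (s : ℕ) (T : Finset (Fin d) → ι → ℝ)
    (χ : Co d) : 0 ≤ D1 p θ s T χ :=
  Finset.sum_nonneg fun S _ => mul_nonneg (wt_nonneg h0 h1 S) (Df_nonneg p T S χ)

/-- Clarkson step for `Phi`, `p ≥ 2` -/
lemma phi_clk_ge (hclk : SpecClk) {p θ : ℝ} (hp : 1 < p) (h2 : 2 ≤ p) (h0 : 0 ≤ θ) (h1 : θ ≤ 1)
    (s R l : ℕ) (T : Finset (Fin d) → ι → ℝ) :
    Phi θ s R (l + 1) (f0 p T) + (p / 2 - 1) * Phi θ s R l (D1 p θ s T) ≤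
      (Ps θ d s * Phi θ s R l (f0 p T) + Phi θ s (R + 1) l (f0 p T)) / 2 := by
  have h := phi_mono h0 h1 (s := s) (R := R) (l := l)
    (f := fun χ => 1 * Aop θ s (f0 p T) χ + (p / 2 - 1) * D1 p θ s T χ)
    (g := fun χ => (Ps θ d s / 2) * f0 p T χ + (1 / 2) * Mop θ s (f0 p T) χ)
    (fun χ _ => by have := clk_ge hclk hp h2 h0 h1 s T χ; linarith)
  rw [phi_lin, phi_lin, ← phi_succ_A, ← phi_succ_M] at h
  linarith

/-- Clarkson step for `Phi`, `p ≤ 2` -/
lemma phi_clk_le (hclk : SpecClk) {p θ : ℝ} (hp : 1 < p) (h2 : p ≤ 2) (h0 : 0 ≤ θ) (h1 : θ ≤ 1)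
    (s R l : ℕ) (T : Finset (Fin d) → ι → ℝ) :
    (Ps θ d s * Phi θ s R l (f0 p T) + Phi θ s (R + 1) l (f0 p T)) / 2 ≤
      Phi θ s R (l + 1) (f0 p T) - (1 - p / 2) * Phi θ s R l (D1 p θ s T) := by
  have h := phi_mono h0 h1 (s := s) (R := R) (l := l)
    (g := fun χ => 1 * Aop θ s (f0 p T) χ + (-(1 - p / 2)) * D1 p θ s T χ)
    (f := fun χ => (Ps θ d s / 2) * f0 p T χ + (1 / 2) * Mop θ s (f0 p T) χ)
    (fun χ _ => by have := clk_le hclk hp h2 h0 h1 s T χ; linarith)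
  rw [phi_lin, phi_lin, ← phi_succ_A, ← phi_succ_M] at h
  linarith

/-- average over `R < K` -/
noncomputable def av (K : ℕ) (β : ℕ → ℝ) : ℝ := (∑ R ∈ range K, β R) / K

lemma av_shift {K : ℕ} (β : ℕ → ℝ) :
    av K (fun R => β (R + 1)) = av K β + (β K - β 0) / K := by
  unfold av
  have h := Finset.sum_range_succ' β K
  have h' := Finset.sum_range_succ β K
  rw [← add_div]
  congr 1
  linarith

lemma av_le {K : ℕ} {β γ : ℕ → ℝ} (h : ∀ R < K, β R ≤ γ R) : av K β ≤ av K γ := by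
  unfold av
  exact div_le_div_of_nonneg_right
    (Finset.sum_le_sum fun R hR => h R (Finset.mem_range.mp hR)) (Nat.cast_nonneg K)

lemma av_lin {K : ℕ} (a b : ℝ) (β γ : ℕ → ℝ) :
    av K (fun R => a * β R + b * γ R) = a * av K β + b * av K γ := by
  unfold av
  rw [Finset.sum_add_distrib, ← Finset.mul_sum, ← Finset.mul_sum]
  ring

lemma av_const {K : ℕ} (hK : 1 ≤ K) (c : ℝ) : av K (fun _ => c) = c := by
  unfold av
  have : (K : ℝ) ≠ 0 := by positivity
  rw [Finset.sum_const, Finset.card_range, nsmul_eq_mul]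
  field_simp

/-- averaged step, `p ≥ 2` form -/
lemma av_step_ge {K : ℕ} (hK : 1 ≤ K) {U P c : ℝ} (hP : P ≤ 1) {β β' γ : ℕ → ℝ}
    (hβ0 : ∀ R ≤ K, 0 ≤ β R) (hβU : ∀ R ≤ K, β R ≤ U)
    (h : ∀ R < K, β' R + c * γ R ≤ (P * β R + β (R + 1)) / 2) :
    av K β' + c * av K γ ≤ av K β + U / (2 * K) := by
  have hK' : (0 : ℝ) < K := by exact_mod_cast hK
  have h1 := av_le (K := K) (β := fun R => 1 * β' R + c * γ R)
    (γ := fun R => (P / 2) * β R + (1 / 2) * β (R + 1)) (fun R hR => by have := h R hR; linarith)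
  rw [av_lin, av_lin, av_shift] at h1
  have h2 : (β K - β 0) / K ≤ U / K :=
    div_le_div_of_nonneg_right (by linarith [hβU K le_rfl, hβ0 0 (Nat.zero_le _)]) hK'.le
  have h3 : 0 ≤ av K β := by
    unfold av
    exact div_nonneg (Finset.sum_nonneg fun R hR => hβ0 R (Finset.mem_range.mp hR).le) hK'.le
  have h4 : P / 2 * av K β ≤ 1 / 2 * av K β :=
    mul_le_mul_of_nonneg_right (by linarith) h3
  have h5 : U / (2 * K) = 1 / 2 * (U / K) := by field_simp
  rw [h5]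
  linarith

/-- averaged step, `p ≤ 2` form -/
lemma av_step_le {K : ℕ} (hK : 1 ≤ K) {U P c : ℝ} (hP : P ≤ 1) {β β' γ : ℕ → ℝ}
    (hβ0 : ∀ R ≤ K, 0 ≤ β R) (hβU : ∀ R ≤ K, β R ≤ U)
    (h : ∀ R < K, (P * β R + β (R + 1)) / 2 ≤ β' R - c * γ R) :
    av K β + c * av K γ ≤ av K β' + ((1 - P) * U / 2 + U / (2 * K)) := by
  have hK' : (0 : ℝ) < K := by exact_mod_cast hK
  have h1 := av_le (K := K) (γ := fun R => 1 * β' R + (-c) * γ R)
    (β := fun R => (P / 2) * β R + (1 / 2) * β (R + 1)) (fun R hR => by have := h R hR; linarith)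
  rw [av_lin, av_lin, av_shift] at h1
  have h2 : -(U / K) ≤ (β K - β 0) / K := by
    rw [← neg_div]
    exact div_le_div_of_nonneg_right (by linarith [hβU 0 (Nat.zero_le _), hβ0 K le_rfl]) hK'.le
  have h3 : av K β ≤ U := by
    have := av_le (K := K) (β := β) (γ := fun _ => U) (fun R hR => hβU R hR.le)
    rwa [av_const hK] at this
  have h4 : (1 - P) * av K β ≤ (1 - P) * U :=
    mul_le_mul_of_nonneg_left h3 (by linarith)
  have h5 : U / (2 * K) = 1 / 2 * (U / K) := by field_simp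
  rw [h5]
  nlinarith

/-- telescoping and pigeonhole, decreasing case -/
lemma pigeon_dec {L : ℕ} (hL : 2 ≤ L) {U c e : ℝ} (hc : 0 < c) {B G : ℕ → ℝ}
    (hG : ∀ l < L, 0 ≤ G l) (hB0 : ∀ l ≤ L, 0 ≤ B l) (hBU : ∀ l ≤ L, B l ≤ U) (he : 0 ≤ e)
    (h : ∀ l < L, B (l + 1) + c * G l ≤ B l + e) :
    (∀ l ≤ L, B L - L * e ≤ B l) ∧
      ∃ l, l + 1 < L ∧ G l + G (l + 1) ≤ 2 * (U + L * e) / (c * (L - 1)) := by
  have hsum : ∀ l ≤ L, B l + c * ∑ j ∈ range l, G j ≤ B 0 + l * e := by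
    intro l
    induction l with
    | zero => intro _; simp
    | succ l ih =>
      intro hl
      have h1 := ih (Nat.le_of_succ_le hl)
      have h2 := h l hl
      rw [Finset.sum_range_succ]
      push_cast
      linarith
  have hlow : ∀ k, ∀ l, l + k = L → B L - k * e ≤ B l := by
    intro k
    induction k with
    | zero => intro l hl; simp at hl; subst hl; simp
    | succ k ih =>
      intro l hl
      have h1 := ih (l + 1) (by omega)
      have hl' : l < L := by omega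
      have h2 := h l hl'
      have h3 := mul_nonneg hc.le (hG l hl')
      push_cast
      linarith
  refine ⟨fun l hl => ?_, ?_⟩
  · have h1 := hlow (L - l) l (by omega)
    have h2 : ((L - l : ℕ) : ℝ) ≤ L := by exact_mod_cast Nat.sub_le L l
    have h3 := mul_le_mul_of_nonneg_right h2 he
    linarith
  · by_contra hcon
    push Not at hcon
    have hLpos : (0 : ℝ) < (L : ℝ) - 1 := by
      have : (2 : ℝ) ≤ L := by exact_mod_cast hL
      linarith
    set q := 2 * (U + L * e) / (c * (L - 1)) with hq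
    have h1 : ∑ l ∈ range (L - 1), q < ∑ l ∈ range (L - 1), (G l + G (l + 1)) := by
      refine Finset.sum_lt_sum_of_nonempty ?_ fun l hl => hcon l ?_
      · rw [Finset.nonempty_range_iff]; omega
      · have := Finset.mem_range.mp hl; omega
    rw [Finset.sum_const, Finset.card_range, nsmul_eq_mul, Finset.sum_add_distrib] at h1
    have hcast : ((L - 1 : ℕ) : ℝ) = (L : ℝ) - 1 := by
      rw [Nat.cast_sub (by omega)]; simp
    rw [hcast] at h1
    have h2 : ∑ l ∈ range (L - 1), G l ≤ ∑ l ∈ range L, G l :=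
      Finset.sum_le_sum_of_subset_of_nonneg (Finset.range_mono (by omega))
        fun l hl _ => hG l (Finset.mem_range.mp hl)
    have h3 : ∑ l ∈ range (L - 1), G (l + 1) ≤ ∑ l ∈ range L, G l := by
      have h4 := Finset.sum_range_succ' G (L - 1)
      have h5 : L - 1 + 1 = L := by omega
      rw [h5] at h4
      have h6 := hG 0 (by omega)
      linarith
    have h4 := hsum L le_rfl
    have h5 := hB0 L le_rfl
    have h6 := hBU 0 (Nat.zero_le _)
    have h7 : c * ((L - 1) * q) = 2 * (U + L * e) := by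
      rw [hq]; field_simp
    have h8 : c * ((L - 1) * q) < c * (2 * ∑ l ∈ range L, G l) :=
      mul_lt_mul_of_pos_left (by linarith) hc
    linarith

/-- telescoping and pigeonhole, increasing case -/
lemma pigeon_inc {L : ℕ} (hL : 2 ≤ L) {U c e : ℝ} (hc : 0 < c) {B G : ℕ → ℝ}
    (hG : ∀ l < L, 0 ≤ G l) (hB0 : ∀ l ≤ L, 0 ≤ B l) (hBU : ∀ l ≤ L, B l ≤ U) (he : 0 ≤ e)
    (h : ∀ l < L, B l + c * G l ≤ B (l + 1) + e) :
    (∀ l ≤ L, B 0 - L * e ≤ B l) ∧
      ∃ l, l + 1 < L ∧ G l + G (l + 1) ≤ 2 * (U + L * e) / (c * (L - 1)) := by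
  have hsum : ∀ l ≤ L, B 0 + c * ∑ j ∈ range l, G j ≤ B l + l * e := by
    intro l
    induction l with
    | zero => intro _; simp
    | succ l ih =>
      intro hl
      have h1 := ih (Nat.le_of_succ_le hl)
      have h2 := h l hl
      rw [Finset.sum_range_succ]
      push_cast
      linarith
  refine ⟨fun l hl => ?_, ?_⟩
  · have h1 := hsum l hl
    have h2 : 0 ≤ c * ∑ j ∈ range l, G j :=
      mul_nonneg hc.le (Finset.sum_nonneg fun j hj =>
        hG j (lt_of_lt_of_le (Finset.mem_range.mp hj) hl))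
    have h3 : (l : ℝ) ≤ L := by exact_mod_cast hl
    have h4 := mul_le_mul_of_nonneg_right h3 he
    linarith
  · by_contra hcon
    push Not at hcon
    have hLpos : (0 : ℝ) < (L : ℝ) - 1 := by
      have : (2 : ℝ) ≤ L := by exact_mod_cast hL
      linarith
    set q := 2 * (U + L * e) / (c * (L - 1)) with hq
    have h1 : ∑ l ∈ range (L - 1), q < ∑ l ∈ range (L - 1), (G l + G (l + 1)) := by
      refine Finset.sum_lt_sum_of_nonempty ?_ fun l hl => hcon l ?_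
      · rw [Finset.nonempty_range_iff]; omega
      · have := Finset.mem_range.mp hl; omega
    rw [Finset.sum_const, Finset.card_range, nsmul_eq_mul, Finset.sum_add_distrib] at h1
    have hcast : ((L - 1 : ℕ) : ℝ) = (L : ℝ) - 1 := by
      rw [Nat.cast_sub (by omega)]; simp
    rw [hcast] at h1
    have h2 : ∑ l ∈ range (L - 1), G l ≤ ∑ l ∈ range L, G l :=
      Finset.sum_le_sum_of_subset_of_nonneg (Finset.range_mono (by omega))
        fun l hl _ => hG l (Finset.mem_range.mp hl)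
    have h3 : ∑ l ∈ range (L - 1), G (l + 1) ≤ ∑ l ∈ range L, G l := by
      have h4 := Finset.sum_range_succ' G (L - 1)
      have h5 : L - 1 + 1 = L := by omega
      rw [h5] at h4
      have h6 := hG 0 (by omega)
      linarith
    have h4 := hsum L le_rfl
    have h5 := hB0 0 (Nat.zero_le _)
    have h6 := hBU L le_rfl
    have h7 : c * ((L - 1) * q) = 2 * (U + L * e) := by
      rw [hq]; field_simp
    have h8 : c * ((L - 1) * q) < c * (2 * ∑ l ∈ range L, G l) :=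
      mul_lt_mul_of_pos_left (by linarith) hc
    linarith

end Vale.Agent.P249.SP.Uni
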