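import Vale.Agent.P249.SP.Uni1

/-!
# P249, block UNI: translated systems and assembly (helper583)
-/

open Finset
open scoped BigOperators symmDiff

namespace Vale.Agent.P249.SP.Uni

open Vale.Agent.P249.SP

set_option linter.unusedSectionVars false

variable {d : ℕ} {ι : Type} [Fintype ι]

lemma nT_nonneg (p : ℝ) (v : ι → ℝ) : 0 ≤ nT p v := by
  unfold nT
  exact Real.rpow_nonneg (Finset.sum_nonneg fun _ _ => Real.rpow_nonneg (abs_nonneg _) _) _

lemma nT_add_le {p : ℝ} (hp : 1 ≤ p) (v w : ι → ℝ) : nT p (v + w) ≤ nT p v + nT p w := by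
  unfold nT
  exact Real.Lp_add_le univ v w hp

lemma nT_smul {p : ℝ} (hp : 0 < p) (a : ℝ) (v : ι → ℝ) : nT p (a • v) = |a| * nT p v := by
  unfold nT
  have h : ∀ i, |(a • v) i| ^ p = |a| ^ p * |v i| ^ p := fun i => by
    rw [Pi.smul_apply, smul_eq_mul, abs_mul, Real.mul_rpow (abs_nonneg _) (abs_nonneg _)]
  rw [Finset.sum_congr rfl fun i _ => h i, ← Finset.mul_sum,
    Real.mul_rpow (Real.rpow_nonneg (abs_nonneg _) _)
      (Finset.sum_nonneg fun _ _ => Real.rpow_nonneg (abs_nonneg _) _),
    ← Real.rpow_mul (abs_nonneg _), mul_one_div_cancel hp.ne', Real.rpow_one]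

lemma nT_zero {p : ℝ} (hp : 0 < p) : nT p (0 : ι → ℝ) = 0 := by
  have := nT_smul hp (0 : ℝ) (0 : ι → ℝ)
  simpa using this

lemma nT_sum_le {p : ℝ} (hp : 1 ≤ p) {α : Type*} (s : Finset α) (v : α → ι → ℝ) :
    nT p (∑ a ∈ s, v a) ≤ ∑ a ∈ s, nT p (v a) := by
  classical
  induction s using Finset.induction_on with
  | empty => simp [nT_zero (lt_of_lt_of_le zero_lt_one hp)]
  | insert a s ha ih =>
    rw [Finset.sum_insert ha, Finset.sum_insert ha]
    exact (nT_add_le hp _ _).trans (by linarith)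

lemma nY_le_nY {p : ℝ} (hp : 0 < p) {f g : Cube d → ℝ} (h : ∀ y, |f y| ≤ |g y|) :
    nY p f ≤ nY p g := by
  unfold nY
  refine Real.rpow_le_rpow ?_ ?_ (by positivity)
  · exact div_nonneg (Finset.sum_nonneg fun _ _ => Real.rpow_nonneg (abs_nonneg _) _)
      (by positivity)
  · exact div_le_div_of_nonneg_right
      (Finset.sum_le_sum fun y _ => Real.rpow_le_rpow (abs_nonneg _) (h y) hp.le) (by positivity)

lemma sum_sd' {M : Type*} [AddCommMonoid M] (V : Finset (Fin d)) (g : Finset (Fin d) → M) :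
    ∑ S, g (V ∆ S) = ∑ S, g S := by
  rw [← sum_sd V g]
  exact Finset.sum_congr rfl fun S _ => by rw [symmDiff_comm]

/-- convolution of coefficient functions -/
noncomputable def conv (χ b : Co d) : Co d := fun U => ∑ V, χ V * b (V ∆ U)

lemma poly_conv (χ b : Co d) (y : Cube d) : poly (conv χ b) y = poly χ y * poly b y := by
  unfold conv
  have h : ∀ V : Finset (Fin d), ∑ U, b (V ∆ U) * walsh U y = walsh V y * poly b y := by
    intro V
    rw [← poly_tw V b y]
    unfold poly tw
    exact Finset.sum_congr rfl fun U _ => by rw [symmDiff_comm]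
  calc poly (fun U => ∑ V, χ V * b (V ∆ U)) y
      = ∑ U, ∑ V, χ V * (b (V ∆ U) * walsh U y) := by
        unfold poly
        exact Finset.sum_congr rfl fun U _ => by
          rw [Finset.sum_mul]; exact Finset.sum_congr rfl fun V _ => by ring
    _ = ∑ V, χ V * ∑ U, b (V ∆ U) * walsh U y := by
        rw [Finset.sum_comm]
        exact Finset.sum_congr rfl fun V _ => by rw [Finset.mul_sum]
    _ = ∑ V, χ V * (walsh V y * poly b y) := Finset.sum_congr rfl fun V _ => by rw [h]
    _ = poly χ y * poly b y := by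
        unfold poly
        rw [Finset.sum_mul]
        exact Finset.sum_congr rfl fun V _ => by ring

lemma sum_abs_conv (χ b : Co d) : ∑ U, |conv χ b U| ≤ (∑ V, |χ V|) * ∑ U, |b U| := by
  calc ∑ U, |conv χ b U| ≤ ∑ U, ∑ V, |χ V| * |b (V ∆ U)| := by
        refine Finset.sum_le_sum fun U _ => ?_
        unfold conv
        refine (Finset.abs_sum_le_sum_abs _ _).trans (le_of_eq ?_)
        exact Finset.sum_congr rfl fun V _ => abs_mul _ _
    _ = ∑ V, |χ V| * ∑ U, |b (V ∆ U)| := by
        rw [Finset.sum_comm]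
        exact Finset.sum_congr rfl fun V _ => by rw [Finset.mul_sum]
    _ = (∑ V, |χ V|) * ∑ U, |b U| := by
        rw [Finset.sum_mul]
        exact Finset.sum_congr rfl fun V _ => by rw [sum_sd' V fun U => |b U|]

lemma sum_trans (χ b : Co d) (T : Finset (Fin d) → ι → ℝ) :
    ∑ S, b S • trans χ T S = ∑ U, conv χ b U • T U := by
  funext i
  simp only [Finset.sum_apply, Pi.smul_apply, smul_eq_mul, trans, conv]
  calc ∑ S, b S * ∑ V, χ V * T (V ∆ S) i
      = ∑ V, ∑ S, χ V * (b (V ∆ (V ∆ S)) * T (V ∆ S) i) := by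
        rw [Finset.sum_comm]
        refine Finset.sum_congr rfl fun S _ => ?_
        rw [Finset.mul_sum]
        refine Finset.sum_congr rfl fun V _ => ?_
        have : V ∆ (V ∆ S) = S := by rw [← symmDiff_assoc, symmDiff_self]; simp
        rw [this]; ring
    _ = ∑ V, ∑ U, χ V * (b (V ∆ U) * T U i) :=
        Finset.sum_congr rfl fun V _ => sum_sd' V fun U => χ V * (b (V ∆ U) * T U i)
    _ = ∑ U, (∑ V, χ V * b (V ∆ U)) * T U i := by
        rw [Finset.sum_comm]
        refine Finset.sum_congr rfl fun U _ => ?_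
        rw [Finset.sum_mul]
        exact Finset.sum_congr rfl fun V _ => by ring

lemma sys_trans {p D ε : ℝ} (hp : 1 < p) (hD : 0 ≤ D) (hε : 0 ≤ ε) {m s k : ℕ}
    {τ : List (Fin d × Bool) → Finset (Fin d) → ι → ℝ} (hS : Sys p D ε d m τ)
    {χ : Co d} (hχ : Adm s k χ) (hm : (k + 3) * s ≤ m) :
    Sys p D ε d (3 * s) (fun P => trans χ (τ P)) := by
  have hks : (k + 3) * s = k * s + 3 * s := by ring
  refine ⟨fun P hP b hb => ?_, fun P hP i β S hcard => ?_⟩
  · rw [sum_trans]
    have hsupp : ∀ U : Finset (Fin d), m < U.card → conv χ b U = 0 := by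
      intro U hU
      unfold conv
      refine Finset.sum_eq_zero fun V _ => ?_
      by_cases hV : k * s < V.card
      · rw [hχ.supp V hV, zero_mul]
      · rw [hb, mul_zero]
        have h1 : U.card ≤ V.card + (V ∆ U).card := by
          have : V ∆ (V ∆ U) = U := by rw [← symmDiff_assoc, symmDiff_self]; simp
          conv_lhs => rw [← this]
          exact card_sd_le _ _
        omega
    refine (hS.L1 P hP _ hsupp).trans ?_
    have h1 : nY p (fun y => ind P y * poly (conv χ b) y) ≤ nY p (fun y => ind P y * poly b y) := by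
      refine nY_le_nY (by linarith) fun y => ?_
      rw [poly_conv, abs_mul, abs_mul, abs_mul]
      have := mul_le_mul_of_nonneg_right (hχ.sup y) (abs_nonneg (poly b y))
      rw [one_mul] at this
      exact mul_le_mul_of_nonneg_left this (abs_nonneg _)
    have h2 : ∑ U, |conv χ b U| ≤ ∑ S, |b S| := by
      refine (sum_abs_conv χ b).trans ?_
      have h3 : 0 ≤ ∑ U, |b U| := Finset.sum_nonneg fun _ _ => abs_nonneg _
      have := mul_le_mul_of_nonneg_right hχ.l1 h3
      linarith
    exact add_le_add (mul_le_mul_of_nonneg_left h1 hD) (mul_le_mul_of_nonneg_left h2 hε)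
  · have e1 : trans χ (τ (P ++ [(i, β)])) S -
        (1 / 2 : ℝ) • (trans χ (τ P) S + sg β • trans χ (τ P) (S ∆ {i})) =
        ∑ V, χ V • (τ (P ++ [(i, β)]) (V ∆ S) -
          (1 / 2 : ℝ) • (τ P (V ∆ S) + sg β • τ P ((V ∆ S) ∆ {i}))) := by
      funext j
      simp only [trans, Pi.sub_apply, Pi.smul_apply, Pi.add_apply, smul_eq_mul,
        Finset.sum_apply]
      rw [Finset.mul_sum, ← Finset.sum_add_distrib, Finset.mul_sum, ← Finset.sum_sub_distrib]
      refine Finset.sum_congr rfl fun V _ => ?_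
      rw [symmDiff_assoc V S {i}]
      ring
    rw [e1]
    refine (nT_sum_le hp.le _ _).trans ?_
    have h1 : ∀ V : Finset (Fin d), nT p (χ V • (τ (P ++ [(i, β)]) (V ∆ S) -
          (1 / 2 : ℝ) • (τ P (V ∆ S) + sg β • τ P ((V ∆ S) ∆ {i})))) ≤ |χ V| * ε := by
      intro V
      rw [nT_smul (by linarith)]
      by_cases hV : k * s < V.card
      · rw [hχ.supp V hV]; simp
      · refine mul_le_mul_of_nonneg_left (hS.L2 P hP i β (V ∆ S) ?_) (abs_nonneg _)
        have := card_sd_le V S
        omega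
    refine (Finset.sum_le_sum fun V _ => h1 V).trans ?_
    rw [← Finset.sum_mul]
    have := mul_le_mul_of_nonneg_right hχ.l1 hε
    linarith

lemma trans_empty (χ : Co d) (T : Finset (Fin d) → ι → ℝ) (i : ι) :
    trans χ T ∅ i = lin T χ i := by
  unfold trans lin
  refine Finset.sum_congr rfl fun V _ => ?_
  have : V ∆ (∅ : Finset (Fin d)) = V := by
    rw [← Finset.bot_eq_empty, symmDiff_bot]
  rw [this]

end Vale.Agent.P249.SP.Uni
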