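import Vale.Agent.P249.SP.Uni2

/-!
# P249, block UNI: assembly from the internal statements (helper583)
-/

open Finset
open scoped BigOperators symmDiff

namespace Vale.Agent.P249.SP.Uni

open Vale.Agent.P249.SP

set_option linter.unusedSectionVars false

lemma av_nonneg {K : ℕ} {β : ℕ → ℝ} (h : ∀ R < K, 0 ≤ β R) : 0 ≤ av K β := by
  unfold av
  exact div_nonneg (Finset.sum_nonneg fun R hR => h R (Finset.mem_range.mp hR))
    (Nat.cast_nonneg K)

lemma exists_of_av_pos {K : ℕ} {β : ℕ → ℝ} (h : 0 < av K β) : ∃ R < K, 0 < β R := by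
  by_contra hcon
  push Not at hcon
  have : av K β ≤ 0 := by
    unfold av
    exact div_nonpos_of_nonpos_of_nonneg
      (Finset.sum_nonpos fun R hR => hcon R (Finset.mem_range.mp hR)) (Nat.cast_nonneg K)
  linarith

/-- choice of the universe -/
lemma exists_universe {p θ δ : ℝ} (hθ0 : 0 ≤ θ) (hθ1 : θ ≤ 1) (hδ : 0 < δ)
    {d s K L : ℕ} (hK : 1 ≤ K) (hP0 : 0 ≤ Ps θ d s) (hP1 : Ps θ d s ≤ 1)
    (hPhi1 : ∀ R l, Phi θ s R l (fun _ : Co d => (1 : ℝ)) = Ps θ d s ^ R * (2 * Ps θ d s) ^ l)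
    {ι : Type} [Fintype ι] (T : Finset (Fin d) → ι → ℝ) {c1 δ₃ : ℝ} (hc1 : 0 < c1)
    (hδ₃ : δ₃ ≤ δ * c1 / 4) {l : ℕ} (hl : l ≤ L)
    (hB : c1 ≤ av K (fun R => Phi θ s R l (f0 p T)))
    (hG : av K (fun R => Phi θ s R l (D1 p θ s T)) +
      av K (fun R => Phi θ s R (l + 1) (D1 p θ s T)) ≤ δ₃) :
    ∃ R < K, ∃ χ : Co d, Adm s (R + l) χ ∧ c1 / 4 * (1 / 2) ^ L ≤ f0 p T χ ∧
      D1 p θ s T χ + Aop θ s (D1 p θ s T) χ ≤ δ * f0 p T χ := by
  set a : ℝ := c1 / 4 * (1 / 2) ^ L with ha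
  have ha0 : 0 < a := by positivity
  set F : Co d → ℝ := fun χ => 1 * ((1 : ℝ) * f0 p T χ + (-a) * (1 : ℝ)) +
    (-(1 / δ)) * (1 * D1 p θ s T χ + 1 * Aop θ s (D1 p θ s T) χ) with hF
  have hPhiF : ∀ R, Phi θ s R l F = 1 * (1 * Phi θ s R l (f0 p T) +
      (-a) * Phi θ s R l (fun _ : Co d => (1 : ℝ))) +
      (-(1 / δ)) * (1 * Phi θ s R l (D1 p θ s T) + 1 * Phi θ s R (l + 1) (D1 p θ s T)) := by
    intro R
    rw [hF, phi_lin, phi_lin θ s R l 1 (-a) (f0 p T) (fun _ => 1),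
      phi_lin θ s R l 1 1 (D1 p θ s T) (Aop θ s (D1 p θ s T)), ← phi_succ_A]
  have hav : 0 < av K (fun R => Phi θ s R l F) := by
    have e1 : av K (fun R => Phi θ s R l F) =
        1 * (1 * av K (fun R => Phi θ s R l (f0 p T)) +
          (-a) * av K (fun R => Phi θ s R l (fun _ : Co d => (1 : ℝ)))) +
        (-(1 / δ)) * (1 * av K (fun R => Phi θ s R l (D1 p θ s T)) +
          1 * av K (fun R => Phi θ s R (l + 1) (D1 p θ s T))) := by
      simp only [hPhiF]
      rw [av_lin 1 (-(1 / δ)) (fun R => 1 * Phi θ s R l (f0 p T) +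
        (-a) * Phi θ s R l (fun _ : Co d => (1 : ℝ))) (fun R => 1 * Phi θ s R l (D1 p θ s T) +
        1 * Phi θ s R (l + 1) (D1 p θ s T)), av_lin, av_lin]
    rw [e1]
    have h1 : av K (fun R => Phi θ s R l (fun _ : Co d => (1 : ℝ))) ≤ 2 ^ L := by
      have h2 : ∀ R < K, Phi θ s R l (fun _ : Co d => (1 : ℝ)) ≤ 2 ^ L := by
        intro R _
        rw [hPhi1]
        have h3 : Ps θ d s ^ R ≤ 1 := pow_le_one₀ hP0 hP1
        have h4 : (2 * Ps θ d s) ^ l ≤ 2 ^ l := pow_le_pow_left₀ (by linarith) (by linarith) l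
        have h5 : (2 : ℝ) ^ l ≤ 2 ^ L := pow_le_pow_right₀ (by norm_num) hl
        calc Ps θ d s ^ R * (2 * Ps θ d s) ^ l ≤ 1 * 2 ^ l :=
              mul_le_mul h3 h4 (by positivity) zero_le_one
          _ ≤ 2 ^ L := by rw [one_mul]; exact h5
      have := av_le (K := K) (γ := fun _ => (2 : ℝ) ^ L) h2
      rwa [av_const hK] at this
    have h2 : a * av K (fun R => Phi θ s R l (fun _ : Co d => (1 : ℝ))) ≤ c1 / 4 := by
      refine (mul_le_mul_of_nonneg_left h1 ha0.le).trans (le_of_eq ?_)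
      rw [ha, mul_assoc, ← mul_pow]
      norm_num
    have h3 : 1 / δ * (av K (fun R => Phi θ s R l (D1 p θ s T)) +
        av K (fun R => Phi θ s R (l + 1) (D1 p θ s T))) ≤ c1 / 4 := by
      refine (mul_le_mul_of_nonneg_left (hG.trans hδ₃) (by positivity)).trans (le_of_eq ?_)
      field_simp
    linarith
  obtain ⟨R, hR, hpos⟩ := exists_of_av_pos hav
  have hex : ∃ χ : Co d, Adm s (R + l) χ ∧ 0 < F χ := by
    by_contra hcon
    push Not at hcon
    have h1 := phi_mono hθ0 hθ1 (s := s) (R := R) (l := l) (f := F) (g := fun _ => 0) hcon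
    have h2 := phi_smul θ s R l 0 F
    simp only [zero_mul] at h2
    linarith
  obtain ⟨χ, hχ, hχF⟩ := hex
  refine ⟨R, hR, χ, hχ, ?_, ?_⟩
  · have h0 : 0 ≤ D1 p θ s T χ + Aop θ s (D1 p θ s T) χ := by
      refine add_nonneg (D1_nonneg hθ0 hθ1 s T χ) ?_
      unfold Aop
      exact Finset.sum_nonneg fun S _ => mul_nonneg (wt_nonneg hθ0 hθ1 S)
        (add_nonneg (D1_nonneg hθ0 hθ1 s T _) (D1_nonneg hθ0 hθ1 s T _))
    have h1 : 0 ≤ 1 / δ * (D1 p θ s T χ + Aop θ s (D1 p θ s T) χ) :=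
      mul_nonneg (by positivity) h0
    simp only [hF] at hχF
    linarith
  · simp only [hF] at hχF
    have h1 : 1 / δ * (D1 p θ s T χ + Aop θ s (D1 p θ s T) χ) < f0 p T χ := by linarith
    rw [one_div, inv_mul_lt_iff₀ hδ] at h1
    exact h1.le

/-- **UNI** from the internal statements -/
theorem specUni_of (hclk : SpecClk) (hP : StP) (hPhi : StPhi) (hUp : StUp) (hDef : StDef)
    (hFam : StFam) : SpecUni := by
  intro p D δ hp hp2 hD hδ
  have hp0 : 0 < p := by linarith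
  obtain ⟨c, hc0, hcge, hcle⟩ : ∃ c : ℝ, 0 < c ∧ (2 ≤ p → c = p / 2 - 1) ∧
      (p ≤ 2 → c = 1 - p / 2) := by
    rcases lt_or_gt_of_ne hp2 with h | h
    · exact ⟨1 - p / 2, by linarith, fun h' => by linarith, fun _ => rfl⟩
    · exact ⟨p / 2 - 1, by linarith, fun _ => rfl, fun h' => by linarith⟩
  set U : ℝ := 2 ^ p * D ^ p with hU
  have hU1 : 1 ≤ U := by
    have h1 : 1 ≤ (2 : ℝ) ^ p := Real.one_le_rpow (by norm_num) hp0.le
    have h2 : 1 ≤ D ^ p := Real.one_le_rpow hD hp0.le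
    exact one_le_mul_of_one_le_of_one_le h1 h2
  set c1 : ℝ := (1 / 2) ^ (p + 2) with hc1
  have hc1pos : 0 < c1 := by positivity
  have hc1le : c1 ≤ 1 := Real.rpow_le_one (by norm_num) (by norm_num) (by linarith)
  have hc1two : (1 / 2 : ℝ) ^ (p + 1) = 2 * c1 := by
    have h1 : (1 / 2 : ℝ) ^ (p + 2) = (1 / 2) ^ (p + 1) * (1 / 2) := by
      rw [show p + 2 = (p + 1) + 1 by ring, Real.rpow_add (by norm_num) (p + 1) 1, Real.rpow_one]
    rw [hc1, h1]
    ring
  -- number of levels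
  set L : ℕ := ⌈8 * (U + 1) / (c * δ * c1)⌉₊ + 2 with hL
  have hL2 : 2 ≤ L := by omega
  have hLpos : (0 : ℝ) < L := by positivity
  have hL1 : 8 * (U + 1) / (c * δ * c1) ≤ (L : ℝ) - 1 := by
    have := Nat.le_ceil (8 * (U + 1) / (c * δ * c1))
    rw [hL]; push_cast; linarith
  have hLm : (0 : ℝ) < (L : ℝ) - 1 := by
    have : (2 : ℝ) ≤ L := by exact_mod_cast hL2
    linarith
  set e : ℝ := c1 / L with he
  have hepos : 0 < e := by positivity
  have hLe : L * e = c1 := by rw [he]; field_simp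
  have hδ₃ : 2 * (U + L * e) / (c * (L - 1)) ≤ δ * c1 / 4 := by
    rw [hLe, div_le_iff₀ (by positivity)]
    have h1 : 8 * (U + 1) ≤ ((L : ℝ) - 1) * (c * δ * c1) := by
      rwa [div_le_iff₀ (by positivity)] at hL1
    have h2 : δ * c1 / 4 * (c * (L - 1)) = ((L : ℝ) - 1) * (c * δ * c1) / 4 := by ring
    rw [h2]
    linarith
  -- number of averaging steps
  set K : ℕ := ⌈U / e⌉₊ + 1 with hK
  have hK1 : 1 ≤ K := by omega
  have hKpos : (0 : ℝ) < K := by positivity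
  have hKU : U / (2 * K) ≤ e / 2 := by
    have h1 : U / e ≤ K := by
      have := Nat.le_ceil (U / e)
      rw [hK]; push_cast; linarith
    rw [div_le_iff₀ hepos] at h1
    rw [div_le_iff₀ (by positivity)]
    linarith
  set n : ℕ := K + L with hn
  have hnpos : (0 : ℝ) < n := by positivity
  set ν : ℝ := min (min (1 / (2 * n)) ((1 / 2) ^ L)) (e / U) with hν
  have hν0 : 0 < ν := by positivity
  have hν1 : ν ≤ 1 / (2 * n) := (min_le_left _ _).trans (min_le_left _ _)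
  have hν2 : ν ≤ (1 / 2) ^ L := (min_le_left _ _).trans (min_le_right _ _)
  have hν3 : ν ≤ e / U := min_le_right _ _
  refine ⟨K + L + 3, 2 ^ (L + 1), c1 / 4 * (1 / 2) ^ L, ν, ?_, by positivity, hν0, ?_⟩
  · exact one_le_pow₀ (by norm_num)
  intro d s θ hθ0 hθ1 htail
  obtain ⟨hPs0, hPs1, hPst⟩ := hP θ hθ0 hθ1 d s
  have hPsν : 1 - ν ≤ Ps θ d s := by linarith
  have hν_half : n * ν ≤ 1 / 2 := by
    have := mul_le_mul_of_nonneg_left hν1 hnpos.le
    have h2 : (n : ℝ) * (1 / (2 * n)) = 1 / 2 := by field_simp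
    linarith
  have hn1 : (1 : ℝ) ≤ n := by
    have : 1 ≤ n := by omega
    exact_mod_cast this
  have hν_le_half : ν ≤ 1 / 2 := by
    have := mul_le_mul_of_nonneg_right hn1 hν0.le
    rw [one_mul] at this
    exact this.trans hν_half
  have hPsn : 1 / 2 ≤ Ps θ d s ^ n := by
    have h1 : (1 - ν) ^ n ≤ Ps θ d s ^ n := pow_le_pow_left₀ (by linarith) hPsν n
    have h2 := one_add_mul_le_pow (show (-2 : ℝ) ≤ -ν by linarith) n
    have h3 : (1 + -ν) ^ n = (1 - ν) ^ n := by ring_nf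
    rw [h3] at h2
    linarith
  have hPsK : 1 / 2 ≤ Ps θ d s ^ (K + 0) :=
    hPsn.trans (pow_le_pow_of_le_one hPs0 hPs1 (by omega))
  -- the family
  have hfam : ∃ fam : TestFam p (2 ^ (L + 1)) d ((K + L + 3) * s), ∀ (ι : Type) [Fintype ι]
      (τ : List (Fin d × Bool) → Finset (Fin d) → ι → ℝ), L3 fam τ →
      (2 ≤ p → 2 * c1 ≤ av K (fun R => Phi θ s R L (f0 p (τ [])))) ∧
      (p ≤ 2 → 2 * c1 ≤ av K (fun R => Phi θ s R 0 (f0 p (τ [])))) := by
    rcases lt_or_gt_of_ne hp2 with h | h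
    · obtain ⟨fam, hf⟩ := hFam p (2 ^ (L + 1)) θ hp hθ0 hθ1 d s K 0 (K + L + 3) hK1 (by omega)
        (pow_le_pow_right₀ (by norm_num) (by omega)) hPsK
      refine ⟨fam, fun ι _ τ h3 => ⟨fun h' => by linarith, fun _ => ?_⟩⟩
      rw [← hc1two]
      exact hf ι τ h3
    · obtain ⟨fam, hf⟩ := hFam p (2 ^ (L + 1)) θ hp hθ0 hθ1 d s K L (K + L + 3) hK1 (by omega)
        le_rfl hPsn
      refine ⟨fam, fun ι _ τ h3 => ⟨fun _ => ?_, fun h' => by linarith⟩⟩
      rw [← hc1two]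
      exact hf ι τ h3
  obtain ⟨fam, hfam⟩ := hfam
  refine ⟨fam, fun ε hε0 hεν ι _ τ hsys hL3 => ?_⟩
  obtain ⟨hfam1, hfam2⟩ := hfam ι τ hL3
  set T := τ [] with hT
  have hε1 : ∀ l ≤ L, ε * 2 ^ l ≤ 1 := by
    intro l hl
    have h1 : (2 : ℝ) ^ l ≤ 2 ^ L := pow_le_pow_right₀ (by norm_num) hl
    calc ε * 2 ^ l ≤ (1 / 2) ^ L * 2 ^ L :=
          mul_le_mul (hεν.trans hν2) h1 (by positivity) (by positivity)
      _ = 1 := by rw [← mul_pow]; norm_num
  have hbd : ∀ R ≤ K, ∀ l ≤ L, 0 ≤ Phi θ s R l (f0 p T) ∧ Phi θ s R l (f0 p T) ≤ U := by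
    intro R hR l hl
    exact hUp p D θ ε hp hD hθ0 hθ1 hε0 d s ((K + L + 3) * s) R l
      (Nat.mul_le_mul_right s (by omega)) (hε1 l hl) ι τ hsys
  set B : ℕ → ℝ := fun l => av K (fun R => Phi θ s R l (f0 p T)) with hB
  set G : ℕ → ℝ := fun l => av K (fun R => Phi θ s R l (D1 p θ s T)) with hG
  have hG0 : ∀ l < L, 0 ≤ G l := fun l _ => av_nonneg fun R _ =>
    phi_const_nonneg hθ0.le hθ1.le fun χ _ => D1_nonneg hθ0.le hθ1.le s T χ
  have hB0 : ∀ l ≤ L, 0 ≤ B l := fun l hl => av_nonneg fun R hR => (hbd R hR.le l hl).1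
  have hBU : ∀ l ≤ L, B l ≤ U := by
    intro l hl
    have := av_le (K := K) (γ := fun _ => U) (fun R hR => (hbd R hR.le l hl).2)
    rwa [av_const hK1] at this
  have hmain : ∃ l, l + 1 < L ∧ c1 ≤ B l ∧ G l + G (l + 1) ≤ δ * c1 / 4 := by
    rcases lt_or_gt_of_ne hp2 with h | h
    · -- p < 2
      have hstep : ∀ l < L, B l + c * G l ≤ B (l + 1) + e := by
        intro l hl
        have h1 := av_step_le hK1 (U := U) (P := Ps θ d s) (c := c) hPs1
          (β := fun R => Phi θ s R l (f0 p T)) (β' := fun R => Phi θ s R (l + 1) (f0 p T))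
          (γ := fun R => Phi θ s R l (D1 p θ s T))
          (fun R hR => (hbd R hR l hl.le).1) (fun R hR => (hbd R hR l hl.le).2)
          (fun R _ => by
            have := phi_clk_le hclk hp h.le hθ0.le hθ1.le s R l T
            rw [hcle h.le]; exact this)
        have h2 : (1 - Ps θ d s) * U / 2 ≤ e / 2 := by
          have h3 : (1 - Ps θ d s) * U ≤ e / U * U :=
            mul_le_mul_of_nonneg_right (by linarith) (by linarith)
          rw [div_mul_cancel₀ e (by linarith)] at h3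
          linarith
        have h3 : av K (fun R => Phi θ s R l (f0 p T)) + c * av K (fun R => Phi θ s R l (D1 p θ s T))
            ≤ av K (fun R => Phi θ s R (l + 1) (f0 p T)) + e := by linarith
        exact h3
      obtain ⟨hlow, l, hl, hsmall⟩ := pigeon_inc hL2 hc0 hG0 hB0 hBU hepos.le hstep
      refine ⟨l, hl, ?_, hsmall.trans hδ₃⟩
      have h1 := hlow l (by omega)
      have h2 : 2 * c1 ≤ B 0 := hfam2 h.le
      rw [hLe] at h1
      linarith
    · -- p > 2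
      have hstep : ∀ l < L, B (l + 1) + c * G l ≤ B l + e := by
        intro l hl
        have h1 := av_step_ge hK1 (U := U) (P := Ps θ d s) (c := c) hPs1
          (β := fun R => Phi θ s R l (f0 p T)) (β' := fun R => Phi θ s R (l + 1) (f0 p T))
          (γ := fun R => Phi θ s R l (D1 p θ s T))
          (fun R hR => (hbd R hR l hl.le).1) (fun R hR => (hbd R hR l hl.le).2)
          (fun R _ => by
            have := phi_clk_ge hclk hp h.le hθ0.le hθ1.le s R l T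
            rw [hcge h.le]; exact this)
        have h3 : av K (fun R => Phi θ s R (l + 1) (f0 p T)) +
            c * av K (fun R => Phi θ s R l (D1 p θ s T))
            ≤ av K (fun R => Phi θ s R l (f0 p T)) + e := by linarith
        exact h3
      obtain ⟨hlow, l, hl, hsmall⟩ := pigeon_dec hL2 hc0 hG0 hB0 hBU hepos.le hstep
      refine ⟨l, hl, ?_, hsmall.trans hδ₃⟩
      have h1 := hlow l (by omega)
      have h2 : 2 * c1 ≤ B L := hfam1 h.le
      rw [hLe] at h1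
      linarith
  obtain ⟨l, hl, hBl, hGl⟩ := hmain
  obtain ⟨R, hR, χ, hχ, hχ0, hχ1⟩ := exists_universe (p := p) hθ0.le hθ1.le hδ hK1 hPs0 hPs1
    (fun R l => (hPhi p θ hp hθ0 hθ1 d s R l).2) T hc1pos le_rfl (show l ≤ L by omega) hBl hGl
  refine ⟨fun P => trans χ (τ P), ?_, ?_, ?_⟩
  · exact sys_trans hp (by linarith) hε0 hsys hχ (Nat.mul_le_mul_right s (by omega))
  · have h1 : ∑ i, |trans χ (τ []) ∅ i| ^ p = f0 p T χ := by
      unfold f0
      exact Finset.sum_congr rfl fun i _ => by rw [trans_empty]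
    rw [h1]
    exact hχ0
  · have h1 : ∑ i, |trans χ (τ []) ∅ i| ^ p = f0 p T χ := by
      unfold f0
      exact Finset.sum_congr rfl fun i _ => by rw [trans_empty]
    rw [h1]
    have h2 := hDef p θ hp hθ0 hθ1 d s ι T χ
    have h3 : Ps θ d s * D1 p θ s T χ ≤ D1 p θ s T χ := by
      have := mul_le_mul_of_nonneg_right hPs1 (D1_nonneg (p := p) hθ0.le hθ1.le s T χ)
      linarith
    calc _ = ∑ S ∈ sm d s, ∑ S' ∈ sm d s, wt θ S * wt θ S' *
          (def1 p (trans χ T) S + def2 p (trans χ T) S S') := rfl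
      _ ≤ _ := by rw [h2]; linarith

end Vale.Agent.P249.SP.Uni
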