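import Vale.Agent.P249.SP.Uni2
import Vale.Agent.P249.SP.Tail

/-!
# P249, block UNI: analytic lemmas (StN, StP, StPhi, StUp, StDef)
-/

open Finset
open scoped BigOperators symmDiff

namespace Vale.Agent.P249.SP

open Vale.Agent.P249.SP.Uni

set_option linter.unusedSectionVars false

theorem stP : StP := by
  intro θ h0 h1 d s
  have hsum : ∑ S : Finset (Fin d), wt θ S = 1 := by
    unfold wt
    rw [tl_sum_pow_fin]
    simp
  have hsplit : Ps θ d s + tail θ d s = 1 := by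
    rw [← hsum]
    unfold Ps sm tail
    rw [← Finset.sum_filter_add_sum_filter_not (univ : Finset (Finset (Fin d)))
      (fun S => S.card ≤ s) (fun S => wt θ S)]
    simp only [not_le]
  have ht : 0 ≤ tail θ d s := Finset.sum_nonneg fun S _ => Uni.wt_nonneg h0.le h1.le S
  refine ⟨Finset.sum_nonneg fun S _ => Uni.wt_nonneg h0.le h1.le S, by linarith, by linarith⟩

lemma Nf_tw (p : ℝ) {d : ℕ} (S : Finset (Fin d)) (χ : Co d) : Nf p (tw S χ) = Nf p χ := by
  unfold Nf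
  congr 1
  exact Finset.sum_congr rfl fun y _ => by rw [poly_tw, abs_mul, abs_walsh1, one_mul]

lemma Nf_at {p : ℝ} (hp : 1 < p) {d : ℕ} (S : Finset (Fin d)) (χ : Co d) :
    Nf p (at' S 1 χ) + Nf p (at' S (-1) χ) = Nf p χ := by
  unfold Nf
  rw [← add_div, ← Finset.sum_add_distrib]
  congr 1
  refine Finset.sum_congr rfl fun y _ => ?_
  rw [poly_at, poly_at]
  have hp0 : p ≠ 0 := by linarith
  rcases walsh_cases S y with h | h <;> rw [h] <;> norm_num [Real.zero_rpow hp0]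

theorem stN : StN := by
  intro p θ hp d s
  refine ⟨?_, ?_, ?_⟩
  · funext χ
    unfold Mop Ps
    rw [Finset.sum_mul]
    exact Finset.sum_congr rfl fun S _ => by rw [Nf_tw]
  · funext χ
    unfold Aop Ps
    rw [Finset.sum_mul]
    exact Finset.sum_congr rfl fun S _ => by rw [Nf_at hp]
  · unfold Nf
    simp [poly_one']

lemma Mop_one (θ : ℝ) (d s : ℕ) :
    Mop θ s (fun _ : Co d => (1 : ℝ)) = fun _ => Ps θ d s * 1 := by
  funext χ
  unfold Mop Ps
  rw [Finset.sum_mul]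

lemma Aop_one (θ : ℝ) (d s : ℕ) :
    Aop θ s (fun _ : Co d => (1 : ℝ)) = fun _ => (2 * Ps θ d s) * 1 := by
  funext χ
  unfold Aop Ps
  rw [Finset.mul_sum, Finset.sum_mul]
  exact Finset.sum_congr rfl fun S _ => by ring

theorem stPhi : StPhi := by
  intro p θ hp h0 h1 d s R l
  obtain ⟨hM, hA, h1'⟩ := stN p θ hp d s
  constructor
  · induction R with
    | zero =>
      induction l with
      | zero => rw [phi_zero, h1']; simp
      | succ l ih =>
        rw [phi_succ_A, hA, phi_smul, ih]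
        ring
    | succ R ih =>
      rw [phi_succ_M, hM, phi_smul, ih]
      ring
  · induction R with
    | zero =>
      induction l with
      | zero => rw [phi_zero]; simp
      | succ l ih =>
        rw [phi_succ_A, Aop_one, phi_smul θ s 0 l (2 * Ps θ d s) (fun _ => 1), ih]
        ring
    | succ R ih =>
      rw [phi_succ_M, Mop_one, phi_smul θ s R l (Ps θ d s) (fun _ => 1), ih]
      ring

lemma f0_nT {p : ℝ} (hp : 1 < p) {d : ℕ} {ι : Type} [Fintype ι]
    (T : Finset (Fin d) → ι → ℝ) (χ : Co d) :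
    f0 p T χ = nT p (∑ S, χ S • T S) ^ p := by
  unfold nT
  rw [← Real.rpow_mul (Finset.sum_nonneg fun _ _ => Real.rpow_nonneg (abs_nonneg _) _),
    one_div_mul_cancel (by linarith), Real.rpow_one]
  unfold f0 lin
  refine Finset.sum_congr rfl fun i _ => ?_
  simp [Finset.sum_apply]

lemma nY_rpow {p : ℝ} (hp : 1 < p) {d : ℕ} (χ : Co d) : nY p (poly χ) ^ p = Nf p χ := by
  unfold nY Nf
  rw [← Real.rpow_mul (div_nonneg
    (Finset.sum_nonneg fun _ _ => Real.rpow_nonneg (abs_nonneg _) _) (by positivity)),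
    one_div_mul_cancel (by linarith), Real.rpow_one]

lemma nY_nonneg (p : ℝ) {d : ℕ} (f : Cube d → ℝ) : 0 ≤ nY p f := by
  unfold nY
  exact Real.rpow_nonneg (div_nonneg
    (Finset.sum_nonneg fun _ _ => Real.rpow_nonneg (abs_nonneg _) _) (by positivity)) _

lemma add_rpow_le' {p : ℝ} (hp : 1 < p) {a b : ℝ} (ha : 0 ≤ a) (hb : 0 ≤ b) :
    (a + b) ^ p ≤ 2 ^ (p - 1) * (a ^ p + b ^ p) := by
  lift a to NNReal using ha
  lift b to NNReal using hb
  have := NNReal.rpow_add_le_mul_rpow_add_rpow a b hp.le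
  exact_mod_cast this

theorem stUp : StUp := by
  intro p D θ ε hp hD h0 h1 hε d s m R l hm hεl ι _ τ hsys
  have hp0 : 0 < p := by linarith
  constructor
  · exact phi_const_nonneg h0.le h1.le fun χ _ =>
      Finset.sum_nonneg fun _ _ => Real.rpow_nonneg (abs_nonneg _) _
  have hpt : ∀ χ : Co d, Adm s (R + l) χ → f0 p (τ []) χ ≤
      (2 ^ (p - 1) * D ^ p) * Nf p χ + (2 ^ (p - 1) * ε ^ p) * (1 : ℝ) := by
    intro χ hχ
    rw [f0_nT hp]
    have hL := hsys.L1 [] (Nat.zero_le _) χ (fun S hS => hχ.supp S (lt_of_le_of_lt hm hS))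
    have hind : (fun y => ind ([] : List (Fin d × Bool)) y * poly χ y) = poly χ := by
      funext y; simp [ind]
    rw [hind] at hL
    have h2 : ε * ∑ S, |χ S| ≤ ε := by
      have := mul_le_mul_of_nonneg_left hχ.l1 hε
      linarith
    have h3 : nT p (∑ S, χ S • τ [] S) ≤ D * nY p (poly χ) + ε := by linarith
    have h4 := Real.rpow_le_rpow (Uni.nT_nonneg _ _) h3 hp0.le
    have hDn : 0 ≤ D * nY p (poly χ) := mul_nonneg (by linarith) (nY_nonneg _ _)
    refine h4.trans ((add_rpow_le' hp hDn hε).trans (le_of_eq ?_))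
    rw [Real.mul_rpow (by linarith) (nY_nonneg _ _), nY_rpow hp]
    ring
  have h2 := phi_mono h0.le h1.le hpt
  rw [phi_lin θ s R l _ _ (Nf p) (fun _ => 1), (stPhi p θ hp h0 h1 d s R l).1,
    (stPhi p θ hp h0 h1 d s R l).2] at h2
  obtain ⟨hP0, hP1, -⟩ := stP θ h0 h1 d s
  have h3 : Ps θ d s ^ (R + l) ≤ 1 := pow_le_one₀ hP0 hP1
  have h4 : Ps θ d s ^ R * (2 * Ps θ d s) ^ l ≤ 2 ^ l := by
    have h5 : Ps θ d s ^ R ≤ 1 := pow_le_one₀ hP0 hP1
    have h6 : (2 * Ps θ d s) ^ l ≤ 2 ^ l := pow_le_pow_left₀ (by linarith) (by linarith) l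
    calc Ps θ d s ^ R * (2 * Ps θ d s) ^ l ≤ 1 * 2 ^ l := mul_le_mul h5 h6 (by positivity) zero_le_one
      _ = 2 ^ l := one_mul _
  have hε1 : ε ≤ 1 := by
    have h5 : (1 : ℝ) ≤ 2 ^ l := one_le_pow₀ (by norm_num)
    have h6 : ε * 1 ≤ ε * 2 ^ l := mul_le_mul_of_nonneg_left h5 hε
    linarith
  have hεp : ε ^ p ≤ ε := by
    rcases eq_or_lt_of_le hε with h | h
    · rw [← h, Real.zero_rpow (by linarith)]
    · have := Real.rpow_le_rpow_of_exponent_ge h hε1 hp.le
      rwa [Real.rpow_one] at this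
  have h7 : ε ^ p * (Ps θ d s ^ R * (2 * Ps θ d s) ^ l) ≤ 1 := by
    refine le_trans (mul_le_mul hεp h4 (by positivity) hε) hεl
  have h8 : D ^ p * Ps θ d s ^ (R + l) ≤ D ^ p := by
    have := mul_le_mul_of_nonneg_left h3 (Real.rpow_nonneg (by linarith : (0 : ℝ) ≤ D) p)
    linarith
  have h9 : 1 ≤ D ^ p := Real.one_le_rpow hD hp0.le
  have h10 : (2 : ℝ) ^ p = 2 * 2 ^ (p - 1) := by
    rw [show p = 1 + (p - 1) by ring, Real.rpow_add (by norm_num), Real.rpow_one]
    ring_nf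
  have h11 : (0 : ℝ) < 2 ^ (p - 1) := by positivity
  have h12 : (2 : ℝ) ^ (p - 1) * (D ^ p * Ps θ d s ^ (R + l) +
      ε ^ p * (Ps θ d s ^ R * (2 * Ps θ d s) ^ l)) ≤ 2 ^ (p - 1) * (2 * D ^ p) :=
    mul_le_mul_of_nonneg_left (by linarith) h11.le
  calc Phi θ s R l (f0 p (τ [])) ≤ _ := h2
    _ = (2 : ℝ) ^ (p - 1) * (D ^ p * Ps θ d s ^ (R + l) +
      ε ^ p * (Ps θ d s ^ R * (2 * Ps θ d s) ^ l)) := by ring
    _ ≤ 2 ^ (p - 1) * (2 * D ^ p) := h12
    _ = 2 ^ p * D ^ p := by rw [h10]; ring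

lemma trans_eq_lin {d : ℕ} {ι : Type} (χ : Co d) (T : Finset (Fin d) → ι → ℝ)
    (S : Finset (Fin d)) (i : ι) : trans χ T S i = lin T (tw S χ) i := by
  rw [lin_tw]; rfl

lemma tw_tw' {d : ℕ} (S S' : Finset (Fin d)) (χ : Co d) : tw S (tw S' χ) = tw (S ∆ S') χ := by
  funext V
  unfold tw
  rw [symmDiff_assoc]

lemma lin_at_at {d : ℕ} {ι : Type} (T : Finset (Fin d) → ι → ℝ) (S S' : Finset (Fin d))
    (e e' : ℝ) (χ : Co d) (i : ι) :
    lin T (at' S' e' (at' S e χ)) i = (lin T χ i + e * lin T (tw S χ) i +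
      e' * lin T (tw S' χ) i + e' * e * lin T (tw (S ∆ S') χ) i) / 4 := by
  rw [lin_at, lin_at, ← at_tw, lin_at, tw_tw']
  ring

lemma def1_trans {d : ℕ} {ι : Type} [Fintype ι] (p : ℝ) (T : Finset (Fin d) → ι → ℝ)
    (S : Finset (Fin d)) (χ : Co d) : def1 p (trans χ T) S = Df p T S χ := by
  unfold def1 Df
  refine Finset.sum_congr rfl fun i _ => ?_
  rw [trans_empty, trans_eq_lin, lin_at, lin_at]
  ring_nf

lemma def2_trans {d : ℕ} {ι : Type} [Fintype ι] (p : ℝ) (T : Finset (Fin d) → ι → ℝ)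
    (S S' : Finset (Fin d)) (χ : Co d) :
    def2 p (trans χ T) S S' = Df p T S' (at' S 1 χ) + Df p T S' (at' S (-1) χ) := by
  unfold def2 Df
  rw [← Finset.sum_add_distrib]
  refine Finset.sum_congr rfl fun i _ => ?_
  rw [trans_empty, trans_eq_lin, trans_eq_lin, trans_eq_lin, lin_at_at, lin_at_at, lin_at_at,
    lin_at_at]
  congr 1 <;> congr 2 <;> ring_nf

theorem stDef : StDef := by
  intro p θ hp h0 h1 d s ι _ T χ
  have h : ∀ S ∈ sm d s, ∑ S' ∈ sm d s, wt θ S * wt θ S' *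
      (def1 p (trans χ T) S + def2 p (trans χ T) S S') =
      Ps θ d s * (wt θ S * Df p T S χ) +
        wt θ S * (D1 p θ s T (at' S 1 χ) + D1 p θ s T (at' S (-1) χ)) := by
    intro S _
    unfold Ps D1
    rw [Finset.sum_mul, ← Finset.sum_add_distrib, Finset.mul_sum, ← Finset.sum_add_distrib]
    refine Finset.sum_congr rfl fun S' _ => ?_
    rw [def1_trans, def2_trans]
    ring
  rw [Finset.sum_congr rfl h, Finset.sum_add_distrib, ← Finset.mul_sum]
  rfl

end Vale.Agent.P249.SP
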