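import Vale.Agent.P249.SP.Spec

/-!
# P249, block UNI: definitions and the internal statements (helper583)

`Co d` = coefficient functions (universes).  `tw S χ` = `χ · w_S`, `at' S e χ` = `(χ + e χ w_S)/2`.
Operators `Mop`, `Aop` on functions of the universe, functional
`Phi θ s R l f = (M^R A^l f)(1)`.
-/

open Finset
open scoped BigOperators symmDiff

namespace Vale.Agent.P249.SP

/-- coefficient functions (universes) -/
abbrev Co (d : ℕ) := Finset (Fin d) → ℝ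

/-- the small sets -/
def sm (d s : ℕ) : Finset (Finset (Fin d)) := univ.filter fun S : Finset (Fin d) => S.card ≤ s

/-- mass of the small sets -/
noncomputable def Ps (θ : ℝ) (d s : ℕ) : ℝ := ∑ S ∈ sm d s, wt θ S

/-- multiplication by the Walsh function `w_S` -/
def tw {d : ℕ} (S : Finset (Fin d)) (χ : Co d) : Co d := fun V => χ (V ∆ S)

/-- `(χ + e χ w_S)/2` -/
noncomputable def at' {d : ℕ} (S : Finset (Fin d)) (e : ℝ) (χ : Co d) : Co d :=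
  fun V => (χ V + e * χ (V ∆ S)) / 2

/-- the universe `1` -/
def one' (d : ℕ) : Co d := fun V => if V = ∅ then 1 else 0

/-- the operator `M` -/
noncomputable def Mop (θ : ℝ) {d : ℕ} (s : ℕ) (f : Co d → ℝ) : Co d → ℝ :=
  fun χ => ∑ S ∈ sm d s, wt θ S * f (tw S χ)

/-- the operator `A` -/
noncomputable def Aop (θ : ℝ) {d : ℕ} (s : ℕ) (f : Co d → ℝ) : Co d → ℝ :=
  fun χ => ∑ S ∈ sm d s, wt θ S * (f (at' S 1 χ) + f (at' S (-1) χ))

/-- `(M^R A^l f)(1)` -/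
noncomputable def Phi (θ : ℝ) {d : ℕ} (s R l : ℕ) (f : Co d → ℝ) : ℝ :=
  (Mop θ s)^[R] ((Aop θ s)^[l] f) (one' d)

/-- `T(χ)` at the coordinate `i` -/
def lin {d : ℕ} {ι : Type} (T : Finset (Fin d) → ι → ℝ) (χ : Co d) (i : ι) : ℝ :=
  ∑ S, χ S * T S i

/-- `‖T(χ)‖^p` -/
noncomputable def f0 (p : ℝ) {d : ℕ} {ι : Type} [Fintype ι] (T : Finset (Fin d) → ι → ℝ)
    (χ : Co d) : ℝ := ∑ i, |lin T χ i| ^ p

/-- `‖χ‖_p^p` -/
noncomputable def Nf (p : ℝ) {d : ℕ} (χ : Co d) : ℝ := (∑ y, |poly χ y| ^ p) / 2 ^ d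

/-- defect of `χ` in the direction `S` -/
noncomputable def Df (p : ℝ) {d : ℕ} {ι : Type} [Fintype ι] (T : Finset (Fin d) → ι → ℝ)
    (S : Finset (Fin d)) (χ : Co d) : ℝ :=
  ∑ i, (min |lin T (at' S 1 χ) i| |lin T (at' S (-1) χ) i|) ^ p

/-- averaged defect -/
noncomputable def D1 (p θ : ℝ) {d : ℕ} (s : ℕ) {ι : Type} [Fintype ι]
    (T : Finset (Fin d) → ι → ℝ) (χ : Co d) : ℝ := ∑ S ∈ sm d s, wt θ S * Df p T S χ

/-- the translated system on the universe `χ` -/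
def trans {d : ℕ} {ι : Type} (χ : Co d) (T : Finset (Fin d) → ι → ℝ) : Finset (Fin d) → ι → ℝ :=
  fun S i => ∑ V, χ V * T (V ∆ S) i

/-- admissible universes -/
structure Adm {d : ℕ} (s k : ℕ) (χ : Co d) : Prop where
  supp : ∀ V, k * s < V.card → χ V = 0
  l1 : ∑ V, |χ V| ≤ 1
  sup : ∀ y, |poly χ y| ≤ 1

/-! ## Internal statements -/

/-- **U1** (helper899) `M N = P_s N`, `A N = P_s N` -/
def StN : Prop := ∀ (p θ : ℝ), 1 < p → ∀ (d s : ℕ),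
  Mop θ s (Nf p (d := d)) = (fun χ => Ps θ d s * Nf p χ) ∧
  Aop θ s (Nf p (d := d)) = (fun χ => Ps θ d s * Nf p χ) ∧ Nf p (one' d) = 1

/-- **U2** (helper899) masses -/
def StP : Prop := ∀ (θ : ℝ), 0 < θ → θ < 1 → ∀ (d s : ℕ),
  0 ≤ Ps θ d s ∧ Ps θ d s ≤ 1 ∧ Ps θ d s = 1 - tail θ d s

/-- **U3** (helper899) values of `Phi` on `N` and on constants; upper bound for `f0` -/
def StPhi : Prop := ∀ (p θ : ℝ), 1 < p → 0 < θ → θ < 1 → ∀ (d s R l : ℕ),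
  Phi θ s R l (Nf p (d := d)) = Ps θ d s ^ (R + l) ∧
  Phi θ s R l (fun _ : Co d => (1 : ℝ)) = Ps θ d s ^ R * (2 * Ps θ d s) ^ l

/-- **U4** (helper899) upper bound -/
def StUp : Prop := ∀ (p D θ ε : ℝ), 1 < p → 1 ≤ D → 0 < θ → θ < 1 → 0 ≤ ε →
  ∀ (d s m R l : ℕ), (R + l) * s ≤ m → ε * 2 ^ l ≤ 1 →
  ∀ (ι : Type) [Fintype ι] (τ : List (Fin d × Bool) → Finset (Fin d) → ι → ℝ),
    Sys p D ε d m τ →
    0 ≤ Phi θ s R l (f0 p (τ [])) ∧ Phi θ s R l (f0 p (τ [])) ≤ 2 ^ p * D ^ p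

/-- **U5** (helper899) the two defects of the translated system -/
def StDef : Prop := ∀ (p θ : ℝ), 1 < p → 0 < θ → θ < 1 → ∀ (d s : ℕ) (ι : Type) [Fintype ι]
  (T : Finset (Fin d) → ι → ℝ) (χ : Co d),
  ∑ S ∈ sm d s, ∑ S' ∈ sm d s, wt θ S * wt θ S' *
    (def1 p (trans χ T) S + def2 p (trans χ T) S S') =
  Ps θ d s * D1 p θ s T χ + Aop θ s (D1 p θ s T) χ

/-- **U6** (helper944) the test family and the lower bound -/
def StFam : Prop := ∀ (p Λ θ : ℝ), 1 < p → 0 < θ → θ < 1 → ∀ (d s K l m₀ : ℕ), 1 ≤ K →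
  K + l ≤ m₀ → (2 : ℝ) ^ (l + 1) ≤ Λ → 1 / 2 ≤ Ps θ d s ^ (K + l) →
  ∃ fam : TestFam p Λ d (m₀ * s), ∀ (ι : Type) [Fintype ι]
    (τ : List (Fin d × Bool) → Finset (Fin d) → ι → ℝ), L3 fam τ →
    (1 / 2 : ℝ) ^ (p + 1) ≤ (∑ R ∈ range K, Phi θ s R l (f0 p (τ []))) / K

end Vale.Agent.P249.SP
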