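import Vale.Agent.P249.SP.Clk
import Vale.Agent.P249.SP.UniDefs

/-!
# P249, block UNI: the operators `Mop`, `Aop`, the functional `Phi`, Clarkson step (helper205)
-/

open Finset
open scoped BigOperators symmDiff

namespace Vale.Agent.P249.SP

variable {d : ℕ}

lemma wt_nonneg_uo {θ : ℝ} (h0 : 0 ≤ θ) (h1 : θ ≤ 1) (S : Finset (Fin d)) : 0 ≤ wt θ S := by
  unfold wt
  exact mul_nonneg (pow_nonneg h0 _) (pow_nonneg (by linarith) _)

lemma tw_tw (S S' : Finset (Fin d)) (χ : Co d) : tw S (tw S' χ) = tw S' (tw S χ) := by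
  funext V
  simp only [tw]
  rw [symmDiff_assoc, symmDiff_comm S S', ← symmDiff_assoc]

lemma tw_at (S S' : Finset (Fin d)) (a : ℝ) (χ : Co d) :
    tw S (at' S' a χ) = at' S' a (tw S χ) := by
  funext V
  simp only [tw, at']
  rw [symmDiff_assoc V S S', symmDiff_comm S S', ← symmDiff_assoc]

lemma mop_mono {θ : ℝ} {s : ℕ} (h0 : 0 ≤ θ) (h1 : θ ≤ 1) {f g : Co d → ℝ} (h : ∀ χ, f χ ≤ g χ)
    (χ : Co d) : Mop θ s f χ ≤ Mop θ s g χ := by
  unfold Mop
  exact Finset.sum_le_sum fun S _ => mul_le_mul_of_nonneg_left (h _) (wt_nonneg_uo h0 h1 S)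

lemma aop_mono {θ : ℝ} {s : ℕ} (h0 : 0 ≤ θ) (h1 : θ ≤ 1) {f g : Co d → ℝ} (h : ∀ χ, f χ ≤ g χ)
    (χ : Co d) : Aop θ s f χ ≤ Aop θ s g χ := by
  unfold Aop
  exact Finset.sum_le_sum fun S _ =>
    mul_le_mul_of_nonneg_left (add_le_add (h _) (h _)) (wt_nonneg_uo h0 h1 S)

lemma mop_add (θ : ℝ) (s : ℕ) (f g : Co d → ℝ) :
    Mop θ s (fun χ => f χ + g χ) = fun χ => Mop θ s f χ + Mop θ s g χ := by
  funext χ
  unfold Mop
  rw [← Finset.sum_add_distrib]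
  exact Finset.sum_congr rfl fun S _ => by ring

lemma aop_add (θ : ℝ) (s : ℕ) (f g : Co d → ℝ) :
    Aop θ s (fun χ => f χ + g χ) = fun χ => Aop θ s f χ + Aop θ s g χ := by
  funext χ
  unfold Aop
  rw [← Finset.sum_add_distrib]
  exact Finset.sum_congr rfl fun S _ => by ring

lemma mop_smul (θ : ℝ) (s : ℕ) (c : ℝ) (f : Co d → ℝ) :
    Mop θ s (fun χ => c * f χ) = fun χ => c * Mop θ s f χ := by
  funext χ
  unfold Mop
  rw [Finset.mul_sum]
  exact Finset.sum_congr rfl fun S _ => by ring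

lemma aop_smul (θ : ℝ) (s : ℕ) (c : ℝ) (f : Co d → ℝ) :
    Aop θ s (fun χ => c * f χ) = fun χ => c * Aop θ s f χ := by
  funext χ
  unfold Aop
  rw [Finset.mul_sum]
  exact Finset.sum_congr rfl fun S _ => by ring

lemma mop_aop (θ : ℝ) (s : ℕ) (f : Co d → ℝ) : Mop θ s (Aop θ s f) = Aop θ s (Mop θ s f) := by
  funext χ
  unfold Mop Aop
  simp only [Finset.mul_sum, ← Finset.sum_add_distrib, tw_at]
  rw [Finset.sum_comm]
  refine Finset.sum_congr rfl fun S _ => Finset.sum_congr rfl fun S' _ => ?_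
  ring

/-- `(M^R A^l f)(χ)` as a function of `χ` -/
noncomputable def PhiF (θ : ℝ) (s R l : ℕ) (f : Co d → ℝ) : Co d → ℝ :=
  (Mop θ s)^[R] ((Aop θ s)^[l] f)

lemma phi_eq (θ : ℝ) (s R l : ℕ) (f : Co d → ℝ) : Phi θ s R l f = PhiF θ s R l f (one' d) := rfl

lemma itM_mono {θ : ℝ} {s : ℕ} (h0 : 0 ≤ θ) (h1 : θ ≤ 1) (n : ℕ) :
    ∀ {f g : Co d → ℝ}, (∀ χ, f χ ≤ g χ) →
      ∀ χ : Co d, (Mop θ s)^[n] f χ ≤ (Mop θ s)^[n] g χ := by
  induction n with
  | zero => intro f g h χ; exact h χ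
  | succ n ih =>
      intro f g h χ
      rw [Function.iterate_succ_apply', Function.iterate_succ_apply']
      exact mop_mono h0 h1 (fun χ' => ih h χ') χ

lemma itA_mono {θ : ℝ} {s : ℕ} (h0 : 0 ≤ θ) (h1 : θ ≤ 1) (n : ℕ) :
    ∀ {f g : Co d → ℝ}, (∀ χ, f χ ≤ g χ) →
      ∀ χ : Co d, (Aop θ s)^[n] f χ ≤ (Aop θ s)^[n] g χ := by
  induction n with
  | zero => intro f g h χ; exact h χ
  | succ n ih =>
      intro f g h χ
      rw [Function.iterate_succ_apply', Function.iterate_succ_apply']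
      exact aop_mono h0 h1 (fun χ' => ih h χ') χ

lemma itM_add (θ : ℝ) (s n : ℕ) (f g : Co d → ℝ) :
    (Mop θ s)^[n] (fun χ => f χ + g χ) = fun χ => (Mop θ s)^[n] f χ + (Mop θ s)^[n] g χ := by
  induction n with
  | zero => rfl
  | succ n ih =>
      rw [Function.iterate_succ_apply', Function.iterate_succ_apply',
        Function.iterate_succ_apply', ih, mop_add]

lemma itA_add (θ : ℝ) (s n : ℕ) (f g : Co d → ℝ) :
    (Aop θ s)^[n] (fun χ => f χ + g χ) = fun χ => (Aop θ s)^[n] f χ + (Aop θ s)^[n] g χ := by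
  induction n with
  | zero => rfl
  | succ n ih =>
      rw [Function.iterate_succ_apply', Function.iterate_succ_apply',
        Function.iterate_succ_apply', ih, aop_add]

lemma itM_smul (θ : ℝ) (s n : ℕ) (c : ℝ) (f : Co d → ℝ) :
    (Mop θ s)^[n] (fun χ => c * f χ) = fun χ => c * (Mop θ s)^[n] f χ := by
  induction n with
  | zero => rfl
  | succ n ih =>
      rw [Function.iterate_succ_apply', Function.iterate_succ_apply', ih, mop_smul]

lemma itA_smul (θ : ℝ) (s n : ℕ) (c : ℝ) (f : Co d → ℝ) :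
    (Aop θ s)^[n] (fun χ => c * f χ) = fun χ => c * (Aop θ s)^[n] f χ := by
  induction n with
  | zero => rfl
  | succ n ih =>
      rw [Function.iterate_succ_apply', Function.iterate_succ_apply', ih, aop_smul]

lemma mop_itA (θ : ℝ) (s n : ℕ) (f : Co d → ℝ) :
    Mop θ s ((Aop θ s)^[n] f) = (Aop θ s)^[n] (Mop θ s f) := by
  induction n with
  | zero => rfl
  | succ n ih =>
      rw [Function.iterate_succ_apply', Function.iterate_succ_apply', mop_aop, ih]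

lemma aop_itM (θ : ℝ) (s n : ℕ) (f : Co d → ℝ) :
    Aop θ s ((Mop θ s)^[n] f) = (Mop θ s)^[n] (Aop θ s f) := by
  induction n with
  | zero => rfl
  | succ n ih =>
      rw [Function.iterate_succ_apply', Function.iterate_succ_apply', ← mop_aop, ih]

/-! ### `Phi` -/

lemma uo_phi_succ_A (θ : ℝ) (s R l : ℕ) (f : Co d → ℝ) :
    Phi θ s R (l + 1) f = Phi θ s R l (Aop θ s f) := by
  unfold Phi
  rw [Function.iterate_succ_apply]

lemma uo_phi_succ_M (θ : ℝ) (s R l : ℕ) (f : Co d → ℝ) :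
    Phi θ s (R + 1) l f = Phi θ s R l (Mop θ s f) := by
  unfold Phi
  rw [Function.iterate_succ_apply, mop_itA]

lemma phi_zero_zero (θ : ℝ) (s : ℕ) (f : Co d → ℝ) : Phi θ s 0 0 f = f (one' d) := rfl

lemma phi_mono_all {θ : ℝ} {s : ℕ} (h0 : 0 ≤ θ) (h1 : θ ≤ 1) {f g : Co d → ℝ}
    (h : ∀ χ, f χ ≤ g χ) (R l : ℕ) : Phi θ s R l f ≤ Phi θ s R l g :=
  itM_mono h0 h1 R (fun χ' => itA_mono h0 h1 l h χ') _

lemma uo_phi_add (θ : ℝ) (s R l : ℕ) (f g : Co d → ℝ) :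
    Phi θ s R l (fun χ => f χ + g χ) = Phi θ s R l f + Phi θ s R l g := by
  unfold Phi
  rw [itA_add, itM_add]

lemma uo_phi_smul (θ : ℝ) (s R l : ℕ) (c : ℝ) (f : Co d → ℝ) :
    Phi θ s R l (fun χ => c * f χ) = c * Phi θ s R l f := by
  unfold Phi
  rw [itA_smul, itM_smul]

lemma uo_phi_sub (θ : ℝ) (s R l : ℕ) (f g : Co d → ℝ) :
    Phi θ s R l (fun χ => f χ - g χ) = Phi θ s R l f - Phi θ s R l g := by
  have h : (fun χ => f χ - g χ) = fun χ => f χ + (-1) * g χ := by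
    funext χ
    ring
  rw [h, uo_phi_add, uo_phi_smul]
  ring

lemma uo_phi_zero (θ : ℝ) (s R l : ℕ) : Phi θ s R l (fun _ : Co d => (0 : ℝ)) = 0 := by
  have h := uo_phi_smul θ s R l 0 (fun _ : Co d => (0 : ℝ))
  simpa using h

lemma uo_phi_nonneg {θ : ℝ} {s : ℕ} (h0 : 0 ≤ θ) (h1 : θ ≤ 1) {f : Co d → ℝ}
    (h : ∀ χ, 0 ≤ f χ) (R l : ℕ) : 0 ≤ Phi θ s R l f := by
  have h2 := phi_mono_all (s := s) h0 h1 h R l
  rwa [uo_phi_zero] at h2

/-- monotonicity of `Phi` along any graded family of universes stable under the moves -/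
lemma phi_mono_on {θ : ℝ} {s : ℕ} (h0 : 0 ≤ θ) (h1 : θ ≤ 1) (Ad : ℕ → Co d → Prop)
    (ht : ∀ k χ S, Ad k χ → S ∈ sm d s → Ad (k + 1) (tw S χ))
    (ha : ∀ k χ S, Ad k χ → S ∈ sm d s → Ad (k + 1) (at' S 1 χ) ∧ Ad (k + 1) (at' S (-1) χ))
    (hone : Ad 0 (one' d)) :
    ∀ (R l : ℕ) {f g : Co d → ℝ}, (∀ χ, Ad (R + l) χ → f χ ≤ g χ) →
      Phi θ s R l f ≤ Phi θ s R l g := by
  have hA : ∀ (l k : ℕ) {f g : Co d → ℝ}, (∀ χ, Ad (k + l) χ → f χ ≤ g χ) →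
      ∀ χ, Ad k χ → (Aop θ s)^[l] f χ ≤ (Aop θ s)^[l] g χ := by
    intro l
    induction l with
    | zero => intro k f g h χ hχ; exact h χ hχ
    | succ l ih =>
        intro k f g h χ hχ
        rw [Function.iterate_succ_apply', Function.iterate_succ_apply']
        unfold Aop
        refine Finset.sum_le_sum fun S hS =>
          mul_le_mul_of_nonneg_left (add_le_add ?_ ?_) (wt_nonneg_uo h0 h1 S)
        · exact ih (k + 1) (fun χ' hχ' => h χ' (by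
            have e : k + (l + 1) = k + 1 + l := by ring
            rw [e]; exact hχ')) _ (ha k χ S hχ hS).1
        · exact ih (k + 1) (fun χ' hχ' => h χ' (by
            have e : k + (l + 1) = k + 1 + l := by ring
            rw [e]; exact hχ')) _ (ha k χ S hχ hS).2
  have hM : ∀ (R k : ℕ) {f g : Co d → ℝ}, (∀ χ, Ad (k + R) χ → f χ ≤ g χ) →
      ∀ χ, Ad k χ → (Mop θ s)^[R] f χ ≤ (Mop θ s)^[R] g χ := by
    intro R
    induction R with
    | zero => intro k f g h χ hχ; exact h χ hχ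
    | succ R ih =>
        intro k f g h χ hχ
        rw [Function.iterate_succ_apply', Function.iterate_succ_apply']
        unfold Mop
        refine Finset.sum_le_sum fun S hS =>
          mul_le_mul_of_nonneg_left ?_ (wt_nonneg_uo h0 h1 S)
        exact ih (k + 1) (fun χ' hχ' => h χ' (by
            have e : k + (R + 1) = k + 1 + R := by ring
            rw [e]; exact hχ')) _ (ht k χ S hχ hS)
  intro R l f g h
  unfold Phi
  refine hM R 0 (fun χ hχ => hA l (0 + R) (fun χ' hχ' => h χ' ?_) χ hχ) _ hone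
  rw [zero_add] at hχ'
  exact hχ'

/-- if `Phi θ s R l f > 0` then `f > 0` at some reachable universe -/
lemma exists_pos_of_phi_pos {θ : ℝ} {s : ℕ} (h0 : 0 ≤ θ) (h1 : θ ≤ 1) (Ad : ℕ → Co d → Prop)
    (ht : ∀ k χ S, Ad k χ → S ∈ sm d s → Ad (k + 1) (tw S χ))
    (ha : ∀ k χ S, Ad k χ → S ∈ sm d s → Ad (k + 1) (at' S 1 χ) ∧ Ad (k + 1) (at' S (-1) χ))
    (hone : Ad 0 (one' d)) (R l : ℕ) {f : Co d → ℝ} (hpos : 0 < Phi θ s R l f) :
    ∃ χ, Ad (R + l) χ ∧ 0 < f χ := by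
  by_contra hcon
  push Not at hcon
  have h := phi_mono_on h0 h1 Ad ht ha hone R l (f := f) (g := fun _ => 0)
    (fun χ hχ => hcon χ hχ)
  rw [uo_phi_zero] at h
  linarith

/-! ### Clarkson step -/

lemma lin_at_add {ι : Type} (T : Finset (Fin d) → ι → ℝ) (χ : Co d) (S : Finset (Fin d)) (i : ι) :
    lin T (at' S 1 χ) i + lin T (at' S (-1) χ) i = lin T χ i := by
  unfold lin at'
  rw [← Finset.sum_add_distrib]
  exact Finset.sum_congr rfl fun V _ => by ring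

lemma lin_at_sub {ι : Type} (T : Finset (Fin d) → ι → ℝ) (χ : Co d) (S : Finset (Fin d)) (i : ι) :
    lin T (at' S 1 χ) i - lin T (at' S (-1) χ) i = lin T (tw S χ) i := by
  unfold lin at' tw
  rw [← Finset.sum_sub_distrib]
  exact Finset.sum_congr rfl fun V _ => by ring

lemma f0_nonneg (p : ℝ) {ι : Type} [Fintype ι] (T : Finset (Fin d) → ι → ℝ) (χ : Co d) :
    0 ≤ f0 p T χ :=
  Finset.sum_nonneg fun _ _ => Real.rpow_nonneg (abs_nonneg _) _

lemma df_nonneg (p : ℝ) {ι : Type} [Fintype ι] (T : Finset (Fin d) → ι → ℝ)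
    (S : Finset (Fin d)) (χ : Co d) : 0 ≤ Df p T S χ :=
  Finset.sum_nonneg fun _ _ => Real.rpow_nonneg (le_min (abs_nonneg _) (abs_nonneg _)) _

lemma d1_nonneg (p : ℝ) {θ : ℝ} (h0 : 0 ≤ θ) (h1 : θ ≤ 1) (s : ℕ) {ι : Type} [Fintype ι]
    (T : Finset (Fin d) → ι → ℝ) (χ : Co d) : 0 ≤ D1 p θ s T χ :=
  Finset.sum_nonneg fun S _ => mul_nonneg (wt_nonneg_uo h0 h1 S) (df_nonneg p T S χ)

lemma clk_ge_point {p : ℝ} (hp : 1 < p) (hp2 : 2 ≤ p) {ι : Type} [Fintype ι]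
    (T : Finset (Fin d) → ι → ℝ) (χ : Co d) (S : Finset (Fin d)) :
    f0 p T (at' S 1 χ) + f0 p T (at' S (-1) χ) + (p / 2 - 1) * Df p T S χ ≤
      (f0 p T χ + f0 p T (tw S χ)) / 2 := by
  unfold f0 Df
  rw [Finset.mul_sum, ← Finset.sum_add_distrib, ← Finset.sum_add_distrib,
    ← Finset.sum_add_distrib, Finset.sum_div]
  refine Finset.sum_le_sum fun i _ => ?_
  have h := (specClk p hp (lin T (at' S 1 χ) i) (lin T (at' S (-1) χ) i)).1 hp2
  rw [lin_at_add, lin_at_sub] at h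
  exact h

lemma clk_le_point {p : ℝ} (hp : 1 < p) (hp2 : p ≤ 2) {ι : Type} [Fintype ι]
    (T : Finset (Fin d) → ι → ℝ) (χ : Co d) (S : Finset (Fin d)) :
    (f0 p T χ + f0 p T (tw S χ)) / 2 + (1 - p / 2) * Df p T S χ ≤
      f0 p T (at' S 1 χ) + f0 p T (at' S (-1) χ) := by
  unfold f0 Df
  rw [Finset.mul_sum, ← Finset.sum_add_distrib, ← Finset.sum_add_distrib, Finset.sum_div,
    ← Finset.sum_add_distrib]
  refine Finset.sum_le_sum fun i _ => ?_
  have h := (specClk p hp (lin T (at' S 1 χ) i) (lin T (at' S (-1) χ) i)).2 hp2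
  rw [lin_at_add, lin_at_sub] at h
  linarith

/-- integrated Clarkson step, `p ≥ 2` -/
lemma clk_ge_int {p θ : ℝ} {s : ℕ} (hp : 1 < p) (hp2 : 2 ≤ p) (h0 : 0 ≤ θ)
    (h1 : θ ≤ 1) {ι : Type} [Fintype ι] (T : Finset (Fin d) → ι → ℝ) (χ : Co d) :
    Aop θ s (f0 p T) χ + (p / 2 - 1) * D1 p θ s T χ ≤
      (Ps θ d s * f0 p T χ + Mop θ s (f0 p T) χ) / 2 := by
  unfold Aop D1 Mop Ps
  rw [Finset.mul_sum, Finset.sum_mul, ← Finset.sum_add_distrib, ← Finset.sum_add_distrib,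
    Finset.sum_div]
  refine Finset.sum_le_sum fun S _ => ?_
  have h := mul_le_mul_of_nonneg_left (clk_ge_point hp hp2 T χ S) (wt_nonneg_uo h0 h1 S)
  calc _ = wt θ S * (f0 p T (at' S 1 χ) + f0 p T (at' S (-1) χ) +
        (p / 2 - 1) * Df p T S χ) := by ring
    _ ≤ _ := h
    _ = _ := by ring

/-- integrated Clarkson step, `p ≤ 2` -/
lemma clk_le_int {p θ : ℝ} {s : ℕ} (hp : 1 < p) (hp2 : p ≤ 2) (h0 : 0 ≤ θ)
    (h1 : θ ≤ 1) {ι : Type} [Fintype ι] (T : Finset (Fin d) → ι → ℝ) (χ : Co d) :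
    (Ps θ d s * f0 p T χ + Mop θ s (f0 p T) χ) / 2 + (1 - p / 2) * D1 p θ s T χ ≤
      Aop θ s (f0 p T) χ := by
  unfold Aop D1 Mop Ps
  rw [Finset.mul_sum, Finset.sum_mul, ← Finset.sum_add_distrib, Finset.sum_div,
    ← Finset.sum_add_distrib]
  refine Finset.sum_le_sum fun S _ => ?_
  have h := mul_le_mul_of_nonneg_left (clk_le_point hp hp2 T χ S) (wt_nonneg_uo h0 h1 S)
  calc _ = wt θ S * ((f0 p T χ + f0 p T (tw S χ)) / 2 + (1 - p / 2) * Df p T S χ) := by ring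
    _ ≤ _ := h
    _ = _ := by ring

/-- **Clarkson step for `Phi f0`**, `p ≥ 2` -/
theorem clk_ge {p θ : ℝ} {s : ℕ} (hp : 1 < p) (hp2 : 2 ≤ p) (h0 : 0 ≤ θ)
    (h1 : θ ≤ 1) {ι : Type} [Fintype ι] (T : Finset (Fin d) → ι → ℝ) (l R : ℕ) :
    Phi θ s R (l + 1) (f0 p T) + (p / 2 - 1) * Phi θ s R l (D1 p θ s T) ≤
      (Ps θ d s * Phi θ s R l (f0 p T) + Phi θ s (R + 1) l (f0 p T)) / 2 := by
  have h := phi_mono_all h0 h1 (s := s) (clk_ge_int hp hp2 h0 h1 (s := s) T) R l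
  have e1 : Phi θ s R l (fun χ => Aop θ s (f0 p T) χ + (p / 2 - 1) * D1 p θ s T χ) =
      Phi θ s R (l + 1) (f0 p T) + (p / 2 - 1) * Phi θ s R l (D1 p θ s T) := by
    rw [uo_phi_add, uo_phi_smul, uo_phi_succ_A]
  have e2 : Phi θ s R l (fun χ => (Ps θ d s * f0 p T χ + Mop θ s (f0 p T) χ) / 2) =
      (Ps θ d s * Phi θ s R l (f0 p T) + Phi θ s (R + 1) l (f0 p T)) / 2 := by
    have e3 : (fun χ => (Ps θ d s * f0 p T χ + Mop θ s (f0 p T) χ) / 2) =
        fun χ => (Ps θ d s / 2) * f0 p T χ + (1 / 2) * Mop θ s (f0 p T) χ := by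
      funext χ
      ring
    rw [e3, uo_phi_add, uo_phi_smul, uo_phi_smul, uo_phi_succ_M]
    ring
  rw [e1, e2] at h
  exact h

/-- **Clarkson step for `Phi f0`**, `p ≤ 2` -/
theorem clk_le {p θ : ℝ} {s : ℕ} (hp : 1 < p) (hp2 : p ≤ 2) (h0 : 0 ≤ θ)
    (h1 : θ ≤ 1) {ι : Type} [Fintype ι] (T : Finset (Fin d) → ι → ℝ) (l R : ℕ) :
    (Ps θ d s * Phi θ s R l (f0 p T) + Phi θ s (R + 1) l (f0 p T)) / 2 +
      (1 - p / 2) * Phi θ s R l (D1 p θ s T) ≤ Phi θ s R (l + 1) (f0 p T) := by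
  have h := phi_mono_all h0 h1 (s := s) (clk_le_int hp hp2 h0 h1 (s := s) T) R l
  have e1 : Phi θ s R l (fun χ => (Ps θ d s * f0 p T χ + Mop θ s (f0 p T) χ) / 2 +
      (1 - p / 2) * D1 p θ s T χ) =
      (Ps θ d s * Phi θ s R l (f0 p T) + Phi θ s (R + 1) l (f0 p T)) / 2 +
      (1 - p / 2) * Phi θ s R l (D1 p θ s T) := by
    have e3 : (fun χ => (Ps θ d s * f0 p T χ + Mop θ s (f0 p T) χ) / 2) =
        fun χ => (Ps θ d s / 2) * f0 p T χ + (1 / 2) * Mop θ s (f0 p T) χ := by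
      funext χ
      ring
    rw [uo_phi_add, uo_phi_smul, e3, uo_phi_add, uo_phi_smul, uo_phi_smul, uo_phi_succ_M]
    ring
  rw [e1, ← uo_phi_succ_A] at h
  exact h

end Vale.Agent.P249.SP
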