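import Mathlib

/-!
# P249, piece UNI: telescoping and pigeonhole in abstract form (helper456)

`β l R` stands for `(M^R A^l f0)(1)`, `Δ l R` for `(M^R A^l D1)(1)`.  `avgR K (β l)` is the average over
`R < K`.  Both cases (`p > 2`, `p < 2`) give an index `l` at which two consecutive average defects are
small while the average of `β` is still bounded below.
-/

open Finset

namespace Vale.Agent.P249.SP

/-- average over `R < K` -/
noncomputable def avgR (K : ℕ) (b : ℕ → ℝ) : ℝ := (∑ R ∈ range K, b R) / K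

theorem avgR_mono {K : ℕ} {a b : ℕ → ℝ} (h : ∀ R < K, a R ≤ b R) : avgR K a ≤ avgR K b := by
  unfold avgR
  exact div_le_div_of_nonneg_right (sum_le_sum fun R hR => h R (mem_range.mp hR)) (by positivity)

theorem avgR_add (K : ℕ) (a b : ℕ → ℝ) : avgR K (fun R => a R + b R) = avgR K a + avgR K b := by
  unfold avgR
  rw [sum_add_distrib, add_div]

theorem avgR_const_mul (K : ℕ) (c : ℝ) (a : ℕ → ℝ) : avgR K (fun R => c * a R) = c * avgR K a := by
  unfold avgR
  rw [← mul_sum, mul_div_assoc]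

theorem avgR_nonneg {K : ℕ} {a : ℕ → ℝ} (h : ∀ R < K, 0 ≤ a R) : 0 ≤ avgR K a := by
  unfold avgR
  exact div_nonneg (sum_nonneg fun R hR => h R (mem_range.mp hR)) (by positivity)

theorem avgR_le {K : ℕ} (hK : 0 < K) {a : ℕ → ℝ} {U : ℝ} (h : ∀ R < K, a R ≤ U) : avgR K a ≤ U := by
  unfold avgR
  have hK' : (0 : ℝ) < K := by exact_mod_cast hK
  rw [div_le_iff₀ hK']
  calc ∑ R ∈ range K, a R ≤ ∑ _R ∈ range K, U := sum_le_sum fun R hR => h R (mem_range.mp hR)
    _ = U * K := by rw [sum_const, card_range, nsmul_eq_mul, mul_comm]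

/-- shifting the window by one changes the average by at most `U / K` -/
theorem abs_avgR_shift {K : ℕ} (hK : 0 < K) {a : ℕ → ℝ} {U : ℝ} (h0 : ∀ R ≤ K, 0 ≤ a R)
    (hU : ∀ R ≤ K, a R ≤ U) : |avgR K (fun R => a (R + 1)) - avgR K a| ≤ U / K := by
  have hK' : (0 : ℝ) < K := by exact_mod_cast hK
  have e : avgR K (fun R => a (R + 1)) - avgR K a = (a K - a 0) / K := by
    unfold avgR
    rw [← sub_div]
    congr 1
    have h1 := sum_range_succ a K
    have h2 := sum_range_succ' a K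
    linarith
  rw [e, abs_div, abs_of_pos hK']
  refine div_le_div_of_nonneg_right ?_ hK'.le
  rw [abs_le]
  constructor
  · linarith [h0 K le_rfl, hU 0 (Nat.zero_le _)]
  · linarith [h0 0 (Nat.zero_le _), hU K le_rfl]

/-- pigeonhole for two consecutive terms -/
theorem exists_two_small {x : ℕ → ℝ} {n : ℕ} (hn : 2 ≤ n) (hx : ∀ l < n, 0 ≤ x l) {S : ℝ}
    (hS : ∑ l ∈ range n, x l ≤ S) : ∃ l, l + 2 ≤ n ∧ x l + x (l + 1) ≤ 2 * S / (n - 1) := by
  obtain ⟨m, rfl⟩ : ∃ m, n = m + 1 := ⟨n - 1, by omega⟩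
  have hm : 1 ≤ m := by omega
  have hm' : (0 : ℝ) < m := by exact_mod_cast hm
  by_contra hcon
  push Not at hcon
  have h1 : ∑ l ∈ range m, (x l + x (l + 1)) ≤ 2 * S := by
    rw [sum_add_distrib]
    have e1 := sum_range_succ x m
    have e2 := sum_range_succ' x m
    have := hx m (by omega)
    have := hx 0 (by omega)
    linarith
  have h2 : ∑ l ∈ range m, (2 * S / ((m + 1 : ℕ) - 1 : ℝ)) < ∑ l ∈ range m, (x l + x (l + 1)) := by
    refine sum_lt_sum_of_nonempty (by rw [nonempty_range_iff]; omega) fun l hl => ?_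
    exact hcon l (by have := mem_range.mp hl; omega)
  rw [sum_const, card_range, nsmul_eq_mul] at h2
  have h3 : (m : ℝ) * (2 * S / ((m + 1 : ℕ) - 1 : ℝ)) = 2 * S := by
    have h4 : (((m + 1 : ℕ) : ℝ) - 1) = m := by
      push_cast
      ring
    rw [h4]
    field_simp
  rw [h3] at h2
  linarith

/-- **case `p > 2`**: `β (l+1) R + c Δ l R ≤ (β l R + β l (R+1)) / 2`. -/
theorem pigeon_gt {β Δ : ℕ → ℕ → ℝ} {c U c₀ : ℝ} {lm K : ℕ} (hc : 0 < c) (hlm : 2 ≤ lm)
    (hK : lm ≤ K) (hβ0 : ∀ l ≤ lm, ∀ R ≤ K, 0 ≤ β l R) (hβU : ∀ l ≤ lm, ∀ R ≤ K, β l R ≤ U)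
    (hΔ : ∀ l < lm, ∀ R < K, 0 ≤ Δ l R)
    (step : ∀ l < lm, ∀ R < K, β (l + 1) R + c * Δ l R ≤ (β l R + β l (R + 1)) / 2)
    (hlow : c₀ ≤ avgR K (β lm)) :
    ∃ l, l + 2 ≤ lm ∧ avgR K (Δ l) + avgR K (Δ (l + 1)) ≤ 2 * (2 * U / c) / (lm - 1) ∧
      c₀ - lm * (U / (2 * K)) ≤ avgR K (β l) := by
  have hK0 : 0 < K := by omega
  have hK' : (0 : ℝ) < K := by exact_mod_cast hK0
  have hU0 : 0 ≤ U := (hβ0 0 (by omega) 0 (by omega)).trans (hβU 0 (by omega) 0 (by omega))
  have key : ∀ l < lm, avgR K (β (l + 1)) + c * avgR K (Δ l) ≤ avgR K (β l) + U / (2 * K) := by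
    intro l hl
    have h1 : avgR K (fun R => β (l + 1) R + c * Δ l R) ≤
        avgR K (fun R => (1 / 2) * β l R + (1 / 2) * β l (R + 1)) :=
      avgR_mono fun R hR => by linarith [step l hl R hR]
    rw [avgR_add, avgR_const_mul, avgR_add, avgR_const_mul, avgR_const_mul] at h1
    have h2 := abs_avgR_shift hK0 (hβ0 l hl.le) (hβU l hl.le)
    have h3 := (abs_le.mp h2).2
    have h4 : U / (2 * K) = (1 / 2) * (U / K) := by
      field_simp
    rw [h4]
    linarith
  have hΔa : ∀ l < lm, 0 ≤ avgR K (Δ l) := fun l hl => avgR_nonneg (hΔ l hl)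
  have hUK : (0 : ℝ) ≤ U / (2 * K) := by positivity
  -- telescoping sum
  have tele : ∀ n ≤ lm, avgR K (β n) + c * ∑ l ∈ range n, avgR K (Δ l) ≤
      avgR K (β 0) + n * (U / (2 * K)) := by
    intro n
    induction n with
    | zero => intro _; simp
    | succ n ih =>
      intro hn
      have h1 := ih (by omega)
      have h2 := key n (by omega)
      rw [sum_range_succ]
      push_cast
      linarith
  -- monotonicity
  have mono : ∀ n ≤ lm, avgR K (β lm) ≤ avgR K (β (lm - n)) + n * (U / (2 * K)) := by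
    intro n
    induction n with
    | zero => intro _; simp
    | succ n ih =>
      intro hn
      have h1 := ih (by omega)
      have h2 := key (lm - (n + 1)) (by omega)
      rw [show lm - (n + 1) + 1 = lm - n by omega] at h2
      have h3 := mul_nonneg hc.le (hΔa (lm - (n + 1)) (by omega))
      push_cast
      linarith
  have hsum : ∑ l ∈ range lm, avgR K (Δ l) ≤ 2 * U / c := by
    rw [le_div_iff₀ hc]
    have h1 := tele lm le_rfl
    have h2 : 0 ≤ avgR K (β lm) := avgR_nonneg fun R hR => hβ0 lm le_rfl R hR.le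
    have h3 : avgR K (β 0) ≤ U := avgR_le hK0 fun R hR => hβU 0 (by omega) R hR.le
    have h4 : (lm : ℝ) * (U / (2 * K)) ≤ U := by
      have h5 : (lm : ℝ) ≤ K := by exact_mod_cast hK
      calc (lm : ℝ) * (U / (2 * K)) ≤ K * (U / (2 * K)) := mul_le_mul_of_nonneg_right h5 hUK
        _ = U / 2 := by field_simp
        _ ≤ U := by linarith
    linarith
  obtain ⟨l, hl, hl2⟩ := exists_two_small hlm hΔa hsum
  refine ⟨l, hl, hl2, ?_⟩
  have h1 := mono (lm - l) (by omega)
  rw [show lm - (lm - l) = l by omega] at h1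
  have h2 : ((lm - l : ℕ) : ℝ) ≤ lm := by exact_mod_cast Nat.sub_le _ _
  have h3 := mul_le_mul_of_nonneg_right h2 hUK
  linarith

/-- **case `p < 2`**: `(P β l R + β l (R+1)) / 2 + c Δ l R ≤ β (l+1) R`. -/
theorem pigeon_lt {β Δ : ℕ → ℕ → ℝ} {c U c₀ P : ℝ} {lm K : ℕ} (hc : 0 < c) (hlm : 2 ≤ lm)
    (hK : lm ≤ K) (hP : (lm : ℝ) * (1 - P) ≤ 1) (hP1 : P ≤ 1)
    (hβ0 : ∀ l ≤ lm, ∀ R ≤ K, 0 ≤ β l R) (hβU : ∀ l ≤ lm, ∀ R ≤ K, β l R ≤ U)
    (hΔ : ∀ l < lm, ∀ R < K, 0 ≤ Δ l R)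
    (step : ∀ l < lm, ∀ R < K, (P * β l R + β l (R + 1)) / 2 + c * Δ l R ≤ β (l + 1) R)
    (hlow : c₀ ≤ avgR K (β 0)) :
    ∃ l, l + 2 ≤ lm ∧ avgR K (Δ l) + avgR K (Δ (l + 1)) ≤ 2 * (2 * U / c) / (lm - 1) ∧
      c₀ - lm * ((1 - P) * U / 2 + U / (2 * K)) ≤ avgR K (β l) := by
  have hK0 : 0 < K := by omega
  have hK' : (0 : ℝ) < K := by exact_mod_cast hK0
  have hU0 : 0 ≤ U := (hβ0 0 (by omega) 0 (by omega)).trans (hβU 0 (by omega) 0 (by omega))
  set e : ℝ := (1 - P) * U / 2 + U / (2 * K) with he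
  have hP0 : 0 ≤ 1 - P := by linarith
  have he0 : 0 ≤ e := by
    rw [he]
    positivity
  have key : ∀ l < lm, avgR K (β l) + c * avgR K (Δ l) ≤ avgR K (β (l + 1)) + e := by
    intro l hl
    have h1 : avgR K (fun R => ((P / 2) * β l R + (1 / 2) * β l (R + 1)) + c * Δ l R) ≤
        avgR K (β (l + 1)) :=
      avgR_mono fun R hR => by linarith [step l hl R hR]
    rw [avgR_add, avgR_const_mul, avgR_add, avgR_const_mul, avgR_const_mul] at h1
    have h2 := abs_avgR_shift hK0 (hβ0 l hl.le) (hβU l hl.le)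
    have h3 := (abs_le.mp h2).1
    have h4 : U / (2 * K) = (1 / 2) * (U / K) := by
      field_simp
    have h5 : avgR K (β l) ≤ U := avgR_le hK0 fun R hR => hβU l hl.le R hR.le
    have h6 : (1 - P) * avgR K (β l) ≤ (1 - P) * U := mul_le_mul_of_nonneg_left h5 hP0
    rw [he, h4]
    linarith
  have hΔa : ∀ l < lm, 0 ≤ avgR K (Δ l) := fun l hl => avgR_nonneg (hΔ l hl)
  have tele : ∀ n ≤ lm, avgR K (β 0) + c * ∑ l ∈ range n, avgR K (Δ l) ≤
      avgR K (β n) + n * e := by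
    intro n
    induction n with
    | zero => intro _; simp
    | succ n ih =>
      intro hn
      have h1 := ih (by omega)
      have h2 := key n (by omega)
      rw [sum_range_succ]
      push_cast
      linarith
  have hsum : ∑ l ∈ range lm, avgR K (Δ l) ≤ 2 * U / c := by
    rw [le_div_iff₀ hc]
    have h1 := tele lm le_rfl
    have h2 : 0 ≤ avgR K (β 0) := avgR_nonneg fun R hR => hβ0 0 (by omega) R hR.le
    have h3 : avgR K (β lm) ≤ U := avgR_le hK0 fun R hR => hβU lm le_rfl R hR.le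
    have h4 : (lm : ℝ) * e ≤ U := by
      have h5 : (lm : ℝ) ≤ K := by exact_mod_cast hK
      have h6 : (lm : ℝ) * (U / (2 * K)) ≤ U / 2 := by
        calc (lm : ℝ) * (U / (2 * K)) ≤ K * (U / (2 * K)) :=
              mul_le_mul_of_nonneg_right h5 (by positivity)
          _ = U / 2 := by field_simp
      have h7 : (lm : ℝ) * ((1 - P) * U / 2) ≤ U / 2 := by
        have := mul_le_mul_of_nonneg_right hP hU0
        linarith
      rw [he, mul_add]
      linarith
    linarith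
  obtain ⟨l, hl, hl2⟩ := exists_two_small hlm hΔa hsum
  refine ⟨l, hl, hl2, ?_⟩
  have h1 := tele l (by omega)
  have h2 : 0 ≤ c * ∑ i ∈ range l, avgR K (Δ i) :=
    mul_nonneg hc.le (sum_nonneg fun i hi => hΔa i (by have := mem_range.mp hi; omega))
  have h3 : (l : ℝ) * e ≤ lm * e :=
    mul_le_mul_of_nonneg_right (by exact_mod_cast (show l ≤ lm by omega)) he0
  linarith

end Vale.Agent.P249.SP
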