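import Vale.Agent.P249.SP.Uni0

/-!
# P249, block UNI: the translated system is a system (helper205)
-/

open Finset
open scoped BigOperators symmDiff

namespace Vale.Agent.P249.SP.UniSys

open Vale.Agent.P249.SP Vale.Agent.P249.SP.Uni

variable {d : ℕ} {ι : Type} [Fintype ι]

lemma nT_nonneg (p : ℝ) (v : ι → ℝ) : 0 ≤ nT p v := by
  unfold nT
  exact Real.rpow_nonneg (Finset.sum_nonneg fun _ _ => Real.rpow_nonneg (abs_nonneg _) _) _

lemma nT_zero {p : ℝ} (hp : 1 < p) : nT p (0 : ι → ℝ) = 0 := by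
  unfold nT
  have h : ∀ i : ι, |(0 : ι → ℝ) i| ^ p = 0 := fun i => by
    rw [Pi.zero_apply, abs_zero, Real.zero_rpow (by linarith)]
  rw [Finset.sum_congr rfl fun i _ => h i, Finset.sum_const_zero, Real.zero_rpow]
  have : 0 < 1 / p := by positivity
  exact this.ne'

lemma nT_add_le {p : ℝ} (hp : 1 < p) (u v : ι → ℝ) : nT p (u + v) ≤ nT p u + nT p v := by
  unfold nT
  exact Real.Lp_add_le Finset.univ u v hp.le

lemma nT_smul {p : ℝ} (hp : 1 < p) (c : ℝ) (v : ι → ℝ) : nT p (c • v) = |c| * nT p v := by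
  unfold nT
  have h0 : 0 ≤ ∑ i, |v i| ^ p :=
    Finset.sum_nonneg fun _ _ => Real.rpow_nonneg (abs_nonneg _) _
  have h : ∑ i, |(c • v) i| ^ p = |c| ^ p * ∑ i, |v i| ^ p := by
    rw [Finset.mul_sum]
    refine Finset.sum_congr rfl fun i _ => ?_
    rw [Pi.smul_apply, smul_eq_mul, abs_mul, Real.mul_rpow (abs_nonneg _) (abs_nonneg _)]
  rw [h, Real.mul_rpow (Real.rpow_nonneg (abs_nonneg _) _) h0, ← Real.rpow_mul (abs_nonneg _),
    mul_one_div_cancel (by linarith), Real.rpow_one]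

lemma nT_sum_le {p : ℝ} (hp : 1 < p) {α : Type*} (A : Finset α) (g : α → ι → ℝ) :
    nT p (∑ a ∈ A, g a) ≤ ∑ a ∈ A, nT p (g a) := by
  classical
  induction A using Finset.induction_on with
  | empty => rw [Finset.sum_empty, Finset.sum_empty, nT_zero hp]
  | insert a A ha ih =>
      rw [Finset.sum_insert ha, Finset.sum_insert ha]
      exact (nT_add_le hp _ _).trans (by linarith)

/-- convolution of coefficient functions -/
noncomputable def conv (b χ : Co d) : Co d := fun V => ∑ S, b S * χ (V ∆ S)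

lemma poly_conv (b χ : Co d) (y : Cube d) : poly (conv b χ) y = poly b y * poly χ y := by
  have h1 : poly (conv b χ) y = ∑ S, b S * poly (tw S χ) y := by
    unfold poly conv tw
    simp only [Finset.sum_mul, Finset.mul_sum]
    rw [Finset.sum_comm]
    exact Finset.sum_congr rfl fun S _ => Finset.sum_congr rfl fun V _ => by ring
  rw [h1]
  simp only [poly_tw]
  unfold poly
  rw [Finset.sum_mul]
  exact Finset.sum_congr rfl fun S _ => by ring

lemma conv_l1 (b χ : Co d) (hχ : ∑ V, |χ V| ≤ 1) : ∑ V, |conv b χ V| ≤ ∑ S, |b S| := by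
  unfold conv
  calc ∑ V, |∑ S, b S * χ (V ∆ S)| ≤ ∑ V, ∑ S, |b S| * |χ (V ∆ S)| := by
        refine Finset.sum_le_sum fun V _ => (Finset.abs_sum_le_sum_abs _ _).trans ?_
        exact Finset.sum_le_sum fun S _ => by rw [abs_mul]
    _ = ∑ S, |b S| * ∑ V, |χ V| := by
        rw [Finset.sum_comm]
        refine Finset.sum_congr rfl fun S _ => ?_
        rw [← Finset.mul_sum, sum_sd S fun V => |χ V|]
    _ ≤ ∑ S, |b S| * 1 :=
        Finset.sum_le_sum fun S _ => mul_le_mul_of_nonneg_left hχ (abs_nonneg _)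
    _ = ∑ S, |b S| := by simp

lemma conv_supp {s k m m1 : ℕ} (hkm : k * s + m1 ≤ m) {b χ : Co d}
    (hb : ∀ S, m1 < S.card → b S = 0) (hχ : ∀ V, k * s < V.card → χ V = 0) (V : Finset (Fin d))
    (hV : m < V.card) : conv b χ V = 0 := by
  unfold conv
  refine Finset.sum_eq_zero fun S _ => ?_
  by_cases h1 : m1 < S.card
  · rw [hb S h1, zero_mul]
  · have h2 : V.card ≤ (V ∆ S).card + S.card := by
      conv_lhs => rw [← sd_sd V S]
      exact card_sd_le _ _
    rw [hχ (V ∆ S) (by omega), mul_zero]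

lemma sum_conv_smul (b χ : Co d) (T : Finset (Fin d) → ι → ℝ) :
    ∑ S, b S • trans χ T S = ∑ V, conv b χ V • T V := by
  funext i
  simp only [Finset.sum_apply, Pi.smul_apply, smul_eq_mul, trans, conv, Finset.mul_sum,
    Finset.sum_mul]
  rw [Finset.sum_comm]
  have h : ∀ S : Finset (Fin d), ∑ V, b S * (χ V * T (V ∆ S) i) =
      ∑ V, b S * χ (V ∆ S) * T V i := fun S => by
    rw [← sum_sd S fun V => b S * (χ V * T (V ∆ S) i)]
    refine Finset.sum_congr rfl fun V _ => ?_
    rw [sd_sd]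
    ring
  rw [Finset.sum_comm, Finset.sum_congr rfl fun S _ => h S, Finset.sum_comm]

lemma nY_mono {p : ℝ} (hp : 1 < p) {f g : Cube d → ℝ} (h : ∀ y, |f y| ≤ |g y|) :
    nY p f ≤ nY p g := by
  unfold nY
  refine Real.rpow_le_rpow (div_nonneg (Finset.sum_nonneg fun _ _ =>
    Real.rpow_nonneg (abs_nonneg _) _) (by positivity)) ?_ (by positivity)
  refine div_le_div_of_nonneg_right ?_ (by positivity)
  exact Finset.sum_le_sum fun y _ => Real.rpow_le_rpow (abs_nonneg _) (h y) (by linarith)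

/-- **the translated system is a system** -/
theorem sys_trans {p D ε : ℝ} (hp : 1 < p) (hD : 0 ≤ D) (hε : 0 ≤ ε) {s k m m1 : ℕ}
    (hkm : k * s + m1 ≤ m) {τ : List (Fin d × Bool) → Finset (Fin d) → ι → ℝ}
    (hτ : Sys p D ε d m τ) {χ : Co d} (hχ : Adm s k χ) :
    Sys p D ε d m1 (fun P => trans χ (τ P)) := by
  refine ⟨fun P hP b hb => ?_, fun P hP i β S hS => ?_⟩
  · rw [sum_conv_smul]
    refine (hτ.L1 P hP (conv b χ) (fun V hV => conv_supp hkm hb hχ.supp V hV)).trans ?_
    refine add_le_add (mul_le_mul_of_nonneg_left (nY_mono hp fun y => ?_) hD)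
      (mul_le_mul_of_nonneg_left (conv_l1 b χ hχ.l1) hε)
    rw [poly_conv, ← mul_assoc, abs_mul]
    calc |ind P y * poly b y| * |poly χ y| ≤ |ind P y * poly b y| * 1 :=
          mul_le_mul_of_nonneg_left (hχ.sup y) (abs_nonneg _)
      _ = _ := mul_one _
  · have h1 : trans χ (τ (P ++ [(i, β)])) S -
        (1 / 2 : ℝ) • (trans χ (τ P) S + sg β • trans χ (τ P) (S ∆ {i})) =
        ∑ V, χ V • (τ (P ++ [(i, β)]) (V ∆ S) -
          (1 / 2 : ℝ) • (τ P (V ∆ S) + sg β • τ P ((V ∆ S) ∆ {i}))) := by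
      funext j
      simp only [Finset.sum_apply, Pi.smul_apply, Pi.sub_apply, Pi.add_apply, smul_eq_mul, trans]
      have e : ∀ V : Finset (Fin d), V ∆ (S ∆ {i}) = (V ∆ S) ∆ {i} := fun V =>
        (symmDiff_assoc V S {i}).symm
      simp only [e]
      rw [Finset.mul_sum, ← Finset.sum_add_distrib, Finset.mul_sum, ← Finset.sum_sub_distrib]
      exact Finset.sum_congr rfl fun V _ => by ring
    rw [h1]
    refine (nT_sum_le hp _ _).trans ?_
    calc ∑ V, nT p (χ V • (τ (P ++ [(i, β)]) (V ∆ S) -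
          (1 / 2 : ℝ) • (τ P (V ∆ S) + sg β • τ P ((V ∆ S) ∆ {i}))))
        ≤ ∑ V, |χ V| * ε := by
          refine Finset.sum_le_sum fun V _ => ?_
          rw [nT_smul hp]
          by_cases hV : k * s < V.card
          · rw [hχ.supp V hV, abs_zero, zero_mul, zero_mul]
          · refine mul_le_mul_of_nonneg_left (hτ.L2 P hP i β (V ∆ S) ?_) (abs_nonneg _)
            have := card_sd_le V S
            omega
      _ = (∑ V, |χ V|) * ε := by rw [Finset.sum_mul]
      _ ≤ 1 * ε := mul_le_mul_of_nonneg_right hχ.l1 hε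
      _ = ε := one_mul _

end Vale.Agent.P249.SP.UniSys
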